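import Vale.Agent.P232.NearTubeExc

/-!
# P232: strict forms of the bounds for the data of the three axes

With a fixed margin, except near the tube and the slab, where the slack vanishes with the distance
to their data.
-/

namespace Vale.Agent.P232

noncomputable section

open Set Real

/-- Near the slab, the distance to its data is paid in addition. -/
def SlabSlack (v P η : ℝ) (f a : Fin 3 → ℝ) : Prop :=
  ∃ i, f i ≤ 1 / 1000 ∧ 999 / 1000 ≤ a i ∧ a i ≤ 1 ∧
    goalF v + (f i + (1 - a i)) / 10 ^ 4 ≤ P + η

/-- The bound with a margin, or the data are near those of a tube or of a slab. -/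
def StrictCore (v P η : ℝ) (f a : Fin 3 → ℝ) : Prop :=
  goalF v + 1 / 10 ^ 8 ≤ P + η ∨ TubeExc v f a ∨ SlabSlack v P η f a

/-- The strict core statement on an interval of volumes. -/
def StrictWindow (L lo hi : ℝ) : Prop :=
  ∀ (v P η : ℝ) (f a S : Fin 3 → ℝ), v ∈ Icc lo hi → 0 ≤ η → Data L v P η f a S →
    StrictCore v P η f a

theorem StrictWindow.core {L lo hi : ℝ} (h : StrictWindow L lo hi) :
    WindowCore L lo hi TubeExc := by
  intro v P η f a S hv hη hD
  rcases h v P η f a S hv hη hD with h' | h' | ⟨i, -, -, ha, h'⟩
  · exact Or.inl (le_trans (le_add_of_nonneg_right (by norm_num)) h')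
  · exact Or.inr h'
  · exact Or.inl (le_trans (le_add_of_nonneg_right
      (div_nonneg (by linarith [(hD.ax i).f_nonneg]) (by norm_num))) h')

end

end Vale.Agent.P232
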