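import Vale.Agent.P232.Rigid.Shapes
import Vale.Agent.P232.Compl
import Vale.Agent.P232.Axis

/-!
# P232: sets with the moments of a ball or a disc

Among the sets of a given volume the sublevel set of the squared distance from a point has
strictly the least second moment about that point.
-/

namespace Vale.Agent.P232.Rigid

noncomputable section

open MeasureTheory Set Real Approx

/-- Among sets of a given measure a sublevel set of `g` strictly minimises the integral of `g`. -/
lemma bathtub {α : Type*} [MeasurableSpace α] {μ : Measure α} [IsFiniteMeasure μ] {A : Set α}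
    {g : α → ℝ} {K C : ℝ} (hg : Measurable g) (hb : ∀ x, |g x| ≤ C) (hA : MeasurableSet A)
    (hm : μ.real A = μ.real {x | g x < K})
    (hI : ∫ x in A, g x ∂μ ≤ ∫ x in {x | g x < K}, g x ∂μ) : A =ᵐ[μ] {x | g x < K} := by
  set B : Set α := {x | g x < K}
  have hB : MeasurableSet B := measurableSet_lt hg measurable_const
  have hgi : Integrable g μ := Integrable.of_bound hg.aestronglyMeasurable C (ae_of_all _ hb)
  have hki : Integrable (fun x => g x - K) μ := hgi.sub (integrable_const K)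
  set h : α → ℝ := fun x => A.indicator (fun x => g x - K) x - B.indicator (fun x => g x - K) x
  have h0 : ∀ x, 0 ≤ h x := fun x => by
    by_cases ha : x ∈ A <;> by_cases hx : x ∈ B <;> simp [h, ha, hx]
    · exact not_lt.1 hx
    · exact le_of_lt hx
  have hhi : Integrable h μ := (hki.indicator hA).sub (hki.indicator hB)
  have hint : ∫ x, h x ∂μ ≤ 0 := by
    simp only [h]
    rw [integral_sub (hki.indicator hA) (hki.indicator hB), integral_indicator hA,
      integral_indicator hB, integral_sub hgi.integrableOn (integrable_const K).integrableOn,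
      integral_sub hgi.integrableOn (integrable_const K).integrableOn, setIntegral_const,
      setIntegral_const, hm]
    linarith
  have hz := (integral_eq_zero_iff_of_nonneg h0 hhi).1 (le_antisymm hint (integral_nonneg h0))
  have hz' : μ {x | h x ≠ 0} = 0 := ae_iff.1 hz
  have hBA : μ (B \ A) = 0 := measure_mono_null (fun x hx => by
    have hx1 : g x < K := hx.1
    have hh : h x = K - g x := by simp [h, hx.1, hx.2]
    show h x ≠ 0
    rw [hh]
    linarith) hz'
  have hm' : μ A = μ B := (ENNReal.toReal_eq_toReal_iff' (measure_ne_top μ A)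
    (measure_ne_top μ B)).1 hm
  rw [← measure_inter_add_sdiff A hB, ← measure_inter_add_sdiff B hA, inter_comm B A, hBA] at hm'
  exact ae_eq_set.2 ⟨(ENNReal.add_right_inj (measure_ne_top μ _)).1 hm', hBA⟩

/-! ### The squared distance to the nearest integer -/

lemma zsq_add_one (x : ℝ) : zsq (x + 1) = zsq x := by
  simp [zsq, round_add_one]

lemma zsq_shift (x c : ℝ) : zsq (x + 1 - c) = zsq (x - c) := by
  rw [add_sub_right_comm, zsq_add_one]

lemma measurable_zsq : Measurable zsq := by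
  have e : zsq = fun x : ℝ => (x - (⌊x + 1 / 2⌋ : ℤ)) ^ 2 := funext fun x => by
    rw [zsq, round_eq]
  rw [e]
  fun_prop

lemma zsq_nonneg (x : ℝ) : 0 ≤ zsq x := sq_nonneg _

lemma zsq_le (x : ℝ) : zsq x ≤ 1 / 4 := by
  have h := abs_le.1 (abs_sub_round x)
  rw [zsq]
  nlinarith

lemma zsq_eq {x : ℝ} (h0 : -(1 / 2) ≤ x) (h1 : x ≤ 1 / 2) : zsq x = x ^ 2 := by
  rcases h1.lt_or_eq with h | h
  · rw [zsq, round_eq, Int.floor_eq_zero_iff.2 ⟨by linarith, by linarith⟩, Int.cast_zero, sub_zero]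
  · rw [zsq, h, round_eq]
    norm_num

/-- A periodic function of the distance to `c`, integrated over a period. -/
lemma integral_zsq (F : ℝ → ℝ) (c : ℝ) :
    ∫ t in (0 : ℝ)..1, F (zsq (t - c)) = ∫ s in (-(1 / 2) : ℝ)..1 / 2, F (s ^ 2) := by
  have h1 := interval_shift (f := fun s => F (zsq s)) (fun s => by simp only [zsq_add_one]) (-c)
  simp only [← sub_eq_add_neg] at h1
  have h2 := (show Function.Periodic (fun s => F (zsq s)) 1 from
    fun s => by simp only [zsq_add_one]).intervalIntegral_add_eq (-(1 / 2)) 0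
  norm_num at h2
  rw [h1, ← h2]
  refine intervalIntegral.integral_congr fun s hs => ?_
  rw [uIcc_of_le (by norm_num)] at hs
  rw [zsq_eq hs.1 hs.2]

/-- The second moment as an integral over one period. -/
lemma moment_eq {A : ℝ → ℝ} (hA : Function.Periodic A 1) (c : ℝ) :
    moment A c = ∫ t in (0 : ℝ)..1, zsq (t - c) * A t := by
  have h := (show Function.Periodic (fun t => zsq (t - c) * A t) 1 from
    fun t => by simp only [zsq_shift, hA t]).intervalIntegral_add_eq (c - 1 / 2) 0
  rw [zero_add, show c - 1 / 2 + 1 = c + 1 / 2 by ring] at h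
  rw [moment, ← h]
  refine intervalIntegral.integral_congr fun t ht => ?_
  rw [uIcc_of_le (by linarith)] at ht
  simp only [zsq_eq (show -(1 / 2) ≤ t - c by linarith [ht.1]) (by linarith [ht.2])]

/-! ### One-dimensional integrals -/

lemma integral_trim {f : ℝ → ℝ} (hf : Continuous f) {R : ℝ} (hR : 0 ≤ R) (hR' : R ≤ 1 / 2)
    (h0 : ∀ s, R ^ 2 ≤ s ^ 2 → f s = 0) :
    ∫ s in (-(1 / 2) : ℝ)..1 / 2, f s = ∫ s in -R..R, f s := by
  have z : ∀ a b : ℝ, (∀ s ∈ uIcc a b, R ^ 2 ≤ s ^ 2) → ∫ s in a..b, f s = 0 := fun a b h => by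
    rw [intervalIntegral.integral_congr (g := fun _ => (0 : ℝ)) fun s hs => h0 s (h s hs)]
    simp
  rw [← intervalIntegral.integral_add_adjacent_intervals (b := R) (hf.intervalIntegrable _ _)
      (hf.intervalIntegrable _ _),
    ← intervalIntegral.integral_add_adjacent_intervals (a := -(1 / 2)) (b := -R) (c := R)
      (hf.intervalIntegrable _ _) (hf.intervalIntegrable _ _), z _ _ fun s hs => ?_,
    z R _ fun s hs => ?_, zero_add, add_zero]
  · rw [uIcc_of_le hR'] at hs
    nlinarith [hs.1]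
  · rw [uIcc_of_le (by linarith)] at hs
    nlinarith [hs.2]

/-- The substitution `s = R sin θ`. -/
lemma integral_semicircle {φ : ℝ → ℝ} (hφ : Continuous φ) {R : ℝ} (hR : 0 ≤ R) :
    ∫ s in -R..R, φ s * √(R ^ 2 - s ^ 2) =
      R ^ 2 * ∫ θ in -(π / 2)..π / 2, φ (R * Real.sin θ) * Real.cos θ ^ 2 := by
  have h := intervalIntegral.integral_comp_mul_deriv (a := -(π / 2)) (b := π / 2)
    (f := fun θ => R * Real.sin θ) (f' := fun θ => R * Real.cos θ)
    (g := fun s => φ s * √(R ^ 2 - s ^ 2)) (fun θ _ => (Real.hasDerivAt_sin θ).const_mul R)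
    (continuous_const.mul Real.continuous_cos).continuousOn (by fun_prop)
  simp only [Real.sin_neg, Real.sin_pi_div_two, mul_neg, mul_one, Function.comp_apply] at h
  rw [← h, ← intervalIntegral.integral_const_mul]
  refine intervalIntegral.integral_congr fun θ hθ => ?_
  rw [uIcc_of_le (by linarith [pi_pos])] at hθ
  have e : R ^ 2 - (R * Real.sin θ) ^ 2 = (R * Real.cos θ) ^ 2 := by
    linear_combination (-R ^ 2) * Real.sin_sq_add_cos_sq θ
  simp only [e, Real.sqrt_sq (mul_nonneg hR (Real.cos_nonneg_of_mem_Icc hθ))]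
  ring

lemma integral_chord {K : ℝ} (hK : K ≤ 1 / 4) :
    ∫ s in (-(1 / 2) : ℝ)..1 / 2, 2 * √(K - s ^ 2) = π * max K 0 := by
  rcases le_or_gt K 0 with h | h
  · rw [max_eq_right h, mul_zero, intervalIntegral.integral_congr (g := fun _ => (0 : ℝ))]
    · simp
    · intro s _
      simp only [Real.sqrt_eq_zero'.2 (show K - s ^ 2 ≤ 0 by linarith [sq_nonneg s]), mul_zero]
  · have hR : √K ^ 2 = K := Real.sq_sqrt h.le
    have hR' : √K ≤ 1 / 2 := by rw [Real.sqrt_le_left (by norm_num)]; linarith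
    rw [integral_trim (by fun_prop) (Real.sqrt_nonneg K) hR' fun s hs => by
      rw [Real.sqrt_eq_zero'.2 (by rw [hR] at hs; linarith), mul_zero]]
    conv_lhs => rw [← hR, Real.sqrt_sq (Real.sqrt_nonneg K)]
    rw [integral_semicircle (φ := fun _ => 2) continuous_const (Real.sqrt_nonneg K),
      intervalIntegral.integral_const_mul, integral_cos_sq, max_eq_left h.le, hR]
    simp only [Real.sin_neg, Real.sin_pi_div_two, Real.cos_neg, Real.cos_pi_div_two]
    ring

lemma integral_chord_sq {r : ℝ} (hr : 0 ≤ r) (hr' : r ≤ 1 / 2) :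
    ∫ s in (-(1 / 2) : ℝ)..1 / 2, s ^ 2 * (2 * √(r ^ 2 - s ^ 2)) = π * r ^ 4 / 4 := by
  rw [integral_trim (by fun_prop) hr hr' fun s hs => by
    rw [Real.sqrt_eq_zero'.2 (by linarith), mul_zero, mul_zero]]
  rw [show (fun s => s ^ 2 * (2 * √(r ^ 2 - s ^ 2))) = fun s => 2 * s ^ 2 * √(r ^ 2 - s ^ 2) from
    funext fun s => by ring, integral_semicircle (φ := fun s => 2 * s ^ 2) (by fun_prop) hr]
  rw [show (fun θ => 2 * (r * Real.sin θ) ^ 2 * Real.cos θ ^ 2) =
    fun θ => 2 * r ^ 2 * (Real.sin θ ^ 2 * Real.cos θ ^ 2) from funext fun θ => by ring,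
    intervalIntegral.integral_const_mul, integral_sin_sq_mul_cos_sq]
  have e : Real.sin (4 * (π / 2)) = 0 := by
    rw [show 4 * (π / 2) = ((2 : ℕ) : ℝ) * π by norm_num; ring]
    exact Real.sin_nat_mul_pi 2
  have e' : Real.sin (4 * -(π / 2)) = 0 := by rw [mul_neg, Real.sin_neg, e, neg_zero]
  rw [e, e']
  ring

lemma integral_cap (n : ℕ) {r : ℝ} (hr : 0 ≤ r) (hr' : r ≤ 1 / 2) :
    ∫ s in (-(1 / 2) : ℝ)..1 / 2, s ^ n * (π * max (r ^ 2 - s ^ 2) 0) =
      π * (r ^ 2 * ((r ^ (n + 1) - (-r) ^ (n + 1)) / (n + 1)) -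
        (r ^ (n + 3) - (-r) ^ (n + 3)) / (n + 3)) := by
  rw [integral_trim (by fun_prop) hr hr' fun s hs => by
    rw [max_eq_right (by linarith), mul_zero, mul_zero]]
  rw [intervalIntegral.integral_congr
    (g := fun s => π * (r ^ 2 * s ^ n - s ^ (n + 2))) fun s hs => ?_]
  · rw [intervalIntegral.integral_const_mul, intervalIntegral.integral_sub
      (f := fun s => r ^ 2 * s ^ n) (g := fun s => s ^ (n + 2))
      ((continuous_const.mul (continuous_pow n)).intervalIntegrable _ _)
      ((continuous_pow (n + 2)).intervalIntegrable _ _), intervalIntegral.integral_const_mul,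
      integral_pow, integral_pow]
    push_cast
    ring
  · rw [uIcc_of_le (by linarith)] at hs
    simp only [max_eq_left (show (0 : ℝ) ≤ r ^ 2 - s ^ 2 by nlinarith [hs.1, hs.2])]
    ring

/-- The length of `{zsq < K}` in one period. -/
lemma integral_line (c : ℝ) {K : ℝ} (hK : K ≤ 1 / 4) :
    ∫ z in (0 : ℝ)..1, (if zsq (z - c) < K then (1 : ℝ) else 0) = 2 * √K := by
  refine (integral_zsq (fun y => if y < K then (1 : ℝ) else 0) c).trans ?_
  have hR' : √K ≤ 1 / 2 := by rw [Real.sqrt_le_left (by norm_num)]; linarith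
  have e : (fun s : ℝ => if s ^ 2 < K then (1 : ℝ) else 0) =
      (Ioo (-√K) √K).indicator fun _ => 1 := funext fun s => by
    simp only [indicator_apply, mem_Ioo]
    exact if_congr Real.sq_lt rfl rfl
  have es : Ioc (-(1 / 2) : ℝ) (1 / 2) ∩ Ioo (-√K) √K = Ioo (-√K) √K :=
    inter_eq_right.2 fun s hs => ⟨by linarith [hs.1], by linarith [hs.2]⟩
  rw [e, intervalIntegral.integral_of_le (by norm_num), setIntegral_indicator measurableSet_Ioo,
    es, setIntegral_const, Real.volume_real_Ioo_of_le (by linarith [Real.sqrt_nonneg K])]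
  simp only [smul_eq_mul]
  ring

/-! ### Periodic sets -/

lemma restrict_square : (volume : Measure (ℝ × ℝ)).restrict square = unitVol.prod unitVol := by
  rw [square, Measure.volume_eq_prod, ← Measure.prod_restrict]
  rfl

lemma measurableSet_square : MeasurableSet square := measurableSet_Ico.prod measurableSet_Ico

lemma exists_int_Ico (x : ℝ) : ∃ n : ℤ, x + n ∈ Ico (0 : ℝ) 1 :=
  ⟨-⌊x⌋, by
    push_cast
    exact ⟨by linarith [Int.floor_le x], by linarith [Int.lt_floor_add_one x]⟩⟩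

lemma iff_shift {P : ℝ → Prop} (h : ∀ x, P (x + 1) ↔ P x) (n : ℤ) (x : ℝ) :
    P (x + n) ↔ P x := by
  have hp : Function.Periodic P 1 := fun y => propext (h y)
  simpa using Iff.of_eq (hp.int_mul n x)

/-- Periodic sets that agree in the cube agree. -/
lemma ae_eq_of_cube {E B : Set (ℝ × ℝ × ℝ)} (hE : PerSet E) (hB : PerSet B)
    (h : E =ᵐ[volume.restrict cube] B) : E =ᵐ[volume] B := by
  have key : ∀ {X Y : Set (ℝ × ℝ × ℝ)}, PerSet X → PerSet Y →
      volume.restrict cube (X \ Y) = 0 → volume (X \ Y) = 0 := by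
    intro X Y hX hY h0
    rw [Measure.restrict_apply' Approx.measurableSet_cube] at h0
    refine measure_mono_null (t := ⋃ n : ℤ × ℤ × ℤ,
      (fun p => ((n.1 : ℝ), (n.2.1 : ℝ), (n.2.2 : ℝ)) + p) ⁻¹' ((X \ Y) ∩ cube)) (fun p hp => ?_)
      (measure_iUnion_null fun n =>
        ((measurePreserving_add_left (volume : Measure ℝ) _).prod
          ((measurePreserving_add_left (volume : Measure ℝ) _).prod
            (measurePreserving_add_left (volume : Measure ℝ) _))).quasiMeasurePreserving.preimage_null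
          h0)
    obtain ⟨x, y, z⟩ := p
    obtain ⟨j, hj⟩ := exists_int_Ico x
    obtain ⟨k, hk⟩ := exists_int_Ico y
    obtain ⟨l, hl⟩ := exists_int_Ico z
    have hs : ∀ {Z : Set (ℝ × ℝ × ℝ)}, PerSet Z →
        ((x + j, y + k, z + l) ∈ Z ↔ (x, y, z) ∈ Z) := fun {Z} hZ => by
      rw [iff_shift (P := fun u => (u, y + k, z + l) ∈ Z)
          (fun u => by simpa [e₁] using (hZ (u, y + k, z + l)).1) j x,
        iff_shift (P := fun u => (x, u, z + l) ∈ Z)
          (fun u => by simpa [e₂] using (hZ (x, u, z + l)).2.1) k y,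
        iff_shift (P := fun u => (x, y, u) ∈ Z)
          (fun u => by simpa [e₃] using (hZ (x, y, u)).2.2) l z]
    refine mem_iUnion.2 ⟨(j, k, l), ?_⟩
    simp only [mem_preimage, Prod.mk_add_mk, add_comm (j : ℝ), add_comm (k : ℝ), add_comm (l : ℝ)]
    exact ⟨⟨(hs hX).2 hp.1, fun h' => hp.2 ((hs hY).1 h')⟩, hj, hk, hl⟩
  obtain ⟨h1, h2⟩ := ae_eq_set.1 h
  exact ae_eq_set.2 ⟨key hE hB h1, key hB hE h2⟩

/-- Periodic planar sets that agree in the square agree. -/
lemma ae_eq_of_square {S B : Set (ℝ × ℝ)} (hS : PerSet2 S) (hB : PerSet2 B)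
    (h : S =ᵐ[volume.restrict square] B) : S =ᵐ[volume] B := by
  have key : ∀ {X Y : Set (ℝ × ℝ)}, PerSet2 X → PerSet2 Y →
      volume.restrict square (X \ Y) = 0 → volume (X \ Y) = 0 := by
    intro X Y hX hY h0
    rw [Measure.restrict_apply' measurableSet_square] at h0
    refine measure_mono_null (t := ⋃ n : ℤ × ℤ,
      (fun p => ((n.1 : ℝ), (n.2 : ℝ)) + p) ⁻¹' ((X \ Y) ∩ square)) (fun p hp => ?_)
      (measure_iUnion_null fun n =>
        ((measurePreserving_add_left (volume : Measure ℝ) _).prod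
          (measurePreserving_add_left (volume : Measure ℝ) _)).quasiMeasurePreserving.preimage_null
          h0)
    obtain ⟨y, z⟩ := p
    obtain ⟨k, hk⟩ := exists_int_Ico y
    obtain ⟨l, hl⟩ := exists_int_Ico z
    have hs : ∀ {Z : Set (ℝ × ℝ)}, PerSet2 Z → ((y + k, z + l) ∈ Z ↔ (y, z) ∈ Z) :=
      fun {Z} hZ => by
      rw [iff_shift (P := fun u => (u, z + l) ∈ Z) (fun u => (hZ u (z + l)).1) k y,
        iff_shift (P := fun u => (y, u) ∈ Z) (fun u => (hZ y u).2) l z]
    refine mem_iUnion.2 ⟨(k, l), ?_⟩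
    simp only [mem_preimage, Prod.mk_add_mk, add_comm (k : ℝ), add_comm (l : ℝ)]
    exact ⟨⟨(hs hX).2 hp.1, fun h' => hp.2 ((hs hY).1 h')⟩, hk, hl⟩
  obtain ⟨h1, h2⟩ := ae_eq_set.1 h
  exact ae_eq_set.2 ⟨key hS hB h1, key hB hS h2⟩

lemma perSet_ballSet (c : ℝ × ℝ × ℝ) (r : ℝ) : PerSet (ballSet c r) := fun p => by
  simp [ballSet, e₁, e₂, e₃, zsq_shift]

lemma perSet2_discSet (c : ℝ × ℝ) (r : ℝ) : PerSet2 (discSet c r) := fun y z => by
  simp [discSet, zsq_shift]

lemma measurableSet_ballSet (c : ℝ × ℝ × ℝ) (r : ℝ) : MeasurableSet (ballSet c r) :=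
  measurableSet_lt (((measurable_zsq.comp (measurable_fst.sub_const _)).add
    (measurable_zsq.comp ((measurable_fst.comp measurable_snd).sub_const _))).add
    (measurable_zsq.comp ((measurable_snd.comp measurable_snd).sub_const _))) measurable_const

lemma measurableSet_discSet (c : ℝ × ℝ) (r : ℝ) : MeasurableSet (discSet c r) :=
  measurableSet_lt ((measurable_zsq.comp (measurable_fst.sub_const _)).add
    (measurable_zsq.comp (measurable_snd.sub_const _))) measurable_const

/-! ### Moments as integrals over the cube -/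

lemma bd_zsq1 (c : ℝ) : Bd fun p => zsq (p.1 - c) :=
  ⟨measurable_zsq.comp (measurable_fst.sub_const c), 1 / 4,
    fun p => by rw [abs_of_nonneg (zsq_nonneg _)]; exact zsq_le _⟩

lemma marg_periodic {E : Set (ℝ × ℝ × ℝ)} (hE : PerSet E) : Function.Periodic (marg E) 1 :=
  fun t => by
    simp only [marg]
    congr 1
    exact funext fun q => per_fst (per_chi hE) q.1 q.2 t

lemma moment_marg {E : Set (ℝ × ℝ × ℝ)} (hm : MeasurableSet E) (hE : PerSet E) (c : ℝ) :
    moment (marg E) c = ∫ p in E ∩ cube, zsq (p.1 - c) := by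
  rw [← integral_chi_mul hm, setIntegral_cube ((bd_chi hm).mul (bd_zsq1 c)),
    moment_eq (marg_periodic hE), int3]
  refine intervalIntegral.integral_congr fun t _ => ?_
  simp only [marg, area2, mul_comm _ (zsq (t - c)), intervalIntegral.integral_const_mul]

lemma vol_eq_marg {E : Set (ℝ × ℝ × ℝ)} (hm : MeasurableSet E) :
    vol E = ∫ t in (0 : ℝ)..1, marg E t := by
  have h := setIntegral_cube (bd_chi hm)
  rw [chi, setIntegral_indicator hm, setIntegral_const, smul_eq_mul, mul_one, inter_comm] at h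
  exact h

lemma moment_cube_map {E : Set (ℝ × ℝ × ℝ)} (hm : MeasurableSet E)
    (L : (ℝ × ℝ × ℝ) →L[ℝ] ℝ × ℝ × ℝ) (hL : MeasurePreserving L volume volume)
    (hc : L ⁻¹' cube = cube) (hp : PerSet (L ⁻¹' E)) (k : ℝ × ℝ × ℝ → ℝ) (hk : Measurable k)
    (hkL : ∀ p, k (L p) = p.1) (c : ℝ) :
    moment (marg (L ⁻¹' E)) c = ∫ p in E ∩ cube, zsq (k p - c) := by
  have h := hL.restrict_preimage (hm.inter Approx.measurableSet_cube)
  rw [moment_marg (hL.measurable hm) hp, ← h.map_eq, integral_map h.measurable.aemeasurable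
    (by exact (measurable_zsq.comp (hk.sub_const c)).aestronglyMeasurable), preimage_inter, hc]
  simp only [hkL]

lemma mp_swap23 : MeasurePreserving (fun p : ℝ × ℝ × ℝ => (p.1, p.2.2, p.2.1)) volume volume :=
  (MeasurePreserving.id (volume : Measure ℝ)).prod
    (Measure.measurePreserving_swap (μ := (volume : Measure ℝ)) (ν := (volume : Measure ℝ)))

lemma mp_swap₂ : MeasurePreserving Axis.swap₂ volume volume := by
  have h1 : MeasurePreserving (MeasurableEquiv.prodAssoc : (ℝ × ℝ) × ℝ ≃ᵐ ℝ × ℝ × ℝ)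
      volume volume := volume_preserving_prodAssoc
  have h2 : MeasurePreserving (Prod.map (Prod.swap : ℝ × ℝ → ℝ × ℝ) (id : ℝ → ℝ))
      (volume : Measure ((ℝ × ℝ) × ℝ)) volume :=
    (Measure.measurePreserving_swap (μ := (volume : Measure ℝ)) (ν := (volume : Measure ℝ))).prod
      (MeasurePreserving.id _)
  exact (h1.comp h2).comp (h1.symm _)

lemma mp_cyc₃ : MeasurePreserving Axis.cyc₃ volume volume := mp_swap23.comp mp_swap₂

lemma perSet_swap₂ {E : Set (ℝ × ℝ × ℝ)} (hE : PerSet E) : PerSet (Axis.swap₂ ⁻¹' E) := fun p => by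
  have h := hE (Axis.swap₂ p)
  simp only [Axis.swap₂_apply, e₁, e₂, e₃, Prod.mk_add_mk, mem_preimage] at h ⊢
  simp only [Prod.fst_add, Prod.snd_add, add_zero] at h ⊢
  exact ⟨h.2.1, h.1, h.2.2⟩

lemma perSet_cyc₃ {E : Set (ℝ × ℝ × ℝ)} (hE : PerSet E) : PerSet (Axis.cyc₃ ⁻¹' E) := fun p => by
  have h := hE (Axis.cyc₃ p)
  simp only [Axis.cyc₃_apply, e₁, e₂, e₃, Prod.mk_add_mk, mem_preimage] at h ⊢
  simp only [Prod.fst_add, Prod.snd_add, add_zero] at h ⊢
  exact ⟨h.2.2, h.1, h.2.1⟩

lemma swap₂_cube : Axis.swap₂ ⁻¹' cube = cube := by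
  ext ⟨x, y, z⟩
  simp only [Axis.swap₂_apply, cube, mem_preimage, mem_prod]
  tauto

lemma cyc₃_cube : Axis.cyc₃ ⁻¹' cube = cube := by
  ext ⟨x, y, z⟩
  simp only [Axis.cyc₃_apply, cube, mem_preimage, mem_prod]
  tauto

/-- The total second moment about `c`. -/
lemma sum_moments {E : Set (ℝ × ℝ × ℝ)} (hm : MeasurableSet E) (hE : PerSet E) (c : ℝ × ℝ × ℝ) :
    ∫ p in E ∩ cube, (zsq (p.1 - c.1) + zsq (p.2.1 - c.2.1) + zsq (p.2.2 - c.2.2)) =
      moment (marg E) c.1 + moment (marg (Axis.swap₂ ⁻¹' E)) c.2.1 +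
        moment (marg (Axis.cyc₃ ⁻¹' E)) c.2.2 := by
  rw [moment_marg hm hE,
    moment_cube_map hm _ mp_swap₂ swap₂_cube (perSet_swap₂ hE) (fun p => p.2.1) (by fun_prop)
      (fun p => rfl),
    moment_cube_map hm _ mp_cyc₃ cyc₃_cube (perSet_cyc₃ hE) (fun p => p.2.2) (by fun_prop)
      (fun p => rfl)]
  have hfin : volume (E ∩ cube) < ⊤ :=
    (measure_mono inter_subset_right).trans_lt (by simp [Approx.volume_cube])
  have hi : ∀ k : ℝ × ℝ × ℝ → ℝ, Measurable k → ∀ a,
      IntegrableOn (fun p => zsq (k p - a)) (E ∩ cube) := fun k hk a =>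
    Bd.integrableOn ⟨measurable_zsq.comp (hk.sub_const a), 1 / 4,
      fun p => by show |zsq _| ≤ _; rw [abs_of_nonneg (zsq_nonneg _)]; exact zsq_le _⟩ hfin
  have i1 : IntegrableOn (fun p => zsq (p.1 - c.1)) (E ∩ cube) := hi _ measurable_fst _
  have i2 : IntegrableOn (fun p => zsq (p.2.1 - c.2.1)) (E ∩ cube) :=
    hi _ (measurable_fst.comp measurable_snd) _
  have i3 : IntegrableOn (fun p => zsq (p.2.2 - c.2.2)) (E ∩ cube) :=
    hi _ (measurable_snd.comp measurable_snd) _
  have i12 : IntegrableOn (fun p => zsq (p.1 - c.1) + zsq (p.2.1 - c.2.1)) (E ∩ cube) := i1.add i2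
  rw [integral_add i12 i3, integral_add i1 i2]

lemma marg_ballSet (c : ℝ × ℝ × ℝ) {r : ℝ} (hr : 0 ≤ r) (hr' : r ≤ 1 / 2) (t : ℝ) :
    marg (ballSet c r) t = π * max (r ^ 2 - zsq (t - c.1)) 0 := by
  have hK : r ^ 2 - zsq (t - c.1) ≤ 1 / 4 := by nlinarith [zsq_nonneg (t - c.1)]
  have h : ∀ y : ℝ, ∫ z in (0 : ℝ)..1, chi (ballSet c r) (t, y, z) =
      2 * √(r ^ 2 - zsq (t - c.1) - zsq (y - c.2.1)) := fun y => by
    rw [← integral_line c.2.2 (K := r ^ 2 - zsq (t - c.1) - zsq (y - c.2.1))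
      (by linarith [zsq_nonneg (y - c.2.1)])]
    refine intervalIntegral.integral_congr fun z _ => ?_
    simp only [chi, indicator_apply, ballSet, mem_ofPred_eq]
    exact if_congr (by constructor <;> intro h <;> linarith) rfl rfl
  simp only [marg, area2, h]
  rw [integral_zsq (fun u => 2 * √(r ^ 2 - zsq (t - c.1) - u)) c.2.1, integral_chord hK]

lemma moment_ballSet (c : ℝ × ℝ × ℝ) {r : ℝ} (hr : 0 ≤ r) (hr' : r ≤ 1 / 2) :
    moment (marg (ballSet c r)) c.1 = 4 / 15 * π * r ^ 5 := by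
  rw [moment_eq (marg_periodic (perSet_ballSet c r))]
  simp only [marg_ballSet c hr hr']
  rw [integral_zsq (fun u => u * (π * max (r ^ 2 - u) 0)) c.1, integral_cap 2 hr hr']
  push_cast
  ring

lemma vol_ballSet (c : ℝ × ℝ × ℝ) {r : ℝ} (hr : 0 ≤ r) (hr' : r ≤ 1 / 2) :
    vol (ballSet c r) = 4 / 3 * π * r ^ 3 := by
  rw [vol_eq_marg (measurableSet_ballSet c r)]
  simp only [marg_ballSet c hr hr']
  rw [integral_zsq (fun u => π * max (r ^ 2 - u) 0) c.1]
  have h := integral_cap 0 hr hr'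
  simp only [pow_zero, one_mul] at h
  rw [h]
  push_cast
  ring

lemma swap₂_ballSet (c : ℝ × ℝ × ℝ) (r : ℝ) :
    Axis.swap₂ ⁻¹' ballSet c r = ballSet (c.2.1, c.1, c.2.2) r := by
  ext p
  simp only [ballSet, mem_preimage, mem_ofPred_eq, Axis.swap₂_apply]
  constructor <;> intro h <;> linarith

lemma cyc₃_ballSet (c : ℝ × ℝ × ℝ) (r : ℝ) :
    Axis.cyc₃ ⁻¹' ballSet c r = ballSet (c.2.2, c.1, c.2.1) r := by
  ext p
  simp only [ballSet, mem_preimage, mem_ofPred_eq, Axis.cyc₃_apply]
  constructor <;> intro h <;> linarith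

/-- A set of the volume of a ball, with second moments no larger, is that ball. -/
theorem ball_rigid {E : Set (ℝ × ℝ × ℝ)} (hm : MeasurableSet E) (hE : PerSet E) {r : ℝ}
    (hr : 0 < r) (hr' : r ≤ 1 / 2) (hv : vol E = 4 / 3 * π * r ^ 3) {c : ℝ × ℝ × ℝ}
    (h0 : moment (marg E) c.1 ≤ 4 / 15 * π * r ^ 5)
    (h1 : moment (marg (Axis.swap₂ ⁻¹' E)) c.2.1 ≤ 4 / 15 * π * r ^ 5)
    (h2 : moment (marg (Axis.cyc₃ ⁻¹' E)) c.2.2 ≤ 4 / 15 * π * r ^ 5) :
    E =ᵐ[volume] ballSet c r := by
  refine ae_eq_of_cube hE (perSet_ballSet c r) ?_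
  have hB := measurableSet_ballSet c r
  refine bathtub (μ := (volume : Measure (ℝ × ℝ × ℝ)).restrict cube)
    (g := fun p => zsq (p.1 - c.1) + zsq (p.2.1 - c.2.1) + zsq (p.2.2 - c.2.2)) (C := 1)
    ?_ (fun p => ?_) hm ?_ ?_
  · exact ((measurable_zsq.comp (measurable_fst.sub_const _)).add
      (measurable_zsq.comp ((measurable_fst.comp measurable_snd).sub_const _))).add
      (measurable_zsq.comp ((measurable_snd.comp measurable_snd).sub_const _))
  · have := zsq_le (p.1 - c.1)
    have := zsq_le (p.2.1 - c.2.1)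
    have := zsq_le (p.2.2 - c.2.2)
    have := zsq_nonneg (p.1 - c.1)
    have := zsq_nonneg (p.2.1 - c.2.1)
    have := zsq_nonneg (p.2.2 - c.2.2)
    exact abs_le.2 ⟨by linarith, by linarith⟩
  · show _ = Measure.real _ (ballSet c r)
    rw [measureReal_restrict_apply hm, measureReal_restrict_apply hB]
    exact hv.trans (vol_ballSet c hr.le hr').symm
  · show _ ≤ ∫ p in ballSet c r, _ ∂_
    rw [Measure.restrict_restrict hm, Measure.restrict_restrict hB, sum_moments hm hE,
      sum_moments hB (perSet_ballSet c r), moment_ballSet c hr.le hr', swap₂_ballSet, cyc₃_ballSet]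
    have a1 := moment_ballSet (c.2.1, c.1, c.2.2) hr.le hr'
    have a2 := moment_ballSet (c.2.2, c.1, c.2.1) hr.le hr'
    simp only at a1 a2
    linarith

/-! ### The plane -/

lemma bd2_integrable {F : ℝ × ℝ → ℝ} (hF : Measurable F) (hb : ∀ q, |F q| ≤ 1) :
    Integrable F (unitVol.prod unitVol) :=
  Integrable.of_bound hF.aestronglyMeasurable 1 (ae_of_all _ hb)

lemma setIntegral_square {S : Set (ℝ × ℝ)} (hm : MeasurableSet S) {F : ℝ → ℝ} (hF : Measurable F)
    (hb : ∀ x, |F x| ≤ 1) :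
    ∫ q in S ∩ square, F q.1 = ∫ t in (0 : ℝ)..1, F t * marg2 S t := by
  have hi : Integrable (fun q : ℝ × ℝ => S.indicator (fun q => F q.1) q) (unitVol.prod unitVol) :=
    (bd2_integrable (hF.comp measurable_fst) fun q => hb _).indicator hm
  rw [← Measure.restrict_restrict hm, restrict_square, ← integral_indicator hm, integral_prod _ hi,
    integral_unitVol]
  refine intervalIntegral.integral_congr fun t _ => ?_
  simp only [marg2, ← intervalIntegral.integral_const_mul, integral_unitVol]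
  refine intervalIntegral.integral_congr fun z _ => ?_
  by_cases h : (t, z) ∈ S <;> simp [chi2, h]

lemma marg2_periodic {S : Set (ℝ × ℝ)} (hS : PerSet2 S) : Function.Periodic (marg2 S) 1 :=
  fun t => intervalIntegral.integral_congr fun z _ => indicator_eq_indicator (hS t z).1 rfl

lemma moment_marg2 {S : Set (ℝ × ℝ)} (hm : MeasurableSet S) (hS : PerSet2 S) (c : ℝ) :
    moment (marg2 S) c = ∫ q in S ∩ square, zsq (q.1 - c) := by
  rw [moment_eq (marg2_periodic hS), setIntegral_square hm (F := fun x => zsq (x - c))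
    (measurable_zsq.comp (measurable_id.sub_const c))
    fun x => by rw [abs_of_nonneg (zsq_nonneg _)]; linarith [zsq_le (x - c)]]

lemma moment_marg2_swap {S : Set (ℝ × ℝ)} (hm : MeasurableSet S) (hS : PerSet2 S) (c : ℝ) :
    moment (marg2 (Prod.swap ⁻¹' S)) c = ∫ q in S ∩ square, zsq (q.2 - c) := by
  have hs : MeasurePreserving (Prod.swap : ℝ × ℝ → ℝ × ℝ) volume volume :=
    Measure.measurePreserving_swap (μ := (volume : Measure ℝ)) (ν := (volume : Measure ℝ))
  have h := hs.restrict_preimage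
    (hm.inter measurableSet_square)
  have hc : (Prod.swap : ℝ × ℝ → ℝ × ℝ) ⁻¹' square = square := by
    ext ⟨y, z⟩
    simp only [square, mem_preimage, Prod.swap_prod_mk, mem_prod]
    tauto
  rw [moment_marg2 (hm.preimage measurable_swap) (fun y z => ⟨(hS z y).2, (hS z y).1⟩), ← h.map_eq,
    integral_map h.measurable.aemeasurable
      (by exact (measurable_zsq.comp (measurable_snd.sub_const c)).aestronglyMeasurable),
    preimage_inter, hc]
  rfl

lemma vol2_eq_marg2 {S : Set (ℝ × ℝ)} (hm : MeasurableSet S) :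
    vol2 S = ∫ t in (0 : ℝ)..1, marg2 S t := by
  have h := setIntegral_square hm (F := fun _ => (1 : ℝ)) measurable_const (by simp)
  rw [setIntegral_const, smul_eq_mul, mul_one] at h
  simp only [one_mul] at h
  exact h

lemma marg2_discSet (c : ℝ × ℝ) {r : ℝ} (hr : 0 ≤ r) (hr' : r ≤ 1 / 2) (t : ℝ) :
    marg2 (discSet c r) t = 2 * √(r ^ 2 - zsq (t - c.1)) := by
  rw [marg2, ← integral_line c.2 (K := r ^ 2 - zsq (t - c.1))
    (by nlinarith [zsq_nonneg (t - c.1)])]
  refine intervalIntegral.integral_congr fun z _ => ?_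
  simp only [chi2, indicator_apply, discSet, mem_ofPred_eq]
  exact if_congr (by constructor <;> intro h <;> linarith) rfl rfl

lemma moment_discSet (c : ℝ × ℝ) {r : ℝ} (hr : 0 ≤ r) (hr' : r ≤ 1 / 2) :
    moment (marg2 (discSet c r)) c.1 = π * r ^ 4 / 4 := by
  rw [moment_eq (marg2_periodic (perSet2_discSet c r))]
  simp only [marg2_discSet c hr hr']
  rw [integral_zsq (fun u => u * (2 * √(r ^ 2 - u))) c.1, integral_chord_sq hr hr']

lemma vol2_discSet (c : ℝ × ℝ) {r : ℝ} (hr : 0 ≤ r) (hr' : r ≤ 1 / 2) :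
    vol2 (discSet c r) = π * r ^ 2 := by
  rw [vol2_eq_marg2 (measurableSet_discSet c r)]
  simp only [marg2_discSet c hr hr']
  rw [integral_zsq (fun u => 2 * √(r ^ 2 - u)) c.1, integral_chord (by nlinarith),
    max_eq_left (sq_nonneg r)]

lemma swap_discSet (c : ℝ × ℝ) (r : ℝ) : Prod.swap ⁻¹' discSet c r = discSet c.swap r := by
  ext q
  simp only [discSet, mem_preimage, mem_ofPred_eq, Prod.fst_swap, Prod.snd_swap]
  constructor <;> intro h <;> linarith

/-- A planar set of the area of a disc, with second moments no larger, is that disc. -/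
theorem disc_rigid {S : Set (ℝ × ℝ)} (hm : MeasurableSet S) (hS : PerSet2 S) {r : ℝ}
    (hr : 0 < r) (hr' : r ≤ 1 / 2) (hv : vol2 S = π * r ^ 2) {c : ℝ × ℝ}
    (h0 : moment (marg2 S) c.1 ≤ π * r ^ 4 / 4)
    (h1 : moment (marg2 (Prod.swap ⁻¹' S)) c.2 ≤ π * r ^ 4 / 4) :
    S =ᵐ[volume] discSet c r := by
  refine ae_eq_of_square hS (perSet2_discSet c r) ?_
  have hB := measurableSet_discSet c r
  have hfin : IsFiniteMeasure ((volume : Measure (ℝ × ℝ)).restrict square) := by
    rw [restrict_square]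
    infer_instance
  have hs : ∀ T : Set (ℝ × ℝ), MeasurableSet T → PerSet2 T →
      ∫ q in T ∩ square, (zsq (q.1 - c.1) + zsq (q.2 - c.2)) =
        moment (marg2 T) c.1 + moment (marg2 (Prod.swap ⁻¹' T)) c.2 := fun T hT hT' => by
    have hi : ∀ k : ℝ × ℝ → ℝ, Measurable k → ∀ a,
        IntegrableOn (fun q => zsq (k q - a)) (T ∩ square) := fun k hk a => by
      have : Integrable (fun q => zsq (k q - a)) ((volume : Measure (ℝ × ℝ)).restrict square) :=
        Integrable.of_bound (measurable_zsq.comp (hk.sub_const a)).aestronglyMeasurable (1 / 4)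
          (ae_of_all _ fun q => by
            rw [Real.norm_eq_abs, abs_of_nonneg (zsq_nonneg _)]; exact zsq_le _)
      exact IntegrableOn.mono_set this inter_subset_right
    rw [moment_marg2 hT hT', moment_marg2_swap hT hT',
      integral_add (hi _ measurable_fst _) (hi _ measurable_snd _)]
  refine bathtub (μ := (volume : Measure (ℝ × ℝ)).restrict square)
    (g := fun q => zsq (q.1 - c.1) + zsq (q.2 - c.2)) (C := 1) ?_ (fun q => ?_) hm ?_ ?_
  · exact (measurable_zsq.comp (measurable_fst.sub_const _)).add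
      (measurable_zsq.comp (measurable_snd.sub_const _))
  · have := zsq_le (q.1 - c.1)
    have := zsq_le (q.2 - c.2)
    have := zsq_nonneg (q.1 - c.1)
    have := zsq_nonneg (q.2 - c.2)
    exact abs_le.2 ⟨by linarith, by linarith⟩
  · show _ = Measure.real _ (discSet c r)
    rw [measureReal_restrict_apply hm, measureReal_restrict_apply hB]
    exact hv.trans (vol2_discSet c hr.le hr').symm
  · show _ ≤ ∫ q in discSet c r, _ ∂_
    rw [Measure.restrict_restrict hm, Measure.restrict_restrict hB, hs S hm hS,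
      hs _ hB (perSet2_discSet c r), moment_discSet c hr.le hr', swap_discSet]
    have a1 := moment_discSet c.swap hr.le hr'
    simp only [Prod.fst_swap] at a1
    linarith

end

end Vale.Agent.P232.Rigid
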