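import Vale.Agent.P232.Rigid.Shapes
import Vale.Agent.P232.Calib

/-!
# P232: the profile in the case of equality

If the calibrated bound with the line `H x` is sharp, then the deficit of the calibration controls
the speed at which the slice area leaves its greatest value: in the limit `R (A t) ≤ |t - c|`. So
the limit profile lies above the extremal one with half-widths `R`, and equal means make them equal.
-/

namespace Vale.Agent.P232.Rigid

noncomputable section

open MeasureTheory Set Filter Topology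

/-- The data of a symmetric extremal profile: slice cost `h`, line `H x`, greatest value `a`,
half-width `R x` at level `x`, bound `B`. -/
structure Extremal (h : ℝ → ℝ) (H a v B : ℝ) (R : ℝ → ℝ) : Prop where
  a_pos : 0 < a
  a_le : a ≤ 1
  H_nonneg : 0 ≤ H
  h_cont : ContinuousOn h (Ioi 0)
  h_nonneg : ∀ x, 0 ≤ h x
  line_lt : ∀ x ∈ Ioo 0 a, H * x < h x
  line_top : H * a ≤ h a
  R_cont : ContinuousOn R (Icc 0 a)
  R_top : R a = 0
  R_half : R 0 ≤ 1 / 2
  R_deriv : ∀ x ∈ Ioo 0 a,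
    HasDerivAt R (-(H * x) / (2 * (h x * √(h x ^ 2 - (H * x) ^ 2)))) x
  vol_eq : v = 2 * ∫ x in (0 : ℝ)..a, R x
  bound_eq : B = H * v + ∫ x in (0 : ℝ)..a, √(1 - (H * x / h x) ^ 2)

namespace ProfileEq

/-- A cutoff supported in `[p, a - p]`, equal to one on `[2 p, a - 2 p]`. -/
def tent (p a x : ℝ) : ℝ := max 0 (min 1 (min ((x - p) / p) ((a - p - x) / p)))

/-- The nearest point of an interval. -/
def clampI (p q x : ℝ) : ℝ := max p (min q x)

lemma continuous_tent (p a : ℝ) : Continuous (tent p a) :=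
  continuous_const.max (continuous_const.min
    (((continuous_id.sub continuous_const).div_const p).min
      ((continuous_const.sub continuous_id).div_const p)))

lemma continuous_clampI (p q : ℝ) : Continuous (clampI p q) :=
  continuous_const.max (continuous_const.min continuous_id)

lemma clampI_mem {p q : ℝ} (h : p ≤ q) (x : ℝ) : clampI p q x ∈ Icc p q :=
  ⟨le_max_left _ _, max_le h (min_le_left _ _)⟩

lemma clampI_eq {p q x : ℝ} (h : x ∈ Icc p q) : clampI p q x = x := by
  rw [clampI, min_eq_right h.2, max_eq_right h.1]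

lemma tent_nonneg (p a x : ℝ) : 0 ≤ tent p a x := le_max_left _ _

lemma tent_le_one (p a x : ℝ) : tent p a x ≤ 1 := max_le zero_le_one (min_le_left _ _)

lemma tent_zero {p a x : ℝ} (hp : 0 < p) (h : x ∉ Ioo p (a - p)) : tent p a x = 0 := by
  refine max_eq_left ((min_le_right _ _).trans ?_)
  simp only [mem_Ioo, not_and_or, not_lt] at h
  rcases h with h | h
  · exact (min_le_left _ _).trans (div_nonpos_of_nonpos_of_nonneg (by linarith) hp.le)
  · exact (min_le_right _ _).trans (div_nonpos_of_nonpos_of_nonneg (by linarith) hp.le)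

lemma tent_one {p a x : ℝ} (hp : 0 < p) (h : x ∈ Icc (2 * p) (a - 2 * p)) : tent p a x = 1 := by
  have h1 : 1 ≤ (x - p) / p := (one_le_div hp).2 (by linarith [h.1])
  have h2 : 1 ≤ (a - p - x) / p := (one_le_div hp).2 (by linarith [h.2])
  rw [tent, min_eq_left (le_min h1 h2), max_eq_right zero_le_one]

/-- The weight of the calibration. -/
def beta (h : ℝ → ℝ) (H x : ℝ) : ℝ := √(1 - (H * x / h x) ^ 2)

/-- The rate of the half-width. -/
def rate (h : ℝ → ℝ) (H x : ℝ) : ℝ := H * x / (2 * (h x * √(h x ^ 2 - (H * x) ^ 2)))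

variable {h R : ℝ → ℝ} {H a v B : ℝ}

lemma basic (hx : Extremal h H a v B R) {x : ℝ} (hm : x ∈ Ioo 0 a) :
    0 < h x ∧ 0 ≤ H * x ∧ 0 < beta h H x ∧ beta h H x ≤ 1 ∧
      (H * x) ^ 2 + h x ^ 2 * beta h H x ^ 2 = h x ^ 2 ∧
      rate h H x = H * x / (2 * (h x ^ 2 * beta h H x)) := by
  have h1 := hx.line_lt x hm
  have h0 : 0 ≤ H * x := mul_nonneg hx.H_nonneg hm.1.le
  have hp : 0 < h x := h0.trans_lt h1
  have hq : (H * x / h x) ^ 2 < 1 := by
    have h2 : H * x / h x < 1 := (div_lt_one hp).2 h1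
    have h3 : 0 ≤ H * x / h x := div_nonneg h0 hp.le
    nlinarith
  have hb : beta h H x ^ 2 = 1 - (H * x / h x) ^ 2 := Real.sq_sqrt (by linarith)
  have e : h x ^ 2 * beta h H x ^ 2 = h x ^ 2 - (H * x) ^ 2 := by
    rw [hb]; field_simp
  refine ⟨hp, h0, Real.sqrt_pos.2 (by linarith), Real.sqrt_le_one.2 (by nlinarith), by linarith, ?_⟩
  have e2 : √(h x ^ 2 - (H * x) ^ 2) = h x * beta h H x := by
    rw [← e, ← mul_pow]
    exact Real.sqrt_sq (mul_nonneg hp.le (Real.sqrt_nonneg _))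
  rw [rate, e2]
  ring

lemma rate_nonneg (hx : Extremal h H a v B R) {x : ℝ} (hm : x ∈ Ioo 0 a) : 0 ≤ rate h H x :=
  div_nonneg (basic hx hm).2.1
    (mul_nonneg zero_le_two (mul_nonneg (basic hx hm).1.le (Real.sqrt_nonneg _)))

lemma hasDerivAt_R (hx : Extremal h H a v B R) {x : ℝ} (hm : x ∈ Ioo 0 a) :
    HasDerivAt (fun y => -R y) (rate h H x) x :=
  (hx.R_deriv x hm).neg.congr_deriv (by rw [rate, neg_div, neg_neg])

lemma cont_beta (hx : Extremal h H a v B R) : ContinuousOn (beta h H) (Ioo 0 a) := by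
  have hc := hx.h_cont.mono (Ioo_subset_Ioi_self : Ioo 0 a ⊆ Ioi 0)
  exact (continuousOn_const.sub (((continuousOn_const.mul continuousOn_id).div hc
    fun x hm => (basic hx hm).1.ne').pow 2)).sqrt

lemma cont_rate (hx : Extremal h H a v B R) : ContinuousOn (rate h H) (Ioo 0 a) := by
  have hc := hx.h_cont.mono (Ioo_subset_Ioi_self : Ioo 0 a ⊆ Ioi 0)
  refine ((continuousOn_const.mul continuousOn_id).div (continuousOn_const.mul
    ((hc.pow 2).mul (cont_beta hx))) fun x hm => ?_).congr fun x hm => (basic hx hm).2.2.2.2.2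
  have := (basic hx hm)
  exact (mul_pos two_pos (mul_pos (pow_pos this.1 2) this.2.2.1)).ne'

lemma antitone_R (hx : Extremal h H a v B R) : AntitoneOn R (Icc 0 a) := by
  refine antitoneOn_of_deriv_nonpos (convex_Icc 0 a) hx.R_cont
    (fun x hm => ?_) (fun x hm => ?_) <;> rw [interior_Icc] at hm
  · exact (hx.R_deriv x hm).differentiableAt.differentiableWithinAt
  · rw [(hx.R_deriv x hm).deriv]
    exact div_nonpos_of_nonpos_of_nonneg (neg_nonpos.2 (basic hx hm).2.1)
      (mul_nonneg zero_le_two (mul_nonneg (basic hx hm).1.le (Real.sqrt_nonneg _)))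

lemma R_nonneg (hx : Extremal h H a v B R) {x : ℝ} (hm : x ∈ Icc 0 a) : 0 ≤ R x := by
  have := antitone_R hx hm (right_mem_Icc.2 hx.a_pos.le) hm.2
  rwa [hx.R_top] at this

lemma R_le_half (hx : Extremal h H a v B R) {x : ℝ} (hm : x ∈ Icc 0 a) : R x ≤ 1 / 2 :=
  (antitone_R hx (left_mem_Icc.2 hx.a_pos.le) hm hm.1).trans hx.R_half

/-- The half-width, extended to all levels. -/
def Rc (R : ℝ → ℝ) (a x : ℝ) : ℝ := R (clampI 0 a x)

lemma continuous_Rc (hx : Extremal h H a v B R) : Continuous (Rc R a) :=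
  hx.R_cont.comp_continuous (continuous_clampI 0 a) fun x => clampI_mem hx.a_pos.le x

/-- The deficit of the calibration controls the defect of the speed. -/
lemma speed_pt {g l b d M γ : ℝ} (hl : 0 ≤ l) (hb : 0 ≤ b) (hd : 0 ≤ d) (hg : 0 ≤ g) (hgM : g ≤ M)
    (heq : l ^ 2 + g ^ 2 * b ^ 2 = g ^ 2) (hb1 : b ≤ 1) (hγ : 0 < γ) :
    |l * d - g ^ 2 * b| ≤
      γ * (M + d) + M ^ 2 * (√(g ^ 2 + d ^ 2) - (l + b * d)) / (2 * γ) := by
  set r := √(g ^ 2 + d ^ 2) with hr
  have hs : l + b * d ≤ r := calib_pt hg (by nlinarith) heq.le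
  have hr2 : r ^ 2 = g ^ 2 + d ^ 2 := Real.sq_sqrt (by positivity)
  have hrM : r ≤ M + d := by
    rw [hr, Real.sqrt_le_left (by linarith)]
    nlinarith [mul_nonneg hd (show 0 ≤ M by linarith)]
  set s := r - (l + b * d) with hsd
  have hs0 : 0 ≤ s := by linarith
  have e : (l * d - g ^ 2 * b) ^ 2 = g ^ 2 * (s * (r + (l + b * d))) := by
    have : s * (r + (l + b * d)) = r ^ 2 - (l + b * d) ^ 2 := by rw [hsd]; ring
    rw [this, hr2]
    linear_combination (d ^ 2 + g ^ 2) * heq
  have h1 : (l * d - g ^ 2 * b) ^ 2 ≤ M ^ 2 * (s * (2 * (M + d))) := by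
    rw [e]
    exact mul_le_mul (pow_le_pow_left₀ hg hgM 2)
      (mul_le_mul_of_nonneg_left (by linarith) hs0)
      (mul_nonneg hs0 (by nlinarith [mul_nonneg hb hd])) (sq_nonneg M)
  set P := γ * (M + d) with hP
  set Q := M ^ 2 * s / (2 * γ) with hQ
  have hP0 : 0 ≤ P := mul_nonneg hγ.le (by linarith)
  have hQ0 : 0 ≤ Q := div_nonneg (mul_nonneg (sq_nonneg M) hs0) (by linarith)
  refine abs_le_of_sq_le_sq (h1.trans ?_) (add_nonneg hP0 hQ0)
  have h4 : M ^ 2 * (s * (2 * (M + d))) = 4 * (P * Q) := by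
    rw [hP, hQ]; field_simp; ring
  nlinarith [sq_nonneg (P - Q)]

lemma hasDerivAt_prim {f : ℝ → ℝ} (hf : Continuous f) {A D : ℝ → ℝ}
    (hder : ∀ t, HasDerivAt A (D t) t) (t : ℝ) :
    HasDerivAt (fun s => ∫ x in (0 : ℝ)..A s, f x) (f (A t) * D t) t :=
  ((hf.integral_hasStrictDerivAt 0 (A t)).hasDerivAt).comp t (hder t)

lemma deriv_periodic {A D : ℝ → ℝ} (hper : Function.Periodic A 1)
    (hder : ∀ t, HasDerivAt A (D t) t) : Function.Periodic D 1 := fun t => by
  have h := (hder (t + 1)).comp_add_const t 1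
  rw [show (fun s => A (s + 1)) = A from funext hper] at h
  exact h.unique (hder t)

/-- A slice cost below `h`, continuous at `0`, and a calibration of it that agrees with the extremal
one away from the ends. -/
structure Trunc (h : ℝ → ℝ) (H a η : ℝ) (g L b : ℝ → ℝ) : Prop where
  g_cont : Continuous g
  L_cont : Continuous L
  b_cont : Continuous b
  g_zero : g 0 = 0
  g_nonneg : ∀ x, 0 ≤ g x
  g_le : ∀ x, 0 < x → g x ≤ h x
  g_eq : ∀ x ∈ Icc (2 * η) (a - 2 * η), g x = h x
  L_eq : ∀ x ∈ Icc 0 a, L x = H * x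
  b_mem : ∀ x, b x ∈ Icc (0 : ℝ) 1
  b_low : ∀ x, x ≤ η → b x = 0
  b_eq : ∀ x ∈ Icc (2 * η) (a - 2 * η), b x = beta h H x
  calib : ∀ x, L x ^ 2 + g x ^ 2 * b x ^ 2 ≤ g x ^ 2

lemma exists_trunc (hx : Extremal h H a v B R) {η : ℝ} (hη : 0 < η) (hηa : 5 * η ≤ a) :
    ∃ g L b, Trunc h H a η g L b := by
  have ha := hx.a_pos
  have hsubη : Icc η (a - η) ⊆ Ioo 0 a := fun x hm => ⟨by linarith [hm.1], by linarith [hm.2]⟩
  have hchη : ContinuousOn h (Icc η a) := hx.h_cont.mono fun x hm => hη.trans_le hm.1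
  obtain ⟨xK, -, hxK⟩ := isCompact_Icc.exists_isMaxOn (nonempty_Icc.2 (by linarith)) hchη
  set k := max H (h xK / η)
  have hk0 : 0 ≤ k := hx.H_nonneg.trans (le_max_left _ _)
  set g : ℝ → ℝ := fun x => if x ≤ 0 then 0 else min (h x) (k * x) with hg_def
  have hg0 : ∀ x, 0 ≤ g x ∧ g x ≤ k * max x 0 := fun x => by
    by_cases c : x ≤ 0
    · simp [hg_def, c]
    · rw [hg_def, max_eq_left (not_le.1 c).le]
      simp only [c, if_false]
      exact ⟨le_min (hx.h_nonneg x) (mul_nonneg hk0 (not_le.1 c).le), min_le_right _ _⟩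
  have hgc : Continuous g := by
    refine continuous_iff_continuousAt.2 fun x => ?_
    rcases lt_trichotomy x 0 with c | rfl | c
    · exact (continuousAt_const (y := (0 : ℝ))).congr (Filter.eventually_of_mem (Iio_mem_nhds c)
        fun y (hy : y < 0) => by simp [hg_def, hy.le])
    · have hk : Tendsto (fun x : ℝ => k * max x 0) (𝓝 0) (𝓝 0) :=
        ((continuous_const.mul (continuous_id.max continuous_const)).tendsto' 0 0 (by simp))
      show Tendsto g (𝓝 0) (𝓝 (g 0))
      rw [show g 0 = 0 by simp [hg_def]]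
      exact squeeze_zero (fun y => (hg0 y).1) (fun y => (hg0 y).2) hk
    · have h' : ContinuousAt (fun x => min (h x) (k * x)) x :=
        (hx.h_cont.continuousAt (Ioi_mem_nhds c)).min (show ContinuousAt (fun x => k * x) x by fun_prop)
      exact h'.congr (Filter.eventually_of_mem (Ioi_mem_nhds c)
        fun y (hy : 0 < y) => by simp [hg_def, not_le.2 hy])
  have hgh : ∀ x ∈ Icc η a, g x = h x := fun x hm => by
    have hx0 : 0 < x := hη.trans_le hm.1
    simp only [hg_def, not_le.2 hx0, if_false]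
    refine min_eq_left ((show h x ≤ h xK from hxK hm).trans ?_)
    refine le_trans ?_ (mul_le_mul (le_max_right _ _) hm.1 hη.le hk0)
    rw [div_mul_cancel₀ _ hη.ne']
  set L : ℝ → ℝ := fun x => max 0 (min (H * x) (g x)) with hL_def
  have hLle : ∀ x, L x ≤ g x := fun x => max_le (hg0 x).1 (min_le_right _ _)
  have hLeq : ∀ x ∈ Icc 0 a, L x = H * x := fun x hm => by
    have hHx : 0 ≤ H * x := mul_nonneg hx.H_nonneg hm.1
    rcases hm.1.eq_or_lt with rfl | hx0
    · simp [hL_def, (hg0 0).1]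
    · have : H * x ≤ g x := by
        simp only [hg_def, not_le.2 hx0, if_false]
        refine le_min ?_ (mul_le_mul_of_nonneg_right (le_max_left _ _) hm.1)
        rcases hm.2.eq_or_lt with rfl | hxa
        · exact hx.line_top
        · exact (hx.line_lt x ⟨hx0, hxa⟩).le
      simp [hL_def, min_eq_left this, hHx]
  refine ⟨g, L, fun x => tent η a x * beta h H (clampI η (a - η) x),
    ⟨hgc, continuous_const.max ((continuous_const.mul continuous_id).min hgc),
    (continuous_tent η a).mul (((cont_beta hx).mono hsubη).comp_continuous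
      (continuous_clampI _ _) fun x => clampI_mem (by linarith) x),
    by simp [hg_def], fun x => (hg0 x).1, fun x hx0 => ?_,
    fun x hm => hgh x ⟨by linarith [hm.1], by linarith [hm.2]⟩, hLeq,
    fun x => ⟨mul_nonneg (tent_nonneg _ _ _) (Real.sqrt_nonneg _), mul_le_one₀ (tent_le_one _ _ _)
      (Real.sqrt_nonneg _) (basic hx (hsubη (clampI_mem (by linarith) x))).2.2.2.1⟩,
    fun x hx0 => by
      simp [tent_zero hη (fun c : x ∈ Ioo η (a - η) => absurd c.1 (not_lt.2 hx0))],
    fun x hm => ?_, fun x => ?_⟩⟩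
  · simp only [hg_def, not_le.2 hx0, if_false]; exact min_le_left _ _
  · simp only [tent_one hη hm, one_mul,
      clampI_eq (show x ∈ Icc η (a - η) from ⟨by linarith [hm.1], by linarith [hm.2]⟩)]
  by_cases c : x ∈ Ioo η (a - η)
  · have cI : x ∈ Icc η (a - η) := Ioo_subset_Icc_self c
    obtain ⟨-, -, -, -, heq, -⟩ := basic hx (hsubη cI)
    rw [hLeq x ⟨by linarith [c.1], by linarith [c.2]⟩, hgh x ⟨c.1.le, by linarith [c.2]⟩]
    refine le_of_le_of_eq (add_le_add le_rfl ?_) heq
    simp only [clampI_eq cI, mul_pow]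
    exact mul_le_mul_of_nonneg_left
      (mul_le_of_le_one_left (sq_nonneg _) (pow_le_one₀ (tent_nonneg _ _ _) (tent_le_one _ _ _)))
      (sq_nonneg _)
  · simp only [tent_zero hη c, zero_mul]
    nlinarith [hLle x, le_max_left 0 (min (H * x) (g x)), (hg0 x).1]

lemma integrable_beta (hx : Extremal h H a v B R) : IntervalIntegrable (beta h H) volume 0 a := by
  rw [intervalIntegrable_iff_integrableOn_Ioc_of_le hx.a_pos.le,
    integrableOn_Ioc_iff_integrableOn_Ioo]
  refine IntegrableOn.of_bound measure_Ioo_lt_top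
    ((cont_beta hx).aestronglyMeasurable measurableSet_Ioo) 1 ?_
  exact Filter.Eventually.of_forall fun x => by
    rw [Real.norm_eq_abs, beta, abs_of_nonneg (Real.sqrt_nonneg _)]
    exact Real.sqrt_le_one.2 (sub_le_self _ (sq_nonneg _))

/-- The truncated calibration loses little. -/
lemma trunc_mass (hx : Extremal h H a v B R) {η : ℝ} (hη : 0 < η) (hηa : 5 * η ≤ a) {g L b : ℝ → ℝ}
    (ht : Trunc h H a η g L b) {a' : ℝ} (ha' : a - η ≤ a') :
    B - H * v - 4 * η ≤ ∫ x in (0 : ℝ)..a', b x := by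
  have ha := hx.a_pos
  have e : B - H * v = ∫ x in (0 : ℝ)..a, beta h H x := by
    rw [hx.bound_eq]; simp only [beta]; ring
  have hsub : ∀ x y : ℝ, 0 ≤ x → x ≤ y → y ≤ a → IntervalIntegrable (beta h H) volume x y :=
    fun x y h1 h2 h3 => (integrable_beta hx).mono_set (by
      rw [uIcc_of_le h2, uIcc_of_le ha.le]; exact Icc_subset_Icc h1 h3)
  have ends : ∀ x y : ℝ, 0 ≤ x → x ≤ y → y ≤ a → ∫ z in x..y, beta h H z ≤ y - x :=
    fun x y h1 h2 h3 => (intervalIntegral.integral_mono_on (μ := volume) h2 (hsub x y h1 h2 h3)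
      intervalIntegrable_const fun z _ => (Real.sqrt_le_one.2 (sub_le_self _ (sq_nonneg _)) :
        beta h H z ≤ 1)).trans_eq (by simp)
  have i1 := intervalIntegral.integral_add_adjacent_intervals
    (hsub 0 (2 * η) le_rfl (by linarith) (by linarith))
    (hsub (2 * η) a (by linarith) (by linarith) le_rfl)
  have i2 := intervalIntegral.integral_add_adjacent_intervals
    (hsub (2 * η) (a - 2 * η) (by linarith) (by linarith) (by linarith))
    (hsub (a - 2 * η) a (by linarith) (by linarith) le_rfl)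
  have e3 : ∫ x in (2 * η)..(a - 2 * η), beta h H x ≤ ∫ x in (0 : ℝ)..a', b x := by
    rw [intervalIntegral.integral_congr (g := b) fun x hm => (ht.b_eq x (by
      rwa [uIcc_of_le (by linarith)] at hm)).symm]
    exact intervalIntegral.integral_mono_interval (by linarith) (by linarith) (by linarith)
      (Filter.Eventually.of_forall fun x => (ht.b_mem x).1) (ht.b_cont.intervalIntegrable _ _)
  linarith [ends 0 (2 * η) le_rfl (by linarith) (by linarith),
    ends (a - 2 * η) a (by linarith) (by linarith) le_rfl]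

/-- The total deficit and the total speed. -/
lemma deficit (hx : Extremal h H a v B R) {η τ : ℝ} (hη : 0 < η) (hηa : 5 * η ≤ a) {g L b : ℝ → ℝ}
    (ht : Trunc h H a η g L b) {A D K : ℝ → ℝ} (hper : Function.Periodic A 1)
    (hder : ∀ t, HasDerivAt A (D t) t) (hD : Continuous D) (hA : ∀ t, 0 ≤ A t)
    (hKc : Continuous K) (hK : ∀ t, √(g (A t) ^ 2 + (D t / 2) ^ 2) ≤ K t)
    (hKi : ∫ t in (0 : ℝ)..1, K t ≤ B + τ / 4) {t₀ t₁ : ℝ} (ht₀ : A t₀ ≤ η) (ht₁ : a - η ≤ A t₁)
    (hητ : η ≤ τ / 16) (hL : ∀ t, H * A t - τ / 4 ≤ L (A t))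
    (hv : H * v - τ / 4 ≤ H * ∫ t in (0 : ℝ)..1, A t) :
    (∫ t in (0 : ℝ)..1, (√(g (A t) ^ 2 + (|D t| / 2) ^ 2) - (L (A t) + b (A t) * (|D t| / 2))) ≤ τ) ∧
      ∫ t in (0 : ℝ)..1, |D t| / 2 ≤ B + τ / 4 := by
  have hAc : Continuous A := continuous_iff_continuousAt.2 fun s => (hder s).continuousAt
  have hdc : Continuous fun t => |D t| / 2 := hD.abs.div_const 2
  have hq : Continuous fun t => √(g (A t) ^ 2 + (|D t| / 2) ^ 2) :=
    (((ht.g_cont.comp hAc).pow 2).add (hdc.pow 2)).sqrt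
  have hb : Continuous fun t => b (A t) * (|D t| / 2) := (ht.b_cont.comp hAc).mul hdc
  have hLc : Continuous fun t => L (A t) := ht.L_cont.comp hAc
  have hK' : ∀ t, √(g (A t) ^ 2 + (|D t| / 2) ^ 2) ≤ K t := fun t => by
    simpa only [div_pow, sq_abs] using hK t
  have h1 : H * v - τ / 2 ≤ ∫ t in (0 : ℝ)..1, L (A t) := by
    have c1 : Continuous fun t => H * A t := continuous_const.mul hAc
    have := intervalIntegral.integral_mono_on (μ := volume) zero_le_one
      (f := fun t => H * A t - τ / 4) ((c1.sub continuous_const).intervalIntegrable 0 1)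
      (hLc.intervalIntegrable 0 1) fun t _ => hL t
    rw [intervalIntegral.integral_sub (f := fun t => H * A t) (c1.intervalIntegrable _ _)
      intervalIntegrable_const, intervalIntegral.integral_const_mul,
      intervalIntegral.integral_const, sub_zero, one_smul] at this
    linarith
  set u : ℝ → ℝ := fun s => ∫ x in (0 : ℝ)..A s, b x with hu_def
  have hu : ∀ s, HasDerivAt u (b (A s) * D s) s := hasDerivAt_prim ht.b_cont hder
  have hu1 : ContDiff ℝ 1 u := contDiff_one_iff_deriv.2 ⟨fun s => (hu s).differentiableAt, by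
    rw [show deriv u = fun s => b (A s) * D s from funext fun s => (hu s).deriv]
    exact (ht.b_cont.comp hAc).mul hD⟩
  have h2 := line_osc hu1 (fun s => by simp only [hu_def, hper s]) t₀ t₁
  have e : ∫ s in (0 : ℝ)..1, |deriv u s| = 2 * ∫ s in (0 : ℝ)..1, b (A s) * (|D s| / 2) := by
    rw [← intervalIntegral.integral_const_mul]
    refine intervalIntegral.integral_congr fun s _ => ?_
    simp only [(hu s).deriv, abs_mul, abs_of_nonneg (ht.b_mem _).1]
    ring
  rw [e] at h2
  have h3 : u t₀ = 0 := by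
    rw [hu_def]
    refine (intervalIntegral.integral_congr fun x hm => ?_).trans intervalIntegral.integral_zero
    rw [uIcc_of_le (hA t₀)] at hm
    exact ht.b_low x (hm.2.trans ht₀)
  have h4 : B - H * v - 4 * η ≤ u t₁ := trunc_mass hx hη hηa ht ht₁
  have hKI := intervalIntegral.integral_mono_on (μ := volume) zero_le_one
    (hq.intervalIntegrable 0 1) (hKc.intervalIntegrable 0 1) fun t _ => hK' t
  refine ⟨?_, ((intervalIntegral.integral_mono_on (μ := volume) zero_le_one
    (hdc.intervalIntegrable 0 1) (hKc.intervalIntegrable 0 1) fun t _ => le_trans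
      (Real.le_sqrt_of_sq_le (le_add_of_nonneg_left (sq_nonneg _))) (hK' t)).trans hKi)⟩
  rw [intervalIntegral.integral_sub (f := fun t => √(g (A t) ^ 2 + (|D t| / 2) ^ 2))
      (g := fun t => L (A t) + b (A t) * (|D t| / 2)) (hq.intervalIntegrable _ _)
      ((hLc.add hb).intervalIntegrable _ _),
    intervalIntegral.integral_add (hLc.intervalIntegrable _ _) (hb.intervalIntegrable _ _)]
  linarith

/-- The truncated rate. -/
def trate (h : ℝ → ℝ) (H a p x : ℝ) : ℝ := tent p a x * rate h H (clampI p (a - p) x)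

lemma trate_facts (hx : Extremal h H a v B R) {p : ℝ} (hp : 0 < p) (hpa : 5 * p ≤ a) :
    Continuous (trate h H a p) ∧ ∀ x, 0 ≤ trate h H a p x := by
  have hsub : Icc p (a - p) ⊆ Ioo 0 a := fun x hm => ⟨by linarith [hm.1], by linarith [hm.2]⟩
  exact ⟨(continuous_tent p a).mul (((cont_rate hx).mono hsub).comp_continuous
    (continuous_clampI _ _) fun x => clampI_mem (by linarith) x), fun x =>
      mul_nonneg (tent_nonneg _ _ _) (rate_nonneg hx (hsub (clampI_mem (by linarith) x)))⟩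

/-- The pointwise bound on the speed. -/
lemma speed_le (hx : Extremal h H a v B R) {p η γ M m : ℝ} (hp : 0 < p)
    (hηp : 2 * η ≤ p) (hγ : 0 < γ) (hm : 0 < m) {g L b : ℝ → ℝ} (ht : Trunc h H a η g L b)
    (hM : ∀ x ∈ Icc p (a - p), h x ≤ M) (hM0 : 0 ≤ M)
    (hmle : ∀ x ∈ Icc p (a - p), m ≤ h x ^ 2 * beta h H x) (y D : ℝ) :
    trate h H a p y * |D| ≤ 1 + (γ * (M + |D| / 2)
      + M ^ 2 * (√(g y ^ 2 + (|D| / 2) ^ 2) - (L y + b y * (|D| / 2))) / (2 * γ)) / m := by
  set d := |D| / 2 with hd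
  have hd0 : 0 ≤ d := by positivity
  have hS0 : 0 ≤ √(g y ^ 2 + d ^ 2) - (L y + b y * d) := sub_nonneg.2
    (calib_pt (ht.g_nonneg y) (by nlinarith [(ht.b_mem y).1, (ht.b_mem y).2]) (ht.calib y))
  have hE : 0 ≤ γ * (M + d) + M ^ 2 * (√(g y ^ 2 + d ^ 2) - (L y + b y * d)) / (2 * γ) :=
    add_nonneg (mul_nonneg hγ.le (add_nonneg hM0 hd0))
      (div_nonneg (mul_nonneg (sq_nonneg M) hS0) (by linarith))
  by_cases c : y ∈ Ioo p (a - p)
  swap
  · rw [trate, tent_zero hp c, zero_mul, zero_mul]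
    linarith [div_nonneg hE hm.le]
  have cI : y ∈ Icc p (a - p) := Ioo_subset_Icc_self c
  have cη : y ∈ Icc (2 * η) (a - 2 * η) := ⟨by linarith [c.1], by linarith [c.2]⟩
  have hy : y ∈ Ioo 0 a := ⟨by linarith [c.1], by linarith [c.2]⟩
  obtain ⟨hh, hl, hb, hb1, heq, hr⟩ := basic hx hy
  have hs := speed_pt hl hb.le hd0 hh.le (hM y cI) heq hb1 hγ
  rw [ht.g_eq y cη, ht.L_eq y ⟨hy.1.le, hy.2.le⟩, ht.b_eq y cη] at hE ⊢
  have hq : 0 < h y ^ 2 * beta h H y := hm.trans_le (hmle y cI)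
  calc trate h H a p y * |D| ≤ rate h H y * |D| := by
        rw [trate, clampI_eq cI]
        exact mul_le_mul_of_nonneg_right
          (mul_le_of_le_one_left (rate_nonneg hx hy) (tent_le_one _ _ _)) (abs_nonneg _)
    _ = 1 + (H * y * d - h y ^ 2 * beta h H y) / (h y ^ 2 * beta h H y) := by
        rw [hr, hd]; field_simp; ring
    _ ≤ _ := by
        refine add_le_add le_rfl ?_
        refine (div_le_div_of_nonneg_right ((le_abs_self _).trans hs) hq.le).trans ?_
        exact div_le_div_of_nonneg_left hE hm (hmle y cI)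

/-- A periodic error turns a pointwise bound into a bound for increments. -/
lemma incr_le {F F' E : ℝ → ℝ} (hF : ∀ t, HasDerivAt F (F' t) t) (hc : Continuous F')
    (hE : Continuous E) (hEp : Function.Periodic E 1) (hE0 : ∀ t, 0 ≤ E t)
    (h : ∀ t, |F' t| ≤ 1 + E t) {t t₁ : ℝ} (htt : |t - t₁| ≤ 1) :
    F t₁ - F t ≤ |t - t₁| + 2 * ∫ s in (0 : ℝ)..1, E s := by
  rw [← intervalIntegral.integral_eq_sub_of_hasDerivAt (fun s _ => hF s)
    (hc.intervalIntegrable t t₁)]
  have h2 : ∫ s in (t₁ - 1)..(t₁ + 1), E s = 2 * ∫ s in (0 : ℝ)..1, E s := by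
    rw [← intervalIntegral.integral_add_adjacent_intervals (b := t₁)
      (hE.intervalIntegrable _ _) (hE.intervalIntegrable _ _)]
    have e1 := hEp.intervalIntegral_add_eq (t₁ - 1) 0
    have e2 := hEp.intervalIntegral_add_eq t₁ 0
    rw [zero_add] at e1 e2
    rw [sub_add_cancel] at e1
    rw [e1, e2]; ring
  have key : ∀ x y : ℝ, x ≤ y → t₁ - 1 ≤ x → y ≤ t₁ + 1 →
      |∫ s in x..y, F' s| ≤ (y - x) + 2 * ∫ s in (0 : ℝ)..1, E s := fun x y hxy hx1 hy1 => by
    refine (intervalIntegral.abs_integral_le_integral_abs hxy).trans ?_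
    refine (intervalIntegral.integral_mono_on (μ := volume) (g := fun s => 1 + E s) hxy
      (hc.abs.intervalIntegrable _ _)
      ((continuous_const.add hE).intervalIntegrable x y) fun s _ => h s).trans ?_
    rw [intervalIntegral.integral_add intervalIntegrable_const (hE.intervalIntegrable _ _),
      intervalIntegral.integral_const, smul_eq_mul, mul_one]
    have := intervalIntegral.integral_mono_interval (μ := volume) hx1 hxy hy1
      (Filter.Eventually.of_forall hE0) (hE.intervalIntegrable _ _)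
    linarith
  obtain ⟨l1, l2⟩ := abs_le.1 htt
  refine (le_abs_self _).trans ?_
  rcases le_total t t₁ with c | c
  · rw [abs_of_nonpos (by linarith : t - t₁ ≤ 0)]
    linarith [key t t₁ c (by linarith) (by linarith)]
  · rw [intervalIntegral.integral_symm, abs_neg, abs_of_nonneg (by linarith : 0 ≤ t - t₁)]
    exact key t₁ t c (by linarith) (by linarith)

/-- The half-width is the integral of the rate, up to the ends. -/
lemma half_le_rate (hx : Extremal h H a v B R) {p ε : ℝ} (hp : 0 < p) (hpa : 5 * p ≤ a)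
    (hR0 : R 0 - R (2 * p) ≤ ε) (hRa : R (a - 2 * p) ≤ ε) {x x₁ : ℝ} (hx0 : 0 ≤ x)
    (hxx : x ≤ x₁) (hx1 : a - 2 * p ≤ x₁) :
    Rc R a x ≤ (∫ z in (0 : ℝ)..x₁, trate h H a p z) - (∫ z in (0 : ℝ)..x, trate h H a p z)
      + 2 * ε := by
  obtain ⟨hψc, hψ0⟩ := trate_facts hx hp hpa
  have ha := hx.a_pos
  have hi : ∀ u w : ℝ, IntervalIntegrable (trate h H a p) volume u w := fun u w =>
    hψc.intervalIntegrable u w
  rw [intervalIntegral.integral_interval_sub_left (hi _ _) (hi _ _)]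
  have hεn : 0 ≤ ε := (R_nonneg hx ⟨by linarith, by linarith⟩).trans hRa
  show R (clampI 0 a x) ≤ _
  have hx'm : clampI 0 a x ∈ Icc 0 a := clampI_mem ha.le _
  rcases le_or_gt (a - 2 * p) x with c | c
  · have c' : a - 2 * p ≤ clampI 0 a x := le_max_of_le_right (le_min (by linarith) c)
    have := antitone_R hx ⟨by linarith, by linarith⟩ hx'm c'
    have := intervalIntegral.integral_nonneg (μ := volume) hxx fun z _ => hψ0 z
    linarith
  rw [clampI_eq ⟨hx0, by linarith⟩]
  set y := max x (2 * p) with hy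
  have hy1 : y ≤ a - 2 * p := max_le c.le (by linarith)
  have hy0 : 2 * p ≤ y := le_max_right _ _
  have h5 : R x - R y ≤ ε := by
    rcases le_total (2 * p) x with c2 | c2
    · rw [hy, max_eq_left c2]; linarith
    · rw [hy, max_eq_right c2]
      linarith [antitone_R hx (left_mem_Icc.2 ha.le) ⟨hx0, by linarith⟩ hx0]
  have e : ∫ z in y..(a - 2 * p), trate h H a p z = R y - R (a - 2 * p) := by
    rw [intervalIntegral.integral_eq_sub_of_hasDerivAt (f := fun z => -R z) (fun z hzm => ?_)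
      (hi _ _)]
    · ring
    rw [uIcc_of_le hy1] at hzm
    have hmI : z ∈ Icc p (a - p) := ⟨by linarith [hzm.1], by linarith [hzm.2]⟩
    rw [trate, tent_one hp ⟨hy0.trans hzm.1, hzm.2⟩, one_mul, clampI_eq hmI]
    exact hasDerivAt_R hx ⟨by linarith [hmI.1], by linarith [hmI.2]⟩
  have := intervalIntegral.integral_mono_interval (μ := volume) (le_max_left x (2 * p)) hy1 hx1
    (Filter.Eventually.of_forall hψ0) (hi x x₁)
  rw [← hy, e] at this
  linarith

/-- At equality the half-width at the current level is at most the time since the greatest one. -/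
lemma lip (hx : Extremal h H a v B R) {A D : ℕ → ℝ → ℝ}
    (hper : ∀ n, Function.Periodic (A n) 1) (hder : ∀ n t, HasDerivAt (A n) (D n t) t)
    (hD : ∀ n, Continuous (D n)) (hA : ∀ n t, A n t ∈ Icc (0 : ℝ) 1)
    (hmin : ∀ δ : ℝ, 0 < δ → ∀ᶠ n in atTop, ∃ t, A n t ≤ δ)
    (hmax : ∀ δ : ℝ, 0 < δ → ∀ᶠ n in atTop, (∃ t, a - δ ≤ A n t) ∧ ∀ t, A n t ≤ a + δ)
    (hmean : Tendsto (fun n => ∫ t in (0 : ℝ)..1, A n t) atTop (𝓝 v))
    (hslice : ∀ g : ℝ → ℝ, Continuous g → g 0 = 0 → (∀ x ∈ Ioc 0 1, 0 ≤ g x ∧ g x ≤ h x) →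
      ∀ δ : ℝ, 0 < δ → ∀ᶠ n in atTop, ∃ K : ℝ → ℝ, Continuous K ∧
        (∀ t, √(g (A n t) ^ 2 + (D n t / 2) ^ 2) ≤ K t) ∧ ∫ t in (0 : ℝ)..1, K t ≤ B + δ)
    {ζ : ℝ} (hζ : 0 < ζ) :
    ∀ᶠ n in atTop, ∀ t₁, (∀ t, A n t ≤ A n t₁) → ∀ t, |t - t₁| ≤ 1 →
      Rc R a (A n t) ≤ |t - t₁| + ζ := by
  have ha := hx.a_pos
  obtain ⟨ρ₀, hρ₀, hc0⟩ := Metric.continuousWithinAt_iff.1
    (hx.R_cont 0 (left_mem_Icc.2 ha.le)) (ζ / 4) (by linarith)
  obtain ⟨ρ₁, hρ₁, hc1⟩ := Metric.continuousWithinAt_iff.1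
    (hx.R_cont a (right_mem_Icc.2 ha.le)) (ζ / 4) (by linarith)
  set p := min (a / 5) (min (ρ₀ / 3) (ρ₁ / 3))
  have hp : 0 < p := by positivity
  have hp5 : p ≤ a / 5 := min_le_left _ _
  have hpr₀ : p ≤ ρ₀ / 3 := (min_le_right _ _).trans (min_le_left _ _)
  have hpr₁ : p ≤ ρ₁ / 3 := (min_le_right _ _).trans (min_le_right _ _)
  have hR0 : R 0 - R (2 * p) ≤ ζ / 4 := by
    have := hc0 (x := 2 * p) ⟨by linarith, by linarith⟩ (by
      rw [Real.dist_eq, sub_zero, abs_of_pos (by linarith)]; linarith)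
    rw [Real.dist_eq] at this
    linarith [(abs_lt.1 this).1]
  have hRa : R (a - 2 * p) ≤ ζ / 4 := by
    have := hc1 (x := a - 2 * p) ⟨by linarith, by linarith⟩ (by
      rw [Real.dist_eq, abs_of_nonpos (by linarith)]; linarith)
    rw [Real.dist_eq, hx.R_top, sub_zero] at this
    linarith [(abs_lt.1 this).2]
  have hsub : Icc p (a - p) ⊆ Ioo 0 a := fun x hm => ⟨by linarith [hm.1], by linarith [hm.2]⟩
  have hne : (Icc p (a - p)).Nonempty := nonempty_Icc.2 (by linarith)
  have hch : ContinuousOn h (Icc p (a - p)) := hx.h_cont.mono fun x hm => hp.trans_le hm.1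
  obtain ⟨xM, -, hxM⟩ := isCompact_Icc.exists_isMaxOn hne hch
  obtain ⟨xm, hxm, hm⟩ := isCompact_Icc.exists_isMinOn hne
    ((hch.pow 2).mul ((cont_beta hx).mono hsub))
  set M := max (h xM) 1
  set m := h xm ^ 2 * beta h H xm
  have hM0 : 0 < M := zero_lt_one.trans_le (le_max_right _ _)
  have hm0 : 0 < m := mul_pos (pow_pos (basic hx (hsub hxm)).1 2) (basic hx (hsub hxm)).2.2.1
  set γ := ζ * m / (8 * (M + |B| + 1)) with hγ_def
  have hγ : 0 < γ := by positivity
  set τ := min 1 (ζ * γ * m / (4 * M ^ 2)) with hτ_def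
  have hτ : 0 < τ := by positivity
  set η := min (p / 2) (τ / 16)
  have hη : 0 < η := by positivity
  have hηp : η ≤ p / 2 := min_le_left _ _
  obtain ⟨g, L, b, ht⟩ := exists_trunc hx hη (by linarith)
  obtain ⟨ρ₂, hρ₂, hc2⟩ := Metric.continuous_iff.1
    ((continuous_const.mul continuous_id : Continuous fun x => H * x).sub ht.L_cont) a (τ / 4)
    (by linarith)
  have hLerr : ∀ x ∈ Icc 0 (a + ρ₂ / 2), H * x - τ / 4 ≤ L x := fun x hm => by
    rcases le_or_gt x a with c | c
    · rw [ht.L_eq x ⟨hm.1, c⟩]; linarith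
    · have h' : |H * x - L x - (H * a - L a)| < τ / 4 :=
        hc2 x (by rw [Real.dist_eq, abs_of_pos (by linarith)]; linarith [hm.2])
      rw [ht.L_eq a (right_mem_Icc.2 ha.le), sub_self, sub_zero] at h'
      linarith [(abs_lt.1 h').2]
  have hK := hslice g ht.g_cont ht.g_zero (fun x hm => ⟨ht.g_nonneg x, ht.g_le x hm.1⟩) (τ / 4)
    (by linarith)
  have hv : ∀ᶠ n in atTop, H * v - τ / 4 ≤ H * ∫ t in (0 : ℝ)..1, A n t :=
    (hmean.const_mul H).eventually (Ici_mem_nhds (by linarith))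
  filter_upwards [hK, hv, hmin η hη, hmax (min η (ρ₂ / 2)) (lt_min hη (by linarith))]
    with n ⟨K, hKc, hKle, hKi⟩ hvn ⟨t₀, ht₀⟩ ⟨⟨t₂, ht₂⟩, htop⟩ t₁ ht₁ t htt
  have hAc : Continuous (A n) := continuous_iff_continuousAt.2 fun s => (hder n s).continuousAt
  obtain ⟨hS, hd⟩ := deficit hx hη (by linarith) ht (hper n) (hder n) (hD n) (fun s => (hA n s).1)
    hKc hKle hKi ht₀ (show a - η ≤ A n t₁ by linarith [ht₁ t₂, min_le_left η (ρ₂ / 2)])
    (min_le_right _ _)
    (fun s => hLerr _ ⟨(hA n s).1, (htop s).trans (by linarith [min_le_right η (ρ₂ / 2)])⟩) hvn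
  obtain ⟨hψc, hψ0⟩ := trate_facts hx hp (by linarith)
  set S : ℝ → ℝ := fun s =>
    √(g (A n s) ^ 2 + (|D n s| / 2) ^ 2) - (L (A n s) + b (A n s) * (|D n s| / 2)) with hS_def
  have hdc : Continuous fun s => |D n s| / 2 := (hD n).abs.div_const 2
  have hSc : Continuous S := (((ht.g_cont.comp hAc).pow 2).add (hdc.pow 2)).sqrt.sub
    ((ht.L_cont.comp hAc).add ((ht.b_cont.comp hAc).mul hdc))
  have hS0 : ∀ s, 0 ≤ S s := fun s => sub_nonneg.2
    (calib_pt (ht.g_nonneg _) (by nlinarith [(ht.b_mem (A n s)).1, (ht.b_mem (A n s)).2])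
      (ht.calib _))
  set E : ℝ → ℝ := fun s => (γ * (M + |D n s| / 2) + M ^ 2 * S s / (2 * γ)) / m with hE_def
  have hEc : Continuous E :=
    ((continuous_const.mul (continuous_const.add hdc)).add
      ((continuous_const.mul hSc).div_const _)).div_const m
  have hE0 : ∀ s, 0 ≤ E s := fun s => div_nonneg (add_nonneg
    (mul_nonneg hγ.le (add_nonneg hM0.le (by positivity)))
    (div_nonneg (mul_nonneg (sq_nonneg M) (hS0 s)) (by linarith))) hm0.le
  have hEp : Function.Periodic E 1 := fun s => by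
    simp only [hE_def, hS_def, hper n s, deriv_periodic (hper n) (hder n) s]
  have hEi : 2 * ∫ s in (0 : ℝ)..1, E s ≤ ζ / 2 := by
    simp only [hE_def]
    rw [intervalIntegral.integral_div, intervalIntegral.integral_add
        (f := fun s => γ * (M + |D n s| / 2)) (g := fun s => M ^ 2 * S s / (2 * γ))
        ((continuous_const.mul (continuous_const.add hdc)).intervalIntegrable _ _)
        (((continuous_const.mul hSc).div_const _).intervalIntegrable _ _),
      intervalIntegral.integral_const_mul, intervalIntegral.integral_div,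
      intervalIntegral.integral_const_mul,
      intervalIntegral.integral_add intervalIntegrable_const (hdc.intervalIntegrable _ _),
      intervalIntegral.integral_const, sub_zero, one_smul]
    have e1 : γ * (M + (|B| + 1)) = ζ * m / 8 := by rw [hγ_def]; field_simp; ring
    have h2 : M ^ 2 * (∫ s in (0 : ℝ)..1, S s) / (2 * γ) ≤ ζ * m / 8 := by
      rw [div_le_iff₀ (by linarith)]
      have h4 : τ * (4 * M ^ 2) ≤ ζ * γ * m := by
        rw [← le_div_iff₀ (by positivity)]; exact min_le_right _ _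
      nlinarith [mul_le_mul_of_nonneg_left hS (sq_nonneg M)]
    have h1 := mul_le_mul_of_nonneg_left (add_le_add_left (hd.trans (by
      linarith [le_abs_self B, min_le_left 1 (ζ * γ * m / (4 * M ^ 2))] : B + τ / 4 ≤ |B| + 1)) M)
      hγ.le
    have key : ∀ u : ℝ, u ≤ ζ * m / 4 → 2 * (u / m) ≤ ζ / 2 := fun u hu => by
      rw [mul_div_assoc', div_le_iff₀ hm0]; linarith
    exact key _ (by linarith)
  have h6 := incr_le (F := fun s => ∫ z in (0 : ℝ)..A n s, trate h H a p z)
    (hasDerivAt_prim hψc (hder n)) ((hψc.comp hAc).mul (hD n)) hEc hEp hE0 (fun s => by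
      show |trate h H a p (A n s) * D n s| ≤ _
      rw [abs_mul, abs_of_nonneg (hψ0 _)]
      exact speed_le hx hp (by linarith) hγ hm0 ht
        (fun x hx' => (show h x ≤ h xM from hxM hx').trans (le_max_left _ _)) hM0.le
        (fun x hx' => hm hx') (A n s) (D n s)) htt
  have h7 := half_le_rate hx hp (by linarith) hR0 hRa (hA n t).1 (ht₁ t)
    (show a - 2 * p ≤ A n t₁ by linarith [ht₁ t₂, min_le_left η (ρ₂ / 2)])
  linarith

end ProfileEq

open ProfileEq in
/-- In the case of equality the limit profile has the moment of the extremal one. -/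
theorem profile_moment {h : ℝ → ℝ} {H a v B : ℝ} {R : ℝ → ℝ} (hx : Extremal h H a v B R)
    {A D : ℕ → ℝ → ℝ} {A' : ℝ → ℝ}
    (hper : ∀ n, Function.Periodic (A n) 1) (hder : ∀ n t, HasDerivAt (A n) (D n t) t)
    (hD : ∀ n, Continuous (D n)) (hA : ∀ n t, A n t ∈ Icc (0 : ℝ) 1)
    (hmin : ∀ δ : ℝ, 0 < δ → ∀ᶠ n in atTop, ∃ t, A n t ≤ δ)
    (hmax : ∀ δ : ℝ, 0 < δ → ∀ᶠ n in atTop, (∃ t, a - δ ≤ A n t) ∧ ∀ t, A n t ≤ a + δ)
    (hmean : Tendsto (fun n => ∫ t in (0 : ℝ)..1, A n t) atTop (𝓝 v))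
    (hslice : ∀ g : ℝ → ℝ, Continuous g → g 0 = 0 → (∀ x ∈ Ioc 0 1, 0 ≤ g x ∧ g x ≤ h x) →
      ∀ δ : ℝ, 0 < δ → ∀ᶠ n in atTop, ∃ K : ℝ → ℝ, Continuous K ∧
        (∀ t, √(g (A n t) ^ 2 + (D n t / 2) ^ 2) ≤ K t) ∧ ∫ t in (0 : ℝ)..1, K t ≤ B + δ)
    (hA' : Measurable A') (hA'b : ∀ t, A' t ∈ Icc (0 : ℝ) 1) (hA'p : Function.Periodic A' 1)
    (hlim : Tendsto (fun n => ∫ t in (0 : ℝ)..1, |A n t - A' t|) atTop (𝓝 0)) :
    ∃ c, moment A' c = 2 / 3 * ∫ x in (0 : ℝ)..a, R x ^ 3 := by
  have ha := hx.a_pos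
  have hAc : ∀ n, Continuous (A n) := fun n =>
    continuous_iff_continuousAt.2 fun s => (hder n s).continuousAt
  have hmx : ∀ n, ∃ t ∈ Icc (0 : ℝ) 1, ∀ s, A n s ≤ A n t := fun n => by
    obtain ⟨t, ht, hmx⟩ := isCompact_Icc.exists_isMaxOn (nonempty_Icc.2 (zero_le_one' ℝ))
      (hAc n).continuousOn
    refine ⟨t, ht, fun s => ?_⟩
    obtain ⟨r, hr, e⟩ := (hper n).exists_mem_Ico₀ one_pos s
    rw [e]; exact hmx (Ico_subset_Icc_self hr)
  choose t₁ ht₁ hmax₁ using hmx
  obtain ⟨c, -, φ, hφ, hc⟩ := isCompact_Icc.tendsto_subseq ht₁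
  refine ⟨c, ?_⟩
  set μ : Measure ℝ := volume.restrict (Ioc (c - 1 / 2) (c + 1 / 2)) with hμ
  have hle : c - 1 / 2 ≤ c + 1 / 2 := by linarith
  have hwin : ∀ F : ℝ → ℝ, Function.Periodic F 1 → ∫ t, F t ∂μ = ∫ t in (0 : ℝ)..1, F t :=
    fun F hF => by
      rw [hμ, ← intervalIntegral.integral_of_le hle,
        show c + 1 / 2 = c - 1 / 2 + 1 by ring, hF.intervalIntegral_add_eq (c - 1 / 2) 0, zero_add]
  have : IsFiniteMeasure μ := ⟨by simp [hμ]⟩
  have hb : ∀ n t, |A n t - A' t| ≤ 1 := fun n t =>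
    abs_sub_le_iff.2 ⟨by linarith [(hA n t).2, (hA'b t).1], by linarith [(hA'b t).2, (hA n t).1]⟩
  have hmeas : TendstoInMeasure μ A atTop A' := by
    refine tendstoInMeasure_of_tendsto_eLpNorm one_ne_zero
      (fun n => (hAc n).aestronglyMeasurable) hA'.aestronglyMeasurable ?_
    have h := (ENNReal.tendsto_ofReal hlim)
    rw [ENNReal.ofReal_zero] at h
    refine h.congr fun n => ?_
    rw [eLpNorm_one_eq_lintegral_enorm, ← ofReal_integral_norm_eq_lintegral_enorm
      (Integrable.of_bound (((hAc n).measurable.sub hA').aestronglyMeasurable) 1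
        (Filter.Eventually.of_forall fun t => (Real.norm_eq_abs _).trans_le (hb n t)))]
    congr 1
    simp only [Pi.sub_apply, Real.norm_eq_abs]
    exact (hwin _ fun t => by simp only [hper n t, hA'p t]).symm
  obtain ⟨ns, hns, hae⟩ := (hmeas.comp hφ.tendsto_atTop).exists_seq_tendsto_ae
  have hcn : Tendsto (fun i => t₁ (φ (ns i))) atTop (𝓝 c) := hc.comp hns.tendsto_atTop
  have hgood : ∀ᵐ t ∂μ, A' t ∈ Icc 0 a ∧ R (A' t) ≤ |t - c| := by
    filter_upwards [hae, ae_restrict_mem measurableSet_Ioc] with t ht htW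
    have hsub : Tendsto (fun i => φ (ns i)) atTop atTop :=
      hφ.tendsto_atTop.comp hns.tendsto_atTop
    have hAa : A' t ≤ a := le_of_forall_pos_le_add fun δ hδ =>
      le_of_tendsto ht ((hsub.eventually (hmax δ hδ)).mono fun i hi => hi.2 t)
    refine ⟨⟨(hA'b t).1, hAa⟩, le_of_forall_pos_le_add fun ζ hζ => ?_⟩
    have h1 : Tendsto (fun i => Rc R a (A (φ (ns i)) t)) atTop (𝓝 (Rc R a (A' t))) :=
      ((continuous_Rc hx).tendsto _).comp ht
    have h2 : Tendsto (fun i => |t - t₁ (φ (ns i))| + ζ) atTop (𝓝 (|t - c| + ζ)) :=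
      (tendsto_const_nhds.sub hcn).abs.add_const ζ
    have h3 : ∀ᶠ i in atTop, |t - t₁ (φ (ns i))| ≤ 1 :=
      (tendsto_const_nhds.sub hcn).abs.eventually (Iic_mem_nhds (by
        rw [abs_lt]; constructor <;> linarith [htW.1, htW.2]))
    have := le_of_tendsto_of_tendsto h1 h2 (by
      filter_upwards [h3, hsub.eventually (lip hx hper hder hD hA hmin hmax hmean hslice hζ)]
        with i hi hl
      exact hl _ (hmax₁ _) t hi)
    rwa [Rc, clampI_eq ⟨(hA'b t).1, hAa⟩] at this
  -- integrals against the extremal profile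
  set S : Set (ℝ × ℝ) := {z | |z.1 - c| < Rc R a z.2}
  have hS : MeasurableSet S := measurableSet_lt (by fun_prop)
    ((continuous_Rc hx).measurable.comp measurable_snd)
  set ν : Measure ℝ := volume.restrict (Ioc 0 a) with hν
  have : IsFiniteMeasure ν := ⟨by simp [hν]⟩
  set P : ℝ → ℝ := fun t => ∫ x, S.indicator (fun _ => (1 : ℝ)) (t, x) ∂ν with hPdef
  have hPint : ∀ (w : ℝ → ℝ), Continuous w → (∀ t ∈ Ioc (c - 1 / 2) (c + 1 / 2), |w t| ≤ 1) →
      Integrable (fun t => w t * P t) μ ∧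
        ∫ t, w t * P t ∂μ = ∫ x in (0 : ℝ)..a, ∫ t in (c - R x)..(c + R x), w t := fun w hw hw1 => by
    have hI : Integrable (fun z : ℝ × ℝ => w z.1 * S.indicator (fun _ => (1 : ℝ)) z) (μ.prod ν) := by
      refine Integrable.of_bound ((hw.measurable.comp measurable_fst).mul
        (measurable_const.indicator hS)).aestronglyMeasurable 1 ?_
      filter_upwards [Measure.quasiMeasurePreserving_fst.ae
        (ae_restrict_mem measurableSet_Ioc (μ := volume) : ∀ᵐ t ∂μ, t ∈ Ioc (c - 1/2) (c + 1/2))]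
        with z hz
      rw [Real.norm_eq_abs, abs_mul]
      refine mul_le_one₀ (hw1 _ hz) (abs_nonneg _) ?_
      by_cases hzS : z ∈ S <;> simp [hzS]
    have e : (fun t => w t * P t) =
        fun t => ∫ x, w t * S.indicator (fun _ => (1 : ℝ)) (t, x) ∂ν := funext fun t =>
      (integral_const_mul _ _).symm
    rw [e]
    refine ⟨hI.integral_prod_left, ?_⟩
    rw [integral_integral_swap hI, intervalIntegral.integral_of_le ha.le, hν]
    refine setIntegral_congr_fun measurableSet_Ioc fun x hm => ?_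
    have hxm : x ∈ Icc 0 a := Ioc_subset_Icc_self hm
    have r0 := R_nonneg hx hxm
    have r1 := R_le_half hx hxm
    have e2 : (fun t => w t * S.indicator (fun _ => (1 : ℝ)) (t, x)) =
        (Ioo (c - R x) (c + R x)).indicator w := funext fun t => by
      have hiff : (t, x) ∈ S ↔ t ∈ Ioo (c - R x) (c + R x) := by
        show |t - c| < Rc R a x ↔ _
        rw [Rc, clampI_eq hxm, abs_lt, mem_Ioo]
        constructor <;> rintro ⟨l1, l2⟩ <;> constructor <;> linarith
      by_cases ht : t ∈ Ioo (c - R x) (c + R x)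
      · simp [ht, hiff.2 ht]
      · simp [ht, mt hiff.1 ht]
    show ∫ t, _ ∂μ = _
    rw [e2, integral_indicator measurableSet_Ioo, hμ,
      Measure.restrict_restrict measurableSet_Ioo, inter_eq_left.2 (show Ioo (c - R x) (c + R x) ⊆ Ioc (c - 1 / 2) (c + 1 / 2) from fun t ht =>
        ⟨by linarith [ht.1], by linarith [ht.2]⟩),
      intervalIntegral.integral_of_le (by linarith), integral_Ioc_eq_integral_Ioo]
  have hPle : ∀ᵐ t ∂μ, P t ≤ A' t := by
    filter_upwards [hgood] with t ⟨ht1, ht2⟩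
    have hsub : ∀ x ∈ Ioc 0 a, (t, x) ∈ S → x ∈ Ioc 0 (A' t) := fun x hm hxS => by
      refine ⟨hm.1, le_of_lt (lt_of_not_ge fun c2 => ?_)⟩
      have h3 : |t - c| < Rc R a x := hxS
      rw [Rc, clampI_eq (Ioc_subset_Icc_self hm)] at h3
      linarith [antitone_R hx ht1 (Ioc_subset_Icc_self hm) c2]
    calc P t ≤ ∫ x, (Ioc 0 (A' t)).indicator (fun _ => (1 : ℝ)) x ∂ν := by
          refine integral_mono_of_nonneg (Filter.Eventually.of_forall fun x =>
            indicator_nonneg (fun _ _ => zero_le_one) _) ?_ ?_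
          · exact (integrable_const _).indicator measurableSet_Ioc
          · filter_upwards [ae_restrict_mem measurableSet_Ioc] with x hm
            by_cases hxS : (t, x) ∈ S
            · simp [hxS, hsub x hm hxS]
            · simp [hxS, indicator_nonneg]
      _ = A' t := by
          rw [integral_indicator measurableSet_Ioc, hν,
            Measure.restrict_restrict measurableSet_Ioc,
            inter_eq_left.2 (Ioc_subset_Ioc_right ht1.2), setIntegral_const]
          simp [ht1.1]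
  have hA'i : ∀ w : ℝ → ℝ, Continuous w → (∀ t ∈ Ioc (c - 1 / 2) (c + 1 / 2), |w t| ≤ 1) →
      Integrable (fun t => w t * A' t) μ := fun w hw hw1 => by
    refine Integrable.of_bound (hw.measurable.mul hA').aestronglyMeasurable 1 ?_
    filter_upwards [ae_restrict_mem measurableSet_Ioc] with t ht
    rw [Real.norm_eq_abs, abs_mul, abs_of_nonneg (hA'b t).1]
    exact mul_le_one₀ (hw1 t ht) (hA'b t).1 (hA'b t).2
  obtain ⟨hP1, hP1e⟩ := hPint (fun _ => 1) continuous_const fun _ _ => by simp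
  have hvA : ∫ t, A' t ∂μ = v := by
    rw [hwin A' hA'p]
    refine tendsto_nhds_unique ?_ hmean
    rw [tendsto_iff_norm_sub_tendsto_zero]
    refine squeeze_zero (fun n => norm_nonneg _) (fun n => ?_) hlim
    have i1 : IntervalIntegrable A' volume 0 1 := by
      rw [intervalIntegrable_iff_integrableOn_Ioc_of_le zero_le_one]
      exact IntegrableOn.of_bound measure_Ioc_lt_top hA'.aestronglyMeasurable 1
        (Filter.Eventually.of_forall fun t => by
          rw [Real.norm_eq_abs, abs_of_nonneg (hA'b t).1]; exact (hA'b t).2)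
    rw [← intervalIntegral.integral_sub ((hAc n).intervalIntegrable _ _) i1]
    exact intervalIntegral.norm_integral_le_integral_norm zero_le_one
  have hvP : ∫ t, P t ∂μ = v := by
    simp only [one_mul] at hP1e
    rw [hP1e, hx.vol_eq, ← intervalIntegral.integral_const_mul]
    refine intervalIntegral.integral_congr fun x _ => ?_
    simp; ring
  have heq : P =ᵐ[μ] A' := by
    simp only [one_mul] at hP1
    have hA1 : Integrable A' μ := by simpa using hA'i (fun _ => 1) continuous_const fun _ _ => by simp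
    have h0 : 0 ≤ᵐ[μ] fun t => A' t - P t := hPle.mono fun t ht => sub_nonneg.2 ht
    have h1 := (integral_eq_zero_iff_of_nonneg_ae h0 (hA1.sub hP1)).1
      (by rw [integral_sub hA1 hP1, hvA, hvP, sub_self])
    filter_upwards [h1] with t ht
    simp only [Pi.zero_apply] at ht
    linarith
  obtain ⟨-, hP2⟩ := hPint (fun t => (t - c) ^ 2) (by fun_prop) fun t ht => by
    rw [abs_of_nonneg (sq_nonneg _)]
    nlinarith [ht.1, ht.2]
  rw [moment, intervalIntegral.integral_of_le hle]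
  change ∫ t, (t - c) ^ 2 * A' t ∂μ = _
  rw [← integral_congr_ae (heq.mono fun t ht => congrArg ((t - c) ^ 2 * ·) ht), hP2,
    ← intervalIntegral.integral_const_mul]
  refine intervalIntegral.integral_congr fun x _ => ?_
  show ∫ t in (c - R x)..(c + R x), (t - c) ^ 2 = _
  rw [intervalIntegral.integral_comp_sub_right (fun t => t ^ 2) c, integral_pow]
  ring

end

end Vale.Agent.P232.Rigid
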