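import Vale.Agent.P232.Rigid.Seq
import Vale.Agent.P232.Rigid.ProfileEq
import Vale.Agent.P232.Rigid.Bathtub

/-!
# P232: the case of the ball

When all three axes have an empty slice and the greatest slice of the ball, each marginal has the
second moment of the ball's, so the set is a ball.
-/

namespace Vale.Agent.P232.Rigid

noncomputable section

open MeasureTheory Set Filter Topology Real

namespace BallCase

/-- The half-width of the ball at the level `x`. -/
def halfW (A x : ℝ) : ℝ := √((A - x) / π)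

lemma hasDerivAt_halfW {A x : ℝ} (hx : x < A) :
    HasDerivAt (halfW A) (-(1 / π) / (2 * halfW A x)) x := by
  have h : HasDerivAt (fun y => (A - y) / π) (-(1 / π)) x := by
    simpa [neg_div, sub_eq_add_neg] using ((hasDerivAt_id x).const_sub A).div_const π
  exact h.sqrt (div_pos (sub_pos.2 hx) Real.pi_pos).ne'

lemma halfW_sq {A x : ℝ} (hx : x ≤ A) : halfW A x ^ 2 = (A - x) / π :=
  Real.sq_sqrt (div_nonneg (sub_nonneg.2 hx) Real.pi_pos.le)

lemma continuous_halfW (A : ℝ) : Continuous (halfW A) := by unfold halfW; fun_prop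

lemma integral_halfW {A : ℝ} (hA : 0 ≤ A) :
    ∫ x in (0 : ℝ)..A, halfW A x = 2 / 3 * A * halfW A 0 := by
  rw [intervalIntegral.integral_eq_sub_of_hasDerivAt_of_le hA
    (f := fun x => -(2 / 3) * ((A - x) * halfW A x))
    (continuous_const.mul ((continuous_const.sub continuous_id).mul (continuous_halfW A))).continuousOn
    (fun x hx => ?_) ((continuous_halfW A).intervalIntegrable _ _)]
  · simp; ring
  have hp : 0 < halfW A x := Real.sqrt_pos.2 (div_pos (sub_pos.2 hx.2) Real.pi_pos)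
  refine ((((hasDerivAt_id x).const_sub A).mul (hasDerivAt_halfW hx.2)).const_mul (-(2 / 3))).congr_deriv ?_
  have e : A - x = halfW A x ^ 2 * π := by
    rw [halfW_sq hx.2.le, div_mul_cancel₀ _ Real.pi_ne_zero]
  simp only [id_eq, e]
  field_simp
  ring

lemma integral_halfW_cube {A : ℝ} (hA : 0 ≤ A) :
    ∫ x in (0 : ℝ)..A, halfW A x ^ 3 = 2 / (5 * π) * (A ^ 2 * halfW A 0) := by
  have hc : Continuous fun x => halfW A x ^ 3 := (continuous_halfW A).pow 3
  rw [intervalIntegral.integral_eq_sub_of_hasDerivAt_of_le hA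
    (f' := fun x => halfW A x ^ 3) (f := fun x => -(2 / (5 * π)) * ((A - x) ^ 2 * halfW A x))
    (continuous_const.mul (((continuous_const.sub continuous_id).pow 2).mul
      (continuous_halfW A))).continuousOn
    (fun x hx => ?_) (hc.intervalIntegrable _ _)]
  · simp
  have hp : 0 < halfW A x := Real.sqrt_pos.2 (div_pos (sub_pos.2 hx.2) Real.pi_pos)
  refine (((((hasDerivAt_id x).const_sub A).pow 2).mul (hasDerivAt_halfW hx.2)).const_mul
    (-(2 / (5 * π)))).congr_deriv ?_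
  have e : A - x = halfW A x ^ 2 * π := by
    rw [halfW_sq hx.2.le, div_mul_cancel₀ _ Real.pi_ne_zero]
  simp only [id_eq, e, Pi.pow_apply]
  field_simp
  ring

/-- The data of the ball. -/
lemma extremal {A v : ℝ} (hA0 : 0 < A) (hA1 : A ≤ 1) (hr : √(A / π) ≤ 1 / 2)
    (hA : 3 * √π * v = 4 * √A ^ 3) :
    Extremal (fun x => √(π * x)) (√π / √A) A v (ballF v) (halfW A) := by
  have hπ := Real.pi_pos
  have sA : √A ^ 2 = A := Real.sq_sqrt hA0.le
  have sπ : √π ^ 2 = π := Real.sq_sqrt hπ.le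
  have hAp : 0 < √A := Real.sqrt_pos.2 hA0
  have hπp : 0 < √π := Real.sqrt_pos.2 hπ
  have hv : 0 ≤ v := by
    by_contra h
    nlinarith [mul_pos hπp (neg_pos.2 (not_le.1 h)), pow_pos hAp 3]
  have hW0 : halfW A 0 = √A / √π := by rw [halfW, sub_zero, Real.sqrt_div' _ hπ.le]
  have hline : ∀ x, 0 ≤ x → (√π / √A * x) ^ 2 = √(π * x) ^ 2 * (x / A) := fun x hx => by
    rw [Real.sq_sqrt (mul_nonneg hπ.le hx), mul_pow, div_pow, sA, sπ]; ring
  have hR : ∫ x in (0 : ℝ)..A, halfW A x = v / 2 := by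
    rw [integral_halfW hA0.le, hW0]
    have : √A ^ 3 = A * √A := by rw [pow_succ, sA]
    rw [this] at hA
    field_simp
    linarith
  refine ⟨hA0, hA1, by positivity, (continuous_const.mul continuous_id).sqrt.continuousOn,
    fun x => Real.sqrt_nonneg _, fun x hx => ?_, le_of_eq ?_, (continuous_halfW A).continuousOn,
    by simp [halfW], ?_, fun x hx => ?_, by rw [hR]; ring, ?_⟩
  · have hs : 0 < √(π * x) := Real.sqrt_pos.2 (mul_pos hπ hx.1)
    refine lt_of_pow_lt_pow_left₀ 2 hs.le ?_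
    rw [hline x hx.1.le]
    exact mul_lt_of_lt_one_right (by positivity) ((div_lt_one hA0).2 hx.2)
  · rw [Real.sqrt_mul hπ.le, div_mul_eq_mul_div, div_eq_iff hAp.ne', mul_assoc, ← sq, sA]
  · simpa [halfW] using hr
  · have hs : 0 < √(π * x) := Real.sqrt_pos.2 (mul_pos hπ hx.1)
    have hp : 0 < halfW A x := Real.sqrt_pos.2 (div_pos (sub_pos.2 hx.2) hπ)
    have e : √(π * x) * √(√(π * x) ^ 2 - (√π / √A * x) ^ 2) = √π / √A * x * (π * halfW A x) := by
      have h0 : (0 : ℝ) ≤ √π / √A * x * (π * halfW A x) :=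
        mul_nonneg (mul_nonneg (by positivity) hx.1.le) (by positivity)
      rw [← Real.sqrt_sq h0]
      conv_lhs => rw [← Real.sqrt_sq hs.le]
      rw [← Real.sqrt_mul (sq_nonneg _)]
      congr 1
      rw [Real.sq_sqrt (sq_nonneg _), hline x hx.1.le, mul_pow _ (π * halfW A x), hline x hx.1.le,
        mul_pow, halfW_sq hx.2.le, Real.sq_sqrt (mul_nonneg hπ.le hx.1.le)]
      field_simp
    refine (hasDerivAt_halfW hx.2).congr_deriv ?_
    have hx0 := hx.1.ne'
    show _ = -(√π / √A * x) / (2 * (√(π * x) * √(√(π * x) ^ 2 - (√π / √A * x) ^ 2)))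
    rw [e]
    field_simp
  · have hb : ∀ x ∈ uIcc 0 A,
        √(1 - (√π / √A * x / √(π * x)) ^ 2) = √π / √A * halfW A x := fun x hx => by
      rw [uIcc_of_le hA0.le] at hx
      have e : (√π / √A * x / √(π * x)) ^ 2 = x / A := by
        rcases hx.1.eq_or_lt with h | h
        · simp [← h]
        · rw [div_pow, hline x hx.1, mul_comm, mul_div_assoc, div_self (by positivity), mul_one]
      rw [e, halfW, ← Real.sqrt_div' _ hA0.le, ← Real.sqrt_mul (by positivity)]
      congr 1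
      field_simp
    rw [intervalIntegral.integral_congr hb, intervalIntegral.integral_const_mul, hR]
    refine (pow_left_inj₀ (n := 3) (by unfold ballF; positivity) (by positivity)
      (by norm_num)).1 ?_
    rw [ballF, Real.rpow_inv_natCast_pow (by positivity) (by norm_num),
      show √π / √A * v + √π / √A * (v / 2) = 3 / 2 * (√π * v) / √A by ring, div_pow,
      show √A ^ 3 = 3 * √π * v / 4 by linarith]
    rcases hv.eq_or_lt with h | h
    · simp [← h]
    field_simp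
    linear_combination -36 * sπ

/-- The slice inequality along the first axis when the other two axes have small slices. -/
lemma slice_round {u : ℕ → ℝ × ℝ × ℝ → ℝ} {B : ℝ} (hu : ∀ n, Dens (u n))
    (herr : Tendsto (fun n => int3 fun p => u n p * (1 - u n p)) atTop (𝓝 0))
    (htv : ∀ δ : ℝ, 0 < δ → ∀ᶠ n in atTop, int3 (gnorm (u n)) / 2 ≤ B + δ) {y₀ z₀ : ℕ → ℝ}
    (hy : Tendsto (fun n => ∫ t in (0 : ℝ)..1, ∫ z in (0 : ℝ)..1, u n (t, y₀ n, z)) atTop (𝓝 0))
    (hz : Tendsto (fun n => ∫ t in (0 : ℝ)..1, ∫ y in (0 : ℝ)..1, u n (t, y, z₀ n)) atTop (𝓝 0))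
    {g : ℝ → ℝ} (hg0 : g 0 = 0)
    (hg1 : ∀ x ∈ Ioc (0 : ℝ) 1, 0 ≤ g x ∧ g x ≤ √(π * x)) {δ : ℝ} (hδ : 0 < δ) :
    ∀ᶠ n in atTop, ∃ K : ℝ → ℝ, Continuous K ∧
      (∀ t, √(g (Axis.secA (u n) t) ^ 2 + (Axis.secD (u n) t / 2) ^ 2) ≤ K t) ∧
        ∫ t in (0 : ℝ)..1, K t ≤ B + δ := by
  obtain ⟨K₂, hK₂, hcut⟩ := cut2_lower (δ := δ / 4) (by positivity)
  have hK : Tendsto (fun n => K₂ / 2 * int3 fun p => u n p * (1 - u n p)) atTop (𝓝 0) := by
    simpa using herr.const_mul (K₂ / 2)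
  have hq : (0 : ℝ) < δ / 8 := by positivity
  filter_upwards [htv (δ / 4) (by positivity), hK.eventually_lt_const hq,
    hy.eventually_lt_const hq, hz.eventually_lt_const hq] with n hn hen hyn hzn
  have hw := hu n
  set w := u n
  have hc := hw.smooth.continuous
  have hF : Continuous fun p => w p * (1 - w p) := hc.mul (continuous_const.sub hc)
  have hgn : Continuous (gnorm w) :=
    ((((Axis.continuous_dir hw e₁).pow 2).add ((Axis.continuous_dir hw e₂).pow 2)).add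
      ((Axis.continuous_dir hw e₃).pow 2)).sqrt
  have hyc : Continuous fun t => ∫ z in (0 : ℝ)..1, w (t, y₀ n, z) :=
    Axis.continuous_inner (F := fun p => w (p.1, y₀ n, p.2)) (hc.comp (by fun_prop))
  have hzc : Continuous fun t => ∫ y in (0 : ℝ)..1, w (t, y, z₀ n) :=
    Axis.continuous_inner (F := fun p => w (p.1, p.2, z₀ n)) (hc.comp (by fun_prop))
  have hec : Continuous fun t => area2 fun q => w (t, q) * (1 - w (t, q)) := Axis.continuous_sec hF
  set X : ℝ → ℝ := fun t => δ / 8 + K₂ / 2 * (area2 fun q => w (t, q) * (1 - w (t, q)))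
    + ((∫ z in (0 : ℝ)..1, w (t, y₀ n, z)) + ∫ y in (0 : ℝ)..1, w (t, y, z₀ n)) with hX
  have hXc : Continuous X := (continuous_const.add (continuous_const.mul hec)).add (hyc.add hzc)
  refine ⟨fun t => area2 (fun q => gnorm w (t, q)) / 2 + X t,
    ((Axis.continuous_sec hgn).div_const 2).add hXc, fun t => ?_, ?_⟩
  · set T := tv2 (Axis.sec w t)
    set D := Axis.secD w t
    have hT : 0 ≤ T := intervalIntegral.integral_nonneg zero_le_one fun y _ =>
      intervalIntegral.integral_nonneg zero_le_one fun z _ => Real.sqrt_nonneg _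
    have hA := Axis.secA_mem hw t
    have hX0 : 0 ≤ X t := add_nonneg (add_nonneg (by positivity)
      (mul_nonneg (by positivity) (area2_nonneg fun q =>
        mul_nonneg (hw.mem _).1 (sub_nonneg.2 (hw.mem _).2))))
      (add_nonneg (intervalIntegral.integral_nonneg zero_le_one fun z _ => (hw.mem _).1)
        (intervalIntegral.integral_nonneg zero_le_one fun y _ => (hw.mem _).1))
    have h2 := hcut _ (Axis.dens2_sec hw t) (y₀ n) (z₀ n)
    have hgt : 0 ≤ g (Axis.secA w t) ∧ g (Axis.secA w t) ≤ T / 2 + X t := by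
      rcases hA.1.eq_or_lt with h | h
      · rw [← h, hg0]; exact ⟨le_rfl, add_nonneg (by linarith) hX0⟩
      · refine ⟨(hg1 _ ⟨h, hA.2⟩).1, (hg1 _ ⟨h, hA.2⟩).2.trans ?_⟩
        simp only [hX, Axis.secA]
        simp only [Axis.sec] at h2 ⊢
        linarith
    refine le_trans ?_ (add_le_add_left ((div_le_div_iff_of_pos_right (zero_lt_two' ℝ)).2
      (Axis.sqrt_le_gnorm hw t)) _)
    have hq : √(T ^ 2 + D ^ 2) ^ 2 = T ^ 2 + D ^ 2 := Real.sq_sqrt (by positivity)
    have hTle : T ≤ √(T ^ 2 + D ^ 2) := Real.le_sqrt_of_sq_le (by nlinarith)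
    rw [Real.sqrt_le_left (by linarith [Real.sqrt_nonneg (T ^ 2 + D ^ 2)])]
    nlinarith [pow_le_pow_left₀ hgt.1 hgt.2 2, mul_le_mul_of_nonneg_right hTle hX0]
  · dsimp only
    rw [intervalIntegral.integral_add (f := fun t => area2 (fun q => gnorm w (t, q)) / 2) (g := X)
        (((Axis.continuous_sec hgn).div_const 2).intervalIntegrable _ _)
        (hXc.intervalIntegrable _ _), intervalIntegral.integral_div, ← Axis.int3_eq]
    have e : ∫ t in (0 : ℝ)..1, X t = δ / 8 + K₂ / 2 * (int3 fun p => w p * (1 - w p))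
        + ((∫ t in (0 : ℝ)..1, ∫ z in (0 : ℝ)..1, w (t, y₀ n, z))
          + ∫ t in (0 : ℝ)..1, ∫ y in (0 : ℝ)..1, w (t, y, z₀ n)) := by
      simp only [hX]
      rw [intervalIntegral.integral_add
          (f := fun t => δ / 8 + K₂ / 2 * area2 fun q => w (t, q) * (1 - w (t, q)))
          (g := fun t => (∫ z in (0 : ℝ)..1, w (t, y₀ n, z)) + ∫ y in (0 : ℝ)..1, w (t, y, z₀ n))
          ((continuous_const.add (continuous_const.mul hec)).intervalIntegrable _ _)
          ((hyc.add hzc).intervalIntegrable _ _),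
        intervalIntegral.integral_add (hyc.intervalIntegrable _ _) (hzc.intervalIntegrable _ _),
        Axis.int3_add_const hF]
    rw [e]
    linarith

/-- The moment along the first axis. -/
lemma axis_moment {E : Set (ℝ × ℝ × ℝ)} (hm : MeasurableSet E) (hE : PerSet E)
    {u : ℕ → ℝ × ℝ × ℝ → ℝ} (hu : ∀ n, Dens (u n)) {v B A : ℝ} {R : ℝ → ℝ}
    (hx : Extremal (fun x => √(π * x)) (√π / √A) A v B R)
    (hvol : Tendsto (fun n => int3 (u n)) atTop (𝓝 v))
    (herr : Tendsto (fun n => int3 fun p => u n p * (1 - u n p)) atTop (𝓝 0))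
    (htv : ∀ δ : ℝ, 0 < δ → ∀ᶠ n in atTop, int3 (gnorm (u n)) / 2 ≤ B + δ)
    (hconv : Tendsto (fun n => ∫ p in cube, |u n p - Approx.chi E p|) atTop (𝓝 0))
    {f a : ℕ → ℝ} (he : ∀ n, IsExt (u n) (f n) (a n)) (hf : Tendsto f atTop (𝓝 0))
    (ha : Tendsto a atTop (𝓝 A)) {y₀ z₀ : ℕ → ℝ}
    (hy : Tendsto (fun n => ∫ t in (0 : ℝ)..1, ∫ z in (0 : ℝ)..1, u n (t, y₀ n, z)) atTop (𝓝 0))
    (hz : Tendsto (fun n => ∫ t in (0 : ℝ)..1, ∫ y in (0 : ℝ)..1, u n (t, y, z₀ n)) atTop (𝓝 0)) :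
    ∃ c, moment (marg E) c = 2 / 3 * ∫ x in (0 : ℝ)..A, R x ^ 3 := by
  refine profile_moment hx (A := fun n => Axis.secA (u n)) (D := fun n => Axis.secD (u n))
    (fun n => Axis.secA_periodic (hu n)) (fun n => Axis.hasDerivAt_secA (hu n))
    (fun n => Axis.continuous_secD (hu n)) (fun n => Axis.secA_mem (hu n))
    (fun δ hδ => (hf.eventually_lt_const hδ).mono fun n hn => ?_)
    (fun δ hδ => ((ha.eventually_lt_const (show A < A + δ by linarith)).and
      (ha.eventually_const_lt (show A - δ < A by linarith))).mono fun n hn => ?_)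
    hvol (fun g _ hg0 hg1 δ hδ => slice_round hu herr htv hy hz hg0 hg1 hδ)
    (measurable_secA (Approx.measurable_chi hm)) (fun t => secA_chi_mem t) (marg_periodic hE) ?_
  · obtain ⟨⟨t₀, h0, -⟩, -⟩ := he n
    exact ⟨t₀, by linarith⟩
  · obtain ⟨-, t₁, h1, hle⟩ := he n
    exact ⟨⟨t₁, by linarith [hn.2]⟩, fun t => (hle t).trans hn.1.le⟩
  · exact squeeze_zero (fun n => intervalIntegral.integral_nonneg zero_le_one fun t _ => abs_nonneg _)
      (fun n => integral_secA_sub_le (Approx.bd_of_per (hu n).smooth.continuous (hu n).per)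
        (Approx.bd_chi hm)) hconv

/-- The data of an approximating sequence after exchanging axes. -/
lemma comp_data {E : Set (ℝ × ℝ × ℝ)} {w : ℕ → ℝ × ℝ × ℝ → ℝ} (hm : MeasurableSet E)
    (hw : Appr E w) (L : (ℝ × ℝ × ℝ) →L[ℝ] ℝ × ℝ × ℝ)
    (hL : ∀ e ∈ ({e₁, e₂, e₃} : Set (ℝ × ℝ × ℝ)), L e ∈ ({e₁, e₂, e₃} : Set (ℝ × ℝ × ℝ)))
    (hint : ∀ F : ℝ × ℝ × ℝ → ℝ, Continuous F → int3 (fun p => F (L p)) = int3 F)
    (hg : ∀ n p, gnorm (fun q => w n (L q)) p = gnorm (w n) (L p))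
    (hmp : MeasurePreserving L volume volume) (hc : L ⁻¹' cube = cube) :
    (∀ n, Dens fun p => w n (L p)) ∧
      Tendsto (fun n => int3 fun p => w n (L p)) atTop (𝓝 (vol E)) ∧
      Tendsto (fun n => int3 fun p => w n (L p) * (1 - w n (L p))) atTop (𝓝 0) ∧
      (∀ δ : ℝ, 0 < δ → ∀ᶠ n in atTop,
        int3 (gnorm fun p => w n (L p)) / 2 ≤ (perim E).toReal / 2 + δ) ∧
      Tendsto (fun n => ∫ p in cube, |w n (L p) - Approx.chi (L ⁻¹' E) p|) atTop (𝓝 0) := by
  refine ⟨fun n => Axis.dens_comp (hw.dens n) L hL,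
    hw.vol_tendsto.congr fun n => (hint _ (hw.dens n).smooth.continuous).symm,
    hw.err.congr fun n => (hint (fun p => w n p * (1 - w n p))
      ((hw.dens n).smooth.continuous.mul
        (continuous_const.sub (hw.dens n).smooth.continuous))).symm,
    fun δ hδ => (hw.tv δ hδ).mono fun n hn => ?_, hw.conv.congr fun n => ?_⟩
  · rw [show gnorm (fun p => w n (L p)) = fun p => gnorm (w n) (L p) from funext (hg n),
      hint (gnorm (w n)) (((((Axis.continuous_dir (hw.dens n) e₁).pow 2).add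
        ((Axis.continuous_dir (hw.dens n) e₂).pow 2)).add
        ((Axis.continuous_dir (hw.dens n) e₃).pow 2)).sqrt)]
    exact hn
  · have h := hmp.restrict_preimage Approx.measurableSet_cube
    rw [hc] at h
    conv_lhs => rw [← h.map_eq]
    rw [integral_map (f := fun q => |w n q - Approx.chi E q|) h.measurable.aemeasurable
      (((hw.dens n).smooth.continuous.measurable.sub (Approx.measurable_chi hm)).abs
        |>.aestronglyMeasurable)]
    refine integral_congr_ae (Eventually.of_forall fun p => ?_)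
    by_cases hp : L p ∈ E <;> simp [Approx.chi, hp]

end BallCase

open BallCase in
theorem ball_case {E : Set (ℝ × ℝ × ℝ)} {w : ℕ → ℝ × ℝ × ℝ → ℝ} (hm : MeasurableSet E)
    (hE : PerSet E) (hfin : perim E ≠ ⊤) (hw : Appr E w) {f a : ℕ → Fin 3 → ℝ}
    (he : ∀ n, IsExts (w n) (f n) (a n)) (hf : ∀ i, Tendsto (fun n => f n i) atTop (𝓝 0))
    {A : ℝ} (ha : ∀ i, Tendsto (fun n => a n i) atTop (𝓝 A))
    (hA : 3 * √π * vol E = 4 * √A ^ 3) (hv0 : 0 < vol E) (hv : vol E ≤ 264 / 1000)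
    (hP : (perim E).toReal / 2 ≤ ballF (vol E)) :
    ∃ c, E =ᵐ[volume] ballSet c √(A / π) := by
  have hπ := Real.pi_pos
  have hA0 : 0 < A := by
    by_contra h
    rw [Real.sqrt_eq_zero'.2 (not_lt.1 h)] at hA
    nlinarith [mul_pos (Real.sqrt_pos.2 hπ) hv0]
  set r := √(A / π) with hr
  have hr0 : 0 < r := Real.sqrt_pos.2 (div_pos hA0 hπ)
  have hAr : √A = √π * r := by
    rw [hr, ← Real.sqrt_mul hπ.le, mul_div_cancel₀ _ hπ.ne']
  have hvr : vol E = 4 / 3 * π * r ^ 3 := by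
    have hs := Real.sq_sqrt hπ.le
    have hp : 0 < 3 * √π := by positivity
    refine mul_left_cancel₀ hp.ne' (hA.trans ?_)
    rw [hAr]
    linear_combination 4 * √π * r ^ 3 * hs
  have hr' : r ≤ 1 / 2 := by
    by_contra h
    have h3 := pow_le_pow_left₀ (by norm_num) (not_le.1 h).le 3
    nlinarith [Real.pi_gt_three, mul_le_mul_of_nonneg_left h3 hπ.le]
  have hA1 : A ≤ 1 := le_of_tendsto (ha 0) (Eventually.of_forall fun n => by
    obtain ⟨⟨-, t₁, h1, -⟩, -, -⟩ := he n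
    rw [← h1]; exact (Axis.secA_mem (hw.dens n) t₁).2)
  have hx := extremal hA0 hA1 hr' hA
  have hB : ∀ {u : ℕ → ℝ × ℝ × ℝ → ℝ}, (∀ δ : ℝ, 0 < δ → ∀ᶠ n in atTop,
      int3 (gnorm (u n)) / 2 ≤ (perim E).toReal / 2 + δ) → ∀ δ : ℝ, 0 < δ →
        ∀ᶠ n in atTop, int3 (gnorm (u n)) / 2 ≤ ballF (vol E) + δ :=
    fun {u} h δ hδ => (h δ hδ).mono fun n hn => hn.trans (by linarith)
  obtain ⟨y₀, y₁, y₂, hy⟩ : ∃ y₀ y₁ y₂ : ℕ → ℝ, ∀ n, Axis.secA (w n) (y₀ n) = f n 0 ∧
      Axis.secA (fun p => w n (Axis.swap₂ p)) (y₁ n) = f n 1 ∧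
      Axis.secA (fun p => w n (Axis.cyc₃ p)) (y₂ n) = f n 2 := by
    choose y₀ h0 y₁ h1 y₂ h2 using fun n => (⟨(he n).1.1.choose, (he n).1.1.choose_spec.1,
      (he n).2.1.1.choose, (he n).2.1.1.choose_spec.1,
      (he n).2.2.1.choose, (he n).2.2.1.choose_spec.1⟩ : ∃ p, Axis.secA (w n) p = f n 0 ∧
        ∃ q, Axis.secA (fun p => w n (Axis.swap₂ p)) q = f n 1 ∧
        ∃ s, Axis.secA (fun p => w n (Axis.cyc₃ p)) s = f n 2)
    exact ⟨y₀, y₁, y₂, fun n => ⟨h0 n, h1 n, h2 n⟩⟩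
  have hwc : ∀ n, Continuous (w n) := fun n => (hw.dens n).smooth.continuous
  have hperm : ∀ L : (ℝ × ℝ × ℝ) →L[ℝ] ℝ × ℝ × ℝ, L = Axis.swap₂ ∨ L = Axis.cyc₃ →
      ∀ n p, gnorm (fun q => w n (L q)) p = gnorm (w n) (L p) := fun L hL n p => by
    rcases hL with rfl | rfl <;>
    · rw [Axis.gnorm_comp (hw.dens n), gnorm]
      simp only [Axis.swap₂_apply, Axis.cyc₃_apply, e₁, e₂, e₃]
      ring_nf
  obtain ⟨d1, v1, er1, tv1, cv1⟩ := comp_data hm hw Axis.swap₂
    (fun e he => by rcases he with rfl | rfl | rfl <;> simp [Axis.swap₂_apply, e₁, e₂, e₃])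
    (fun F hF => Axis.int3_swap₂ hF) (hperm _ (Or.inl rfl)) mp_swap₂ swap₂_cube
  obtain ⟨d2, v2, er2, tv2', cv2⟩ := comp_data hm hw Axis.cyc₃
    (fun e he => by rcases he with rfl | rfl | rfl <;> simp [Axis.cyc₃_apply, e₁, e₂, e₃])
    (fun F hF => Axis.int3_cyc₃ hF) (hperm _ (Or.inr rfl)) mp_cyc₃ cyc₃_cube
  obtain ⟨c₀, hc₀⟩ := axis_moment hm hE hw.dens hx hw.vol_tendsto hw.err (hB hw.tv) hw.conv
    (fun n => (he n).1) (hf 0) (ha 0) (y₀ := y₁) (z₀ := y₂)
    ((hf 1).congr fun n => (hy n).2.1.symm) ((hf 2).congr fun n => (hy n).2.2.symm)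
  obtain ⟨c₁, hc₁⟩ := axis_moment (Axis.swap₂.continuous.measurable hm) (perSet_swap₂ hE) d1 hx
    v1 er1 (hB tv1) cv1 (fun n => (he n).2.1) (hf 1) (ha 1) (y₀ := y₀) (z₀ := y₂)
    ((hf 0).congr fun n => (hy n).1.symm)
    ((hf 2).congr fun n => (hy n).2.2.symm.trans (Axis.integral_swap
      (G := fun p : ℝ × ℝ => w n (p.1, p.2, y₂ n)) ((hwc n).comp (by fun_prop)) 0 1 zero_le_one))
  obtain ⟨c₂, hc₂⟩ := axis_moment (Axis.cyc₃.continuous.measurable hm) (perSet_cyc₃ hE) d2 hx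
    v2 er2 (hB tv2') cv2 (fun n => (he n).2.2) (hf 2) (ha 2) (y₀ := y₀) (z₀ := y₁)
    ((hf 0).congr fun n => (hy n).1.symm.trans (Axis.integral_swap
      (G := fun p : ℝ × ℝ => w n (y₀ n, p.1, p.2)) ((hwc n).comp (by fun_prop)) 0 1 zero_le_one))
    ((hf 1).congr fun n => (hy n).2.1.symm.trans (Axis.integral_swap
      (G := fun p : ℝ × ℝ => w n (p.1, y₁ n, p.2)) ((hwc n).comp (by fun_prop)) 0 1 zero_le_one))
  have hmom : 2 / 3 * ∫ x in (0 : ℝ)..A, halfW A x ^ 3 = 4 / 15 * π * r ^ 5 := by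
    rw [integral_halfW_cube hA0.le, show halfW A 0 = r by rw [halfW, sub_zero, hr]]
    have : A = π * r ^ 2 := by
      rw [hr, Real.sq_sqrt (div_nonneg hA0.le hπ.le), mul_div_cancel₀ _ hπ.ne']
    rw [this]
    field_simp
    ring
  exact ⟨(c₀, c₁, c₂), ball_rigid hm hE hr0 hr' hvr (hc₀.trans hmom).le (hc₁.trans hmom).le
    (hc₂.trans hmom).le⟩

end

end Vale.Agent.P232.Rigid
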