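import Vale.Agent.P232.Core
import Vale.Agent.P232.CornerWindow
import Vale.Agent.P232.Rigid.StrictCore

/-!
# P232: the certificates of the tube and slab ranges with a margin

The same trees with the end inequality lowered by one unit; the flat box and the slab corner get
their slack by hand.
-/

namespace Vale.Agent.P232

noncomputable section

open Real Set

/-- `Tree.check` with a margin of `10⁻⁷` and without corners. -/
def Tree.checkS (slab : Bool) (uhi : ℤ) : Tree → ℤ → ℤ → ℤ → ℤ → Bool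
  | .leaf H C ulo ns, f0, f1, a0, a1 =>
      decide (0 ≤ f0 ∧ f0 < f1 ∧ a0 < a1 ∧ a1 ≤ scale ∧ f0 < a1) && spanOk f1 a0 ns &&
        chainOk H C ((f0, 0) :: (ns ++ [(a1, 0)])) &&
        (bif slab then slabOk H C (trap2 ns - 2 * scale)
          else tubeOk H C ulo uhi f0 (trap2 ns - 2 * scale))
  | .cutF m l r, f0, f1, a0, a1 => l.checkS slab uhi f0 m a0 a1 && r.checkS slab uhi m f1 a0 a1
  | .cutA m l r, f0, f1, a0, a1 => l.checkS slab uhi f0 f1 a0 m && r.checkS slab uhi f0 f1 m a1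
  | .corner, f0, f1, a0, a1 =>
      slab && decide (0 ≤ f0 ∧ f1 ≤ 500 ∧ 9999500 ≤ a0 ∧ a1 ≤ scale)

lemma tube_treeS {uhi : ℤ} (hhi : 0 ≤ uhi) {v f a P : ℝ} (hfv : f ≤ v) (hva : v ≤ a) (hf0 : 0 ≤ f)
    (hu : v ≤ sc uhi ^ 2) (hw : 4 * π / 81 ≤ sc uhi ^ 2) (hP : Low gfun v f a P) :
    ∀ (T : Tree) (f0 f1 a0 a1 : ℤ), T.checkS false uhi f0 f1 a0 a1 = true →
      sc f0 ≤ f → f ≤ sc f1 → sc a0 ≤ a → a ≤ sc a1 →
      min (ballF v) √(π * v) + 1 / 10 ^ 7 ≤ P
  | .leaf H C ulo ns, f0, f1, a0, a1, h, hf, hf', ha, ha' => by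
    simp only [Tree.checkS, cond_false, Bool.and_eq_true, decide_eq_true_eq] at h
    obtain ⟨⟨⟨hd, hs⟩, hc⟩, he⟩ := h
    have h1 := tubeOk_sound he (hf0.trans hfv) (hf.trans hfv) hu hhi hw
    have h2 := leaf_calib hd hs hc hf hf' ha ha' (hfv.trans hva) hP
    simp only [scale] at h1
    push_cast at h1
    linarith
  | .cutF m l r, f0, f1, a0, a1, h, hf, hf', ha, ha' => by
    simp only [Tree.checkS, Bool.and_eq_true] at h
    rcases le_total f (sc m) with c | c
    · exact tube_treeS hhi hfv hva hf0 hu hw hP l _ _ _ _ h.1 hf c ha ha'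
    · exact tube_treeS hhi hfv hva hf0 hu hw hP r _ _ _ _ h.2 c hf' ha ha'
  | .cutA m l r, f0, f1, a0, a1, h, hf, hf', ha, ha' => by
    simp only [Tree.checkS, Bool.and_eq_true] at h
    rcases le_total a (sc m) with c | c
    · exact tube_treeS hhi hfv hva hf0 hu hw hP l _ _ _ _ h.1 hf hf' ha c
    · exact tube_treeS hhi hfv hva hf0 hu hw hP r _ _ _ _ h.2 hf hf' c ha'
  | .corner, f0, f1, a0, a1, h, _, _, _, _ => by simp [Tree.checkS] at h

lemma slab_treeS {v f a P : ℝ} (hfv : f ≤ v) (hva : v ≤ a) (h1 : 35995 / 100000 ≤ v)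
    (h2 : v ≤ 1 / 2) (hP : Low gfun v f a P) :
    ∀ (T : Tree) (f0 f1 a0 a1 : ℤ), T.checkS true 0 f0 f1 a0 a1 = true →
      sc f0 ≤ f → f ≤ sc f1 → sc a0 ≤ a → a ≤ sc a1 →
      1 + 1 / 10 ^ 7 ≤ P ∨
        (f ≤ 1 / 20000 ∧ 1 - 1 / 20000 ≤ a ∧ 1 + (√f + √(1 - a)) / 20 ≤ P)
  | .leaf H C ulo ns, f0, f1, a0, a1, h, hf, hf', ha, ha' => by
    simp only [Tree.checkS, cond_true, slabOk, Bool.and_eq_true, decide_eq_true_eq] at h
    obtain ⟨⟨⟨hd, hs⟩, hc⟩, he⟩ := h
    simp only [scale] at he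
    obtain ⟨he1, he2⟩ := he
    refine Or.inl (le_trans ?_ (leaf_calib hd hs hc hf hf' ha ha' (hfv.trans hva) hP))
    have r1 : (2 * 10000000 ^ 2 : ℝ) ≤
        2 * H * 3599500 + 2 * C * 10000000 + ((trap2 ns : ℝ) - 2 * 10000000) := by
      exact_mod_cast he1
    have r2 : (2 * 10000000 ^ 2 : ℝ) ≤
        2 * H * 5000000 + 2 * C * 10000000 + ((trap2 ns : ℝ) - 2 * 10000000) := by
      exact_mod_cast he2
    simp only [sc]
    rcases le_total (0 : ℝ) H with c | c
    · nlinarith [mul_le_mul_of_nonneg_left h1 c]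
    · nlinarith [mul_le_mul_of_nonpos_left h2 c]
  | .cutF m l r, f0, f1, a0, a1, h, hf, hf', ha, ha' => by
    simp only [Tree.checkS, Bool.and_eq_true] at h
    rcases le_total f (sc m) with c | c
    · exact slab_treeS hfv hva h1 h2 hP l _ _ _ _ h.1 hf c ha ha'
    · exact slab_treeS hfv hva h1 h2 hP r _ _ _ _ h.2 c hf' ha ha'
  | .cutA m l r, f0, f1, a0, a1, h, hf, hf', ha, ha' => by
    simp only [Tree.checkS, Bool.and_eq_true] at h
    rcases le_total a (sc m) with c | c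
    · exact slab_treeS hfv hva h1 h2 hP l _ _ _ _ h.1 hf hf' ha c
    · exact slab_treeS hfv hva h1 h2 hP r _ _ _ _ h.2 hf hf' c ha'
  | .corner, f0, f1, a0, a1, h, hf, hf', ha, ha' => by
    simp only [Tree.checkS, Bool.and_eq_true, decide_eq_true_eq] at h
    simp only [scale] at h
    obtain ⟨-, h0, h3, h4, h5⟩ := h
    have r0 : (0 : ℝ) ≤ sc f0 := div_nonneg (Int.cast_nonneg h0) (by norm_num)
    have r3 : sc f1 ≤ 1 / 20000 := by
      have : (f1 : ℝ) ≤ 500 := by exact_mod_cast h3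
      rw [sc]; linarith
    have r4 : 1 - 1 / 20000 ≤ sc a0 := by
      have : (9999500 : ℝ) ≤ a0 := by exact_mod_cast h4
      rw [sc]; linarith
    have r5 : sc a1 ≤ 1 := by
      have : (a1 : ℝ) ≤ 10000000 := by exact_mod_cast h5
      rw [sc]; linarith
    exact Or.inr ⟨hf'.trans r3, r4.trans ha,
      corner_window (r0.trans hf) ((hf'.trans r3).trans (by norm_num)) (by linarith)
        (ha'.trans r5) (by linarith) h2 hP⟩

theorem tubeTree_okS : tubeTree.checkS false 5138094 59171 2640000 3183098 10000000 = true := by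
  decide +kernel

theorem slabLow_okS : slabLow.checkS true 0 0 3183099 3599500 10000000 = true := by decide +kernel

theorem slabHigh_okS : slabHigh.checkS true 0 3183099 5000000 6816901 10000000 = true := by
  decide +kernel

/-- `tube_cert` with a margin. -/
theorem tube_certS {v f a P : ℝ} (hf : 59171 / 10000000 ≤ f) (hfv : f ≤ v) (hva : v ≤ a)
    (hv : v ≤ 264 / 1000) (ha : 1 / π ≤ a) (ha' : a ≤ 1) (hP : Low gfun v f a P) :
    min (ballF v) √(π * v) + 1 / 10 ^ 7 ≤ P := by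
  refine tube_treeS (by norm_num) hfv hva (by linarith) ?_ ?_ hP tubeTree 59171 2640000 3183098
    10000000 tubeTree_okS ?_ ?_ ?_ ?_
  · rw [sc]; norm_num; linarith
  · rw [sc]; norm_num; linarith [Real.pi_lt_d20]
  · rw [sc]; norm_num; linarith
  · rw [sc]; norm_num; linarith
  · refine le_trans ?_ ha
    rw [sc, le_div_iff₀ Real.pi_pos]
    push_cast
    nlinarith [Real.pi_lt_d20]
  · rw [sc]; norm_num; linarith

/-- Slices all as costly as a band pay for the change of their area. -/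
lemma flat_slack {v f a P : ℝ} (hfa : f ≤ a) (hf : 1 / π ≤ f) (ha : a ≤ 1 - 1 / π)
    (hP : Low gfun v f a P) : 1 + (a - f) ^ 2 / 4 ≤ P := by
  have hπ := Real.pi_pos
  have h0 : 0 ≤ f := le_trans (by positivity) hf
  have hD1 : a - f ≤ 1 := by
    have : 0 ≤ 1 / π := by positivity
    linarith
  set b := (a - f) / 2 with hb
  have hb0 : 0 ≤ b := by rw [hb]; linarith
  have hb1 : b ≤ 1 / 2 := by rw [hb]; linarith
  have hg : ∀ x ∈ Icc f a, gfun x = 1 := fun x hx => by
    have k1 : 1 ≤ π * x := by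
      have := mul_le_mul_of_nonneg_left (hf.trans hx.1) hπ.le
      rwa [mul_one_div, div_self hπ.ne'] at this
    have k2 : 1 ≤ π * (1 - x) := by
      have := mul_le_mul_of_nonneg_left (show 1 / π ≤ 1 - x by linarith [hx.2]) hπ.le
      rwa [mul_one_div, div_self hπ.ne'] at this
    unfold gfun
    rw [min_eq_right (Real.one_le_sqrt.2 k1), min_eq_left (Real.one_le_sqrt.2 k2)]
  have h := hP 0 (1 - b ^ 2) (fun _ => b) continuousOn_const fun x hx =>
    ⟨hb0, by rw [hg x hx]; nlinarith [mul_nonneg (mul_nonneg hb0 hb0) (show 0 ≤ 1 - b ^ 2 by nlinarith)], by linarith⟩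
  rw [intervalIntegral.integral_const, smul_eq_mul] at h
  rw [hb] at h
  nlinarith

/-- `slab_cert` with a margin. -/
theorem slab_certS {v f a P : ℝ} (hf : 0 ≤ f) (hfv : f ≤ v) (hva : v ≤ a)
    (h1 : 35995 / 100000 ≤ v) (h2 : v ≤ 1 / 2) (ha' : a ≤ 1) (hP : Low gfun v f a P) :
    1 + 1 / 10 ^ 7 ≤ P ∨ 1 + (a - f) ^ 2 / 4 ≤ P ∨
      (f ≤ 1 / 20000 ∧ 1 - 1 / 20000 ≤ a ∧ 1 + (√f + √(1 - a)) / 20 ≤ P) := by
  rcases le_total f (sc 3183099) with c | c
  · exact (slab_treeS hfv hva h1 h2 hP slabLow _ _ _ _ slabLow_okS (by simpa [sc] using hf) c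
      (by rw [sc]; norm_num; linarith) (by rw [sc]; norm_num; linarith)).imp_right Or.inr
  rcases le_total a (sc 6816901) with d | d
  · have e : 1 / π ≤ 3183099 / 10000000 := by
      rw [div_le_iff₀ Real.pi_pos]; linarith [Real.pi_gt_d20]
    refine Or.inr (Or.inl (flat_slack (hfv.trans hva) (e.trans ?_) (d.trans ?_) hP))
    · simpa [sc] using c
    · rw [sc]; push_cast; linarith
  · exact (slab_treeS hfv hva h1 h2 hP slabHigh _ _ _ _ slabHigh_okS c
      (by rw [sc]; norm_num; linarith) d (by rw [sc]; norm_num; linarith)).imp_right Or.inr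

/-- The strict core statement in the slab range. -/
theorem strictWindow_slab {L : ℝ} : StrictWindow L (35995 / 100000) (1 / 2) := by
  intro v P η f a S hv hη hD
  have hx := hD.ax 0
  have hg : goalF v ≤ 1 := min_le_right _ _
  rcases slab_certS hx.f_nonneg hx.f_le hx.le_a hv.1 hv.2 hx.a_le hx.base with h | h | ⟨h1, h2, h3⟩
  · exact Or.inl (by linarith)
  · rcases le_or_gt (a 0 - f 0) (6 / 1000) with c | c
    · exact Or.inr (Or.inl ⟨⟨by linarith [hv.1], hv.2⟩, 0, c⟩)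
    · exact Or.inl (by nlinarith)
  · refine Or.inr (Or.inr ⟨0, by linarith, by linarith, hx.a_le, ?_⟩)
    have k1 : f 0 ≤ √(f 0) :=
      Real.le_sqrt_of_sq_le (by nlinarith [hx.f_nonneg])
    have k2 : 1 - a 0 ≤ √(1 - a 0) :=
      Real.le_sqrt_of_sq_le (by nlinarith [hx.a_le])
    linarith [Real.sqrt_nonneg (f 0), Real.sqrt_nonneg (1 - a 0)]

end

end Vale.Agent.P232
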