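import Vale.Agent.P232.Rigid.Seq
import Vale.Agent.P232.Rigid.Bathtub

/-!
# P232: permutations of the axes

Perimeter, volume, approximating sequences and the standard shapes under `swap₂` and `cyc₃`.
-/

namespace Vale.Agent.P232.Rigid

noncomputable section

open MeasureTheory Set Filter Topology Axis

/-- A permutation of the coordinates together with its inverse. -/
structure IsPerm (L M : (ℝ × ℝ × ℝ) →L[ℝ] ℝ × ℝ × ℝ) : Prop where
  right_inv : ∀ p, L (M p) = p
  mp : MeasurePreserving L volume volume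
  cube_eq : L ⁻¹' cube = cube
  field : ∀ φ, Field φ → Field fun q => L (φ (M q))
  divg_eq : ∀ φ, Field φ → ∀ q, divg (fun q => L (φ (M q))) q = divg φ (M q)

lemma perim_preimage_le {L M : (ℝ × ℝ × ℝ) →L[ℝ] ℝ × ℝ × ℝ} (h : IsPerm L M)
    {E : Set (ℝ × ℝ × ℝ)} (hm : MeasurableSet E) : perim (L ⁻¹' E) ≤ perim E := by
  refine iSup₂_le fun φ hφ => ?_
  have e : ∫ p in L ⁻¹' E ∩ cube, divg φ p =
      ∫ q in E ∩ cube, divg (fun q => L (φ (M q))) q := by
    have hr := h.mp.restrict_preimage (hm.inter Approx.measurableSet_cube)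
    conv_rhs => rw [← hr.map_eq]
    rw [integral_map hr.measurable.aemeasurable
      ((h.field φ hφ).continuous_divg.aestronglyMeasurable), preimage_inter, h.cube_eq]
    refine integral_congr_ae (Eventually.of_forall fun p => ?_)
    show divg φ p = divg (fun q => L (φ (M q))) (L p)
    rw [h.divg_eq φ hφ]
    congr 1
    have hinj : Function.Surjective L := fun q => ⟨M q, h.right_inv q⟩
    exact (LinearMap.injective_iff_surjective (f := L.toLinearMap)).2 hinj
      (by simpa using (h.right_inv (L p)).symm)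
  rw [e]
  exact le_iSup₂ (f := fun (ψ : ℝ × ℝ × ℝ → ℝ × ℝ × ℝ) (_ : Field ψ) =>
    ENNReal.ofReal (∫ p in E ∩ cube, divg ψ p)) (fun q => L (φ (M q))) (h.field φ hφ)

lemma cyc_cube_symm : (cyc₃.comp cyc₃) ⁻¹' cube = cube := by
  show cyc₃ ⁻¹' (cyc₃ ⁻¹' cube) = cube
  rw [cyc₃_cube, cyc₃_cube]

lemma fderiv_conj (L M : (ℝ × ℝ × ℝ) →L[ℝ] ℝ × ℝ × ℝ) {φ : ℝ × ℝ × ℝ → ℝ × ℝ × ℝ}
    (hφ : ContDiff ℝ 1 φ) (q v : ℝ × ℝ × ℝ) :
    fderiv ℝ (fun q => L (φ (M q))) q v = L (fderiv ℝ φ (M q) (M v)) := by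
  have h : HasFDerivAt (fun q => L (φ (M q))) (L.comp ((fderiv ℝ φ (M q)).comp M)) q :=
    L.hasFDerivAt.comp q ((hφ.differentiable one_ne_zero (M q)).hasFDerivAt.comp q M.hasFDerivAt)
  rw [h.fderiv]
  rfl

lemma isPerm_swap₂ : IsPerm swap₂ swap₂ where
  right_inv p := by simp [swap₂_apply]
  mp := mp_swap₂
  cube_eq := swap₂_cube
  field φ hφ := by
    refine ⟨swap₂.contDiff.comp (hφ.smooth.comp swap₂.contDiff), fun p => ?_, fun p => ?_⟩
    · obtain ⟨h1, h2, h3⟩ := hφ.per (swap₂ p)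
      simp only [map_add]
      simp only [swap₂_apply, e₁, e₂, e₃] at h1 h2 h3 ⊢
      exact ⟨by rw [h2], by rw [h1], by rw [h3]⟩
    · have := hφ.bound (swap₂ p)
      simp only [swap₂_apply] at this ⊢
      linarith
  divg_eq φ hφ q := by
    rw [divg, divg, fderiv_conj swap₂ swap₂ hφ.smooth, fderiv_conj swap₂ swap₂ hφ.smooth,
      fderiv_conj swap₂ swap₂ hφ.smooth]
    simp only [swap₂_apply, e₁, e₂, e₃]
    ring

lemma isPerm_cyc₃ : IsPerm cyc₃ (cyc₃.comp cyc₃) where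
  right_inv p := by simp [cyc₃_apply]
  mp := mp_cyc₃
  cube_eq := cyc₃_cube
  field φ hφ := by
    refine ⟨cyc₃.contDiff.comp (hφ.smooth.comp (cyc₃.comp cyc₃).contDiff), fun p => ?_,
      fun p => ?_⟩
    · obtain ⟨h1, h2, h3⟩ := hφ.per (cyc₃ (cyc₃ p))
      simp only [ContinuousLinearMap.coe_comp, Function.comp_apply, map_add]
      simp only [cyc₃_apply, e₁, e₂, e₃] at h1 h2 h3 ⊢
      exact ⟨by rw [h2], by rw [h3], by rw [h1]⟩
    · have := hφ.bound ((cyc₃.comp cyc₃) p)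
      simp only [cyc₃_apply] at this ⊢
      linarith
  divg_eq φ hφ q := by
    rw [divg, divg, fderiv_conj cyc₃ (cyc₃.comp cyc₃) hφ.smooth,
      fderiv_conj cyc₃ (cyc₃.comp cyc₃) hφ.smooth, fderiv_conj cyc₃ (cyc₃.comp cyc₃) hφ.smooth]
    simp only [ContinuousLinearMap.coe_comp, Function.comp_apply, cyc₃_apply, e₁, e₂, e₃]
    ring

lemma perim_swap₂ {E : Set (ℝ × ℝ × ℝ)} (hm : MeasurableSet E) :
    perim (swap₂ ⁻¹' E) = perim E := by
  refine le_antisymm (perim_preimage_le isPerm_swap₂ hm) ?_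
  have h := perim_preimage_le isPerm_swap₂ (mp_swap₂.measurable hm)
  rwa [← preimage_comp, show (swap₂ : ℝ × ℝ × ℝ → ℝ × ℝ × ℝ) ∘ swap₂ = id from
    funext fun p => by simp [swap₂_apply], preimage_id] at h

lemma perim_cyc₃ {E : Set (ℝ × ℝ × ℝ)} (hm : MeasurableSet E) :
    perim (cyc₃ ⁻¹' E) = perim E := by
  refine le_antisymm (perim_preimage_le isPerm_cyc₃ hm) ?_
  have m1 := mp_cyc₃.measurable hm
  have m2 := mp_cyc₃.measurable m1
  have h := (perim_preimage_le isPerm_cyc₃ m2).trans (perim_preimage_le isPerm_cyc₃ m1)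
  rwa [← preimage_comp, ← preimage_comp,
    show (cyc₃ : ℝ × ℝ × ℝ → ℝ × ℝ × ℝ) ∘ cyc₃ ∘ cyc₃ = id from
    funext fun p => by simp [cyc₃_apply], preimage_id] at h

lemma vol_preimage {L : (ℝ × ℝ × ℝ) →L[ℝ] ℝ × ℝ × ℝ} (hL : MeasurePreserving L volume volume)
    (hc : L ⁻¹' cube = cube) {E : Set (ℝ × ℝ × ℝ)} (hm : MeasurableSet E) :
    vol (L ⁻¹' E) = vol E := by
  rw [vol, vol, ← hL.measure_preimage (hm.inter Approx.measurableSet_cube).nullMeasurableSet,
    preimage_inter, hc]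

/-- The axis `i` moved to the first place. -/
def perm : Fin 3 → (ℝ × ℝ × ℝ) →L[ℝ] ℝ × ℝ × ℝ :=
  ![ContinuousLinearMap.id ℝ _, swap₂, cyc₃]

/-- The axis data along the first axis of the permuted density. -/
lemma isExts_perm {w : ℝ × ℝ × ℝ → ℝ} {f a : Fin 3 → ℝ} (h : IsExts w f a) (i : Fin 3) :
    IsExt (fun p => w (perm i p)) (f i) (a i) := by
  obtain ⟨h0, h1, h2⟩ := h
  fin_cases i
  · exact h0
  · exact h1
  · exact h2

lemma mp_perm (i : Fin 3) : MeasurePreserving (perm i) volume volume := by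
  fin_cases i
  · exact MeasurePreserving.id _
  · exact mp_swap₂
  · exact mp_cyc₃

lemma perm_cube (i : Fin 3) : perm i ⁻¹' cube = cube := by
  fin_cases i
  · exact preimage_id
  · exact swap₂_cube
  · exact cyc₃_cube

lemma perSet_perm {E : Set (ℝ × ℝ × ℝ)} (hE : PerSet E) (i : Fin 3) : PerSet (perm i ⁻¹' E) := by
  fin_cases i
  · exact hE
  · exact perSet_swap₂ hE
  · exact perSet_cyc₃ hE

lemma perim_perm {E : Set (ℝ × ℝ × ℝ)} (hm : MeasurableSet E) (i : Fin 3) :
    perim (perm i ⁻¹' E) = perim E := by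
  fin_cases i
  · rfl
  · exact perim_swap₂ hm
  · exact perim_cyc₃ hm

lemma perm_unit (i : Fin 3) : ∀ e ∈ ({e₁, e₂, e₃} : Set (ℝ × ℝ × ℝ)),
    perm i e ∈ ({e₁, e₂, e₃} : Set (ℝ × ℝ × ℝ)) := by
  fin_cases i <;> intro e he <;> rcases he with rfl | rfl | rfl <;>
    simp [perm, swap₂_apply, cyc₃_apply, e₁, e₂, e₃]

lemma int3_perm {F : ℝ × ℝ × ℝ → ℝ} (hF : Continuous F) (i : Fin 3) :
    int3 (fun p => F (perm i p)) = int3 F := by
  fin_cases i
  · rfl
  · exact int3_swap₂ hF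
  · exact int3_cyc₃ hF

lemma gnorm_perm {w : ℝ × ℝ × ℝ → ℝ} (hw : Dens w) (i : Fin 3) :
    gnorm (fun p => w (perm i p)) = fun p => gnorm w (perm i p) := by
  funext p
  rw [gnorm_comp hw, gnorm]
  fin_cases i <;> simp [perm, swap₂_apply, cyc₃_apply, e₁, e₂, e₃] <;> ring_nf

/-- The permuted densities approximate the permuted set. -/
lemma appr_perm {E : Set (ℝ × ℝ × ℝ)} {w : ℕ → ℝ × ℝ × ℝ → ℝ} (hm : MeasurableSet E)
    (h : Appr E w) (i : Fin 3) : Appr (perm i ⁻¹' E) (fun n p => w n (perm i p)) where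
  dens n := dens_comp (h.dens n) _ (perm_unit i)
  vol_tendsto := by
    rw [vol_preimage (mp_perm i) (perm_cube i) hm]
    simpa only [int3_perm (h.dens _).smooth.continuous] using h.vol_tendsto
  err := by
    have e : ∀ n, int3 (fun p => w n (perm i p) * (1 - w n (perm i p))) =
        int3 fun p => w n p * (1 - w n p) := fun n =>
      int3_perm (F := fun p => w n p * (1 - w n p))
        ((h.dens n).smooth.continuous.mul (continuous_const.sub (h.dens n).smooth.continuous)) i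
    simpa only [e] using h.err
  conv := by
    have e : ∀ n, (∫ p in cube, |w n (perm i p) - Approx.chi (perm i ⁻¹' E) p|) =
        ∫ p in cube, |w n p - Approx.chi E p| := fun n => by
      have hr := (mp_perm i).restrict_preimage Approx.measurableSet_cube
      conv_rhs => rw [← hr.map_eq]
      rw [integral_map (f := fun p => |w n p - Approx.chi E p|) hr.measurable.aemeasurable
        (((h.dens n).smooth.continuous.measurable.sub (Approx.bd_chi hm).1).abs
          ).aestronglyMeasurable, perm_cube]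
      rfl
    simpa only [e] using h.conv
  tv δ hδ := by
    rw [perim_perm hm]
    filter_upwards [h.tv δ hδ] with n hn
    rwa [gnorm_perm (h.dens n), int3_perm (continuous_gnorm (h.dens n))]

/-- The inverse of `perm i`. -/
def permInv : Fin 3 → (ℝ × ℝ × ℝ) →L[ℝ] ℝ × ℝ × ℝ :=
  ![ContinuousLinearMap.id ℝ _, swap₂, cyc₃.comp cyc₃]

lemma mp_permInv (i : Fin 3) : MeasurePreserving (permInv i) volume volume := by
  fin_cases i
  · exact MeasurePreserving.id _
  · exact mp_swap₂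
  · exact mp_cyc₃.comp mp_cyc₃

lemma perm_permInv (i : Fin 3) (p : ℝ × ℝ × ℝ) : perm i (permInv i p) = p := by
  fin_cases i <;> simp [perm, permInv, swap₂_apply, cyc₃_apply]

/-- A tube or a slab along the first axis after a permutation is one before it. -/
lemma isStandard_of_perm {E : Set (ℝ × ℝ × ℝ)} (i : Fin 3)
    (h : (∃ c r, 0 < r ∧ r < 1 / 2 ∧ perm i ⁻¹' E =ᵐ[volume] tubeSet 0 c r) ∨
      ∃ j c v, 0 < v ∧ v < 1 ∧ perm i ⁻¹' E =ᵐ[volume] slabSet j c v) : IsStandard E := by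
  have back : ∀ {X Y : Set (ℝ × ℝ × ℝ)}, perm i ⁻¹' E =ᵐ[volume] X → permInv i ⁻¹' X = Y →
      E =ᵐ[volume] Y := fun {X Y} hX hY => by
    have := (mp_permInv i).quasiMeasurePreserving.preimage_ae_eq hX
    rwa [hY, ← preimage_comp, show perm i ∘ permInv i = id from funext (perm_permInv i),
      preimage_id] at this
  rcases h with ⟨c, r, hr, hr', hX⟩ | ⟨j, c, v, hv, hv', hX⟩
  · refine Or.inr (Or.inl ⟨i, permInv 0 (perm i c), r, hr, hr', back hX ?_⟩)
    ext p
    fin_cases i <;> simp [permInv, perm, swap₂_apply, cyc₃_apply, tubeSet, coord, add_comm]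
  · refine Or.inr (Or.inr ⟨(![![0, 1, 2], ![1, 0, 2], ![2, 0, 1]] : Fin 3 → Fin 3 → Fin 3) i j,
      c, v, hv, hv', back hX ?_⟩)
    ext p
    fin_cases i <;> fin_cases j <;> simp [permInv, swap₂_apply, cyc₃_apply, slabSet, coord]

end

end Vale.Agent.P232.Rigid
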