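import Mathlib

/-! # P232: a periodic function of variation two with two values is one interval -/

namespace Vale.Agent.P232.Rigid

noncomputable section

open MeasureTheory Set Filter Topology

lemma null_line {N : Set ℝ} (hN : ∀ t, t + 1 ∈ N ↔ t ∈ N) {a : ℝ}
    (h : volume (N ∩ Ioc a (a + 1)) = 0) : volume N = 0 := by
  have hz : ∀ (k : ℤ) t, t + (k : ℝ) ∈ N ↔ t ∈ N := by
    intro k t
    induction k with
    | zero => simp
    | succ i hi => rw [← hi, ← hN (t + ((i : ℤ) : ℝ))]; push_cast; rw [add_assoc]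
    | pred i hi =>
      rw [← hi, ← hN (t + ((-(i : ℤ) - 1 : ℤ) : ℝ))]
      push_cast
      rw [add_assoc, sub_add_cancel]
  have hsub : N ⊆ ⋃ k : ℤ, (fun t => t + (-(k : ℝ))) ⁻¹' (N ∩ Ioc a (a + 1)) := fun t ht => by
    refine mem_iUnion.2 ⟨⌈t - a⌉ - 1, ?_, ?_⟩
    · rw [← hz (⌈t - a⌉ - 1), neg_add_cancel_right]
      exact ht
    · push_cast
      constructor <;> linarith [Int.ceil_lt_add_one (t - a), Int.le_ceil (t - a)]
  refine measure_mono_null hsub (measure_iUnion_null fun k => ?_)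
  rw [measure_preimage_add_right, h]

/-- The variation of a periodic function through four points of a period. -/
lemma four_points {A D : ℝ → ℝ} (hd : ∀ t, HasDerivAt A (D t) t) (hc : Continuous D)
    (hp : Function.Periodic A 1) {s₀ s₁ s₂ s₃ : ℝ} (h1 : s₀ ≤ s₁) (h2 : s₁ ≤ s₂) (h3 : s₂ ≤ s₃)
    (h4 : s₃ ≤ s₀ + 1) :
    |A s₁ - A s₀| + |A s₂ - A s₁| + |A s₃ - A s₂| + |A s₀ - A s₃| ≤ ∫ t in (0 : ℝ)..1, |D t| := by
  have hD : Function.Periodic D 1 := fun t => by
    have h := (hd (t + 1)).comp_add_const t 1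
    rw [funext hp] at h
    exact h.unique (hd t)
  have st : ∀ p q : ℝ, p ≤ q → |A q - A p| ≤ ∫ t in p..q, |D t| := fun p q hpq => by
    rw [← intervalIntegral.integral_eq_sub_of_hasDerivAt (fun t _ => hd t) (hc.intervalIntegrable p q)]
    exact intervalIntegral.abs_integral_le_integral_abs hpq
  have hi : ∀ p q : ℝ, IntervalIntegrable (fun t => |D t|) volume p q := fun p q =>
    hc.abs.intervalIntegrable p q
  have hD' : Function.Periodic (fun t => |D t|) 1 := fun t => congrArg abs (hD t)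
  have e := hD'.intervalIntegral_add_eq s₀ 0
  rw [zero_add] at e
  have e4 := st s₃ (s₀ + 1) h4
  rw [hp s₀] at e4
  rw [← e, ← intervalIntegral.integral_add_adjacent_intervals (hi s₀ s₁) (hi s₁ _),
    ← intervalIntegral.integral_add_adjacent_intervals (hi s₁ s₂) (hi s₂ _),
    ← intervalIntegral.integral_add_adjacent_intervals (hi s₂ s₃) (hi s₃ _)]
  linarith [st s₀ s₁ h1, st s₁ s₂ h2, st s₂ s₃ h3]

/-- Periodic approximants of variation at most two (in the limit) of a two-valued periodic function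
force that function to be the indicator of one interval. -/
theorem interval_rigid {A D : ℕ → ℝ → ℝ} {B : ℝ → ℝ} {v : ℝ}
    (hd : ∀ n t, HasDerivAt (A n) (D n t) t) (hc : ∀ n, Continuous (D n))
    (hp : ∀ n, Function.Periodic (A n) 1) (hI : ∀ n t, A n t ∈ Icc (0 : ℝ) 1)
    (htv : ∀ δ : ℝ, 0 < δ → ∀ᶠ n in atTop, ∫ t in (0 : ℝ)..1, |D n t| ≤ 2 + δ)
    (hBm : Measurable B) (hBp : Function.Periodic B 1) (hB : ∀ᵐ t, B t = 0 ∨ B t = 1)
    (hconv : Tendsto (fun n => ∫ t in (0 : ℝ)..1, |A n t - B t|) atTop (𝓝 0))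
    (hv : ∫ t in (0 : ℝ)..1, B t = v) (h0 : 0 < v) (h1 : v < 1) :
    ∃ c, B =ᵐ[volume] {t : ℝ | Int.fract (t - c) < v}.indicator fun _ => 1 := by
  set μ : Measure ℝ := volume.restrict (Ioc (0 : ℝ) 1)
  have hB' : ∀ᵐ t ∂μ, B t = 0 ∨ B t = 1 := ae_restrict_of_ae hB
  have hBi : Integrable B μ := Integrable.of_bound hBm.aestronglyMeasurable 1
    (hB'.mono fun t ht => by rcases ht with h | h <;> rw [h] <;> norm_num)
  have hAc : ∀ n, Continuous (A n) := fun n =>
    continuous_iff_continuousAt.2 fun t => (hd n t).continuousAt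
  have hAi : ∀ n, Integrable (A n) μ := fun n => (hAc n).integrableOn_Ioc
  have hl : Tendsto (fun n => eLpNorm (A n - B) 1 μ) atTop (𝓝 0) := by
    have e : ∀ n, eLpNorm (A n - B) 1 μ = ENNReal.ofReal (∫ t in (0 : ℝ)..1, |A n t - B t|) := fun n => by
      rw [eLpNorm_one_eq_lintegral_enorm, intervalIntegral.integral_of_le zero_le_one,
        ← ofReal_integral_norm_eq_lintegral_enorm ((hAi n).sub hBi)]
      simp [μ, Real.norm_eq_abs]
    simp only [e]
    simpa using ENNReal.tendsto_ofReal hconv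
  obtain ⟨φ, hφ, hae⟩ := (tendstoInMeasure_of_tendsto_eLpNorm one_ne_zero
    (fun n => (hAi n).aestronglyMeasurable) hBi.aestronglyMeasurable hl).exists_seq_tendsto_ae
  set G : Set ℝ := {t | Tendsto (fun k => A (φ k) t) atTop (𝓝 (B t)) ∧ (B t = 0 ∨ B t = 1)}
  have hG : volume Gᶜ = 0 := by
    refine null_line (a := 0) (fun t => ?_) ?_
    · simp only [G, mem_compl_iff, mem_ofPred_eq, hBp t, funext fun k => hp (φ k) t]
    · have h := ae_iff.1 (hae.and hB')
      rw [Measure.restrict_apply₀' measurableSet_Ioc.nullMeasurableSet] at h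
      rw [zero_add]
      exact h
  have hGper : ∀ t, t ∈ G → t + 1 ∈ G := fun t ht => by
    simpa only [G, mem_ofPred_eq, hBp t, funext fun k => hp (φ k) t] using ht
  have key : ∀ s₀ s₁ s₂ s₃ : ℝ, s₀ ∈ G → s₁ ∈ G → s₂ ∈ G → s₃ ∈ G → s₀ ≤ s₁ → s₁ ≤ s₂ → s₂ ≤ s₃ →
      s₃ ≤ s₀ + 1 → |B s₁ - B s₀| + |B s₂ - B s₁| + |B s₃ - B s₂| + |B s₀ - B s₃| ≤ 2 := by
    intro s₀ s₁ s₂ s₃ g0 g1 g2 g3 h1 h2 h3 h4
    refine le_of_forall_pos_le_add fun δ hδ => ?_
    have hlim := ((((g1.1.sub g0.1).abs.add (g2.1.sub g1.1).abs).add (g3.1.sub g2.1).abs).add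
      (g0.1.sub g3.1).abs)
    refine le_of_tendsto hlim ((hφ.tendsto_atTop.eventually (htv δ hδ)).mono fun k hk => ?_)
    exact (four_points (hd _) (hc _) (hp _) h1 h2 h3 h4).trans hk
  obtain ⟨z₀, hz, hz0⟩ : ∃ z ∈ G, B z = 0 := by
    by_contra hcon
    push Not at hcon
    have h1' : ∀ᵐ t, B t = 1 := by
      rw [ae_iff]
      exact measure_mono_null (t := Gᶜ) (fun t ht hg => ht (hg.2.resolve_left (hcon t hg))) hG
    rw [intervalIntegral.integral_congr_ae (g := fun _ => (1 : ℝ)) (h1'.mono fun t ht _ => ht)] at hv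
    simp at hv
    linarith
  set S : Set ℝ := G ∩ Ioo z₀ (z₀ + 1) ∩ {t | B t = 1}
  have hBint : ∫ t in z₀..z₀ + 1, B t = v := by
    rw [hBp.intervalIntegral_add_eq z₀ 0, zero_add, hv]
  have hGae : ∀ᵐ t, t ∈ G := by rw [ae_iff]; exact hG
  have hS : S.Nonempty := by
    by_contra hcon
    have h0' : ∀ᵐ t, t ∈ uIoc z₀ (z₀ + 1) → B t = 0 := by
      filter_upwards [hGae, Measure.ae_ne volume (z₀ + 1)] with t hg hne ht
      rw [uIoc_of_le (by linarith)] at ht
      exact hg.2.resolve_right fun h => hcon ⟨t, ⟨hg, ht.1, lt_of_le_of_ne ht.2 hne⟩, h⟩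
    rw [intervalIntegral.integral_congr_ae (g := fun _ => (0 : ℝ)) h0'] at hBint
    simp at hBint
    linarith
  have hbd : BddBelow S ∧ BddAbove S :=
    ⟨⟨z₀, fun t ht => ht.1.2.1.le⟩, ⟨z₀ + 1, fun t ht => ht.1.2.2.le⟩⟩
  set l := sInf S
  set u := sSup S
  have hl0 : z₀ ≤ l := le_csInf hS fun t ht => ht.1.2.1.le
  have hu1 : u ≤ z₀ + 1 := csSup_le hS fun t ht => ht.1.2.2.le
  have hlu : l ≤ u := csInf_le_csSup hS hbd.1 hbd.2
  have hmid : ∀ t ∈ G, t ∈ Ioo l u → B t = 1 := by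
    intro t ht htlu
    obtain ⟨p, hp', hpt⟩ := (csInf_lt_iff hbd.1 hS).1 htlu.1
    obtain ⟨r, hr, htr⟩ := (lt_csSup_iff hbd.2 hS).1 htlu.2
    refine ht.2.resolve_left fun hb => ?_
    have h := key z₀ p t r hz hp'.1.1 ht hr.1.1 hp'.1.2.1.le hpt.le htr.le hr.1.2.2.le
    rw [hz0, hb, show B p = 1 from hp'.2, show B r = 1 from hr.2] at h
    norm_num at h
  have hout : ∀ t ∈ G, t ∈ Ioo z₀ (z₀ + 1) → t ∉ Icc l u → B t = 0 := fun t ht htI hn =>
    ht.2.resolve_right fun hb => hn ⟨csInf_le hbd.1 ⟨⟨ht, htI⟩, hb⟩, le_csSup hbd.2 ⟨⟨ht, htI⟩, hb⟩⟩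
  have hind : ∀ᵐ t, t ∈ Ioc z₀ (z₀ + 1) → B t = (Ioc l u).indicator (fun _ => (1 : ℝ)) t := by
    filter_upwards [hGae, Measure.ae_ne volume (z₀ + 1), Measure.ae_ne volume l,
      Measure.ae_ne volume u] with t hg h1 h2 h3 ht
    by_cases hm : t ∈ Ioc l u
    · rw [indicator_of_mem hm]
      exact hmid t hg ⟨hm.1, lt_of_le_of_ne hm.2 h3⟩
    · rw [indicator_of_notMem hm]
      exact hout t hg ⟨ht.1, lt_of_le_of_ne ht.2 h1⟩ fun h => hm ⟨lt_of_le_of_ne h.1 (Ne.symm h2), h.2⟩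
  have hvu : v = u - l := by
    rw [← hBint, intervalIntegral.integral_of_le (by linarith),
      setIntegral_congr_ae measurableSet_Ioc hind, setIntegral_indicator measurableSet_Ioc,
      inter_eq_right.2 (Ioc_subset_Ioc hl0 hu1), setIntegral_const]
    simp [max_eq_left (by linarith : 0 ≤ u - l)]
  refine ⟨l, ?_⟩
  have hper : ∀ t, t + 1 ∈ {t | B t ≠ {t : ℝ | Int.fract (t - l) < v}.indicator (fun _ => (1 : ℝ)) t} ↔
      t ∈ {t | B t ≠ {t : ℝ | Int.fract (t - l) < v}.indicator (fun _ => (1 : ℝ)) t} := fun t => by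
    have e : Int.fract (t + 1 - l) = Int.fract (t - l) := by
      rw [show t + 1 - l = t - l + 1 by ring, Int.fract_add_one]
    simp only [mem_ofPred_eq, hBp t, indicator_apply, e]
  refine ae_iff.2 (null_line hper (a := z₀) ?_)
  have h' : ∀ᵐ t, t ∈ Ioc z₀ (z₀ + 1) → B t = {t : ℝ | Int.fract (t - l) < v}.indicator (fun _ => 1) t := by
    filter_upwards [hind, Measure.ae_ne volume l, Measure.ae_ne volume u,
      Measure.ae_ne volume (z₀ + 1)] with t h h2 h3 h4 ht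
    rw [h ht]
    refine indicator_eq_indicator ?_ rfl
    simp only [mem_Ioc, mem_ofPred_eq]
    rcases lt_or_gt_of_ne h2 with c | c
    · rw [show Int.fract (t - l) = t - l + 1 from Int.fract_eq_iff.2 ⟨by linarith [ht.1, hlu],
        by linarith, -1, by push_cast; ring⟩]
      exact iff_of_false (fun h => absurd h.1 (not_lt.2 c.le)) (not_lt.2 (by linarith [ht.1]))
    · rw [Int.fract_eq_self.2 ⟨by linarith, by linarith [lt_of_le_of_ne ht.2 h4]⟩]
      exact ⟨fun h => by linarith [lt_of_le_of_ne h.2 h3], fun h => ⟨c, by linarith⟩⟩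
  refine measure_mono_null (fun t ht => ?_) (ae_iff.1 h')
  exact fun h => ht.1 (h ht.2)

end

end Vale.Agent.P232.Rigid
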