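import Vale.Agent.P232.Rigid.Planar.Disc
import Vale.Agent.P232.Rigid.Monotone

/-!
# P232: the minimisers on the square torus

In the case of equality the lines of one direction are all empty or all full somewhere, which leaves
a band, or the set misses a line in each direction; then both line profiles are semicircles and the
set is a disc.
-/

namespace Vale.Agent.P232.Rigid

noncomputable section

open MeasureTheory Set Filter Topology Real

namespace Planar

variable {S : Set (ℝ × ℝ)} {m : ℕ → ℝ × ℝ → ℝ} {P : ℝ}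

lemma area2_sub {F G : ℝ × ℝ → ℝ} (hF : Continuous F) (hG : Continuous G) :
    area2 (fun p => F p - G p) = area2 F - area2 G := by
  have h := area2_add (F := fun p => F p - G p) (G := G) (hF.sub hG) hG
  simp only [sub_add_cancel] at h
  linarith

/-- Without variation along the second axis the set is a band. -/
lemma band_case (hm : MeasurableSet S) (hS : PerSet2 S) (hA : Appr2 S m P) (hP : P ≤ 1)
    (h0 : 0 < vol2 S) (h1 : vol2 S < 1) (hvar : Tendsto (fun n => varZ (m n)) atTop (𝓝 0)) :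
    ∃ c, S =ᵐ[volume] bandSet c (vol2 S) := by
  set B := marg2 S with hBdef
  have hBm : Measurable B := measurable_marg2 hm
  set G : ℝ × ℝ → ℝ := fun q => |chi2 S q - B q.1| with hG
  have hG0 : ∀ q, 0 ≤ G q := fun q => abs_nonneg _
  have hGb : Bd2 G := ⟨((measurable_chi2 hm).sub (hBm.comp measurable_fst)).abs, 1, fun q => by
    rw [abs_abs]
    exact Approx.abs_sub_unit (chi2_mem _).1 (chi2_mem _).2 (marg2_mem _).1 (marg2_mem _).2⟩
  have hGi : ∫ q in square, G q = 0 := by
    refine le_antisymm ?_ (integral_nonneg hG0)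
    refine ge_of_tendsto' (f := fun n => (∫ q in square, |m n q - chi2 S q|) + varZ (m n) +
      ∫ y in (0 : ℝ)..1, |lineY (m n) y - B y|) (x := atTop)
      (by simpa using (hA.conv.add hvar).add ((tendsto_lineY hA hm))) fun n => ?_
    have hf := hA.dens n
    have hLm : Measurable (lineY (m n)) := (continuous_lineY hf).measurable
    have b1 : Bd2 fun q => |m n q - chi2 S q| := bd2_sub hm hf.smooth.continuous.measurable hf.mem
    have b2 : Bd2 fun q => |m n q - lineY (m n) q.1| :=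
      ⟨(hf.smooth.continuous.measurable.sub (hLm.comp measurable_fst)).abs, 1, fun q => by
        rw [abs_abs]
        exact Approx.abs_sub_unit (hf.mem q).1 (hf.mem q).2 (lineY_mem hf _).1 (lineY_mem hf _).2⟩
    have b3 : Bd2 fun q : ℝ × ℝ => |lineY (m n) q.1 - B q.1| :=
      ⟨((hLm.comp measurable_fst).sub (hBm.comp measurable_fst)).abs, 1, fun q => by
        rw [abs_abs]
        exact Approx.abs_sub_unit (lineY_mem hf _).1 (lineY_mem hf _).2 (marg2_mem _).1
          (marg2_mem _).2⟩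
    calc ∫ q in square, G q
        ≤ ∫ q in square, (|m n q - chi2 S q| + |m n q - lineY (m n) q.1| +
            |lineY (m n) q.1 - B q.1|) := by
          refine setIntegral_mono hGb.integrableOn
            ((b1.integrableOn.add b2.integrableOn).add b3.integrableOn) fun q => ?_
          have a1 := abs_sub_le (chi2 S q) (m n q) (B q.1)
          have a2 := abs_sub_le (m n q) (lineY (m n) q.1) (B q.1)
          rw [abs_sub_comm (chi2 S q) (m n q)] at a1
          simp only [hG]
          linarith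
      _ = (∫ q in square, |m n q - chi2 S q|) + area2 (fun q => |m n q - lineY (m n) q.1|) +
            ∫ y in (0 : ℝ)..1, |lineY (m n) y - B y| := by
          rw [integral_add (f := fun q => |m n q - chi2 S q| + |m n q - lineY (m n) q.1|)
              (b1.integrableOn.add b2.integrableOn) b3.integrableOn,
            integral_add b1.integrableOn b2.integrableOn, setIntegral_square b2,
            setIntegral_square b3]
          congr 1
          simp [area2]
      _ ≤ _ := by linarith [area2_sub_lineY_le hf]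
  have hsq : ∀ᵐ q ∂volume.restrict square, G q = 0 :=
    (setIntegral_eq_zero_iff_of_nonneg_ae (Eventually.of_forall hG0) hGb.integrableOn).1 hGi
  have hGp : PerSet2 {q | G q ≠ 0} := fun y z => by
    have hc1 : chi2 S (y + 1, z) = chi2 S (y, z) := indicator_eq_indicator (hS y z).1 rfl
    have hc2 : chi2 S (y, z + 1) = chi2 S (y, z) := indicator_eq_indicator (hS y z).2 rfl
    have hB : B (y + 1) = B y := marg2_periodic hS y
    constructor <;> simp [hG, hc1, hc2, hB]
  have hae : ∀ᵐ q : ℝ × ℝ, G q = 0 := ae_iff.2 (null_of_square hGp (by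
    have h := ae_iff.1 hsq
    rwa [Measure.restrict_apply' measurableSet_square] at h))
  have hline : ∀ᵐ y : ℝ, ∀ᵐ z : ℝ, G (y, z) = 0 :=
    Measure.ae_ae_of_ae_prod (μ := (volume : Measure ℝ)) (ν := (volume : Measure ℝ))
      (p := fun q => G q = 0) (by rw [← Measure.volume_eq_prod]; exact hae)
  have hB01 : ∀ᵐ y : ℝ, B y = 0 ∨ B y = 1 := hline.mono fun y hy => by
    obtain ⟨z, hz⟩ := hy.exists
    have hz' : chi2 S (y, z) = B y := sub_eq_zero.1 (abs_eq_zero.1 hz)
    rw [← hz']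
    by_cases h : (y, z) ∈ S <;> simp [chi2, h]
  obtain ⟨c, hc⟩ := interval_rigid (A := fun n => lineY (m n)) (D := fun n => lineD (m n))
    (fun n => hasDerivAt_lineY (hA.dens n)) (fun n => continuous_lineD (hA.dens n))
    (fun n => lineY_periodic (hA.dens n)) (fun n => lineY_mem (hA.dens n))
    (fun δ hδ => (hA.tv (δ / 2) (by positivity)).mono fun n hn => by
      have h1 := integral_abs_lineD_le (hA.dens n)
      have h2 := (Real.le_sqrt_of_sq_le (show varY (m n) ^ 2 ≤ varY (m n) ^ 2 + varZ (m n) ^ 2 by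
        nlinarith)).trans (sqrt_var_le (hA.dens n))
      linarith)
    hBm (marg2_periodic hS) hB01 ((tendsto_lineY hA hm)) (integral_marg2 hm) h0 h1
  refine ⟨c, Filter.eventuallyEq_set.2 ?_⟩
  have hc' := (Measure.quasiMeasurePreserving_fst (μ := (volume : Measure ℝ))
    (ν := (volume : Measure ℝ))).ae hc
  rw [← Measure.volume_eq_prod] at hc'
  filter_upwards [hae, hc'] with q hq hq'
  have h : chi2 S q = {t : ℝ | Int.fract (t - c) < vol2 S}.indicator (fun _ => 1) q.1 := by
    rw [← hq']; exact sub_eq_zero.1 (abs_eq_zero.1 hq)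
  by_cases h1 : q ∈ S <;> by_cases h2 : Int.fract (q.1 - c) < vol2 S <;>
    simp_all [chi2, bandSet]

/-- A lower bound for every line of the second family and a low one in the first family leave all
the variation in the first direction. -/
lemma varZ_small (hA : Appr2 S m P) (hP : P ≤ 1) {y₀ z₀ z₁ : ℕ → ℝ} {f g b : ℝ}
    (hmin : ∀ n z, lineZ (m n) (z₀ n) ≤ lineZ (m n) z)
    (hmax : ∀ n z, lineZ (m n) z ≤ lineZ (m n) (z₁ n))
    (hy : Tendsto (fun n => lineY (m n) (y₀ n)) atTop (𝓝 f))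
    (hz₀ : Tendsto (fun n => lineZ (m n) (z₀ n)) atTop (𝓝 g))
    (hz₁ : Tendsto (fun n => lineZ (m n) (z₁ n)) atTop (𝓝 b))
    (hg : 0 < g) (hfb : f = 0 ∨ b < 1) : Tendsto (fun n => varZ (m n)) atTop (𝓝 0) := by
  have low : ∀ δ : ℝ, 0 < δ → ∀ᶠ n in atTop, 1 - δ ≤ varY (m n) := fun δ hδ => by
    have hd : ∀ c : ℝ, ∀ᶠ n in atTop, area2 (fun p => m n p * (1 - m n p)) / c < δ / 2 := fun c =>
      (by simpa using hA.err.div_const c : Tendsto _ atTop (𝓝 (0 : ℝ))).eventually_lt_const
        (by positivity)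
    have hg2 := hz₀.eventually_const_lt (show g / 2 < g by linarith)
    rcases hfb with rfl | hb
    · filter_upwards [hd (g / 2), hg2, hy.eventually_lt_const (show (0 : ℝ) < δ / 2 by positivity)]
        with n e1 e2 e3
      linarith [varY_ge_of_line (hA.dens n) (g := g / 2) (by positivity)
        (fun z => e2.le.trans (hmin n z)) (y₀ n)]
    · filter_upwards [hd (g / 2), hd (1 - (1 + b) / 2), hg2,
        hz₁.eventually_lt_const (show b < (1 + b) / 2 by linarith)] with n e1 e2 e3 e4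
      linarith [varY_ge_of_lt (hA.dens n) (g := g / 2) (b := (1 + b) / 2) (by positivity)
        (by linarith) (fun z => e3.le.trans (hmin n z)) fun z => (hmax n z).trans e4.le]
  rw [Metric.tendsto_atTop]
  intro ε hε
  set δ := min (1 / 2) (ε ^ 2 / 8) with hδdef
  have hδ : 0 < δ := by positivity
  obtain ⟨N, hN⟩ := eventually_atTop.1 ((low δ hδ).and (hA.tv δ hδ))
  refine ⟨N, fun n hn => ?_⟩
  obtain ⟨hy1, htv⟩ := hN n hn
  rw [Real.dist_eq, sub_zero, abs_of_nonneg varZ_nonneg]
  have h : √(varY (m n) ^ 2 + varZ (m n) ^ 2) ≤ 1 + δ := by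
    linarith [sqrt_var_le (hA.dens n)]
  rw [Real.sqrt_le_left (by linarith)] at h
  have h2 : δ ≤ 1 / 2 := min_le_left _ _
  have h3 : δ ≤ ε ^ 2 / 8 := min_le_right _ _
  nlinarith [pow_le_pow_left₀ (by linarith) hy1 2, varZ_nonneg (m := m n), sq_nonneg ε]

/-- Both families having a full line is impossible below one half. -/
lemma not_both_full (hA : Appr2 S m P) (hP : P ≤ 1) (hv : vol2 S ≤ 1 / 2) {y₁ z₁ : ℕ → ℝ}
    (hy : Tendsto (fun n => lineY (m n) (y₁ n)) atTop (𝓝 1))
    (hz : Tendsto (fun n => lineZ (m n) (z₁ n)) atTop (𝓝 1)) : False := by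
  obtain ⟨K, hK, hcut⟩ := cut2_lower (δ := 1 / 100) (by norm_num)
  have he : ∀ᶠ n in atTop, K * area2 (fun p => m n p * (1 - m n p)) < 1 / 100 :=
    (by simpa using hA.err.const_mul K : Tendsto _ atTop (𝓝 (0 : ℝ))).eventually_lt_const
      (by norm_num)
  obtain ⟨n, hn1, hn2, hn3, hn4, hn5⟩ := (he.and
    ((hA.tv (1 / 100) (by norm_num)).and
    ((hy.eventually_const_lt (show (99 / 100 : ℝ) < 1 by norm_num)).and
    ((hz.eventually_const_lt (show (99 / 100 : ℝ) < 1 by norm_num)).and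
    (hA.area_tendsto.eventually_lt_const (show vol2 S < 51 / 100 by linarith)))))).exists
  have hf := hA.dens n
  have hg : Dens2 fun p => 1 - m n p :=
    ⟨contDiff_const.sub hf.smooth, fun y z => by simp [(hf.per y z).1, (hf.per y z).2],
      fun p => ⟨by linarith [(hf.mem p).2], by linarith [(hf.mem p).1]⟩⟩
  have h := hcut _ hg (y₁ n) (z₁ n)
  have etv : tv2 (fun p => 1 - m n p) = tv2 (m n) := by
    simp [tv2, fderiv_const_sub]
  have eerr : area2 (fun p => (1 - m n p) * (1 - (1 - m n p))) =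
      area2 fun p => m n p * (1 - m n p) := congrArg area2 (funext fun p => by ring)
  have e1 : ∫ z in (0 : ℝ)..1, (1 - m n (y₁ n, z)) = 1 - lineY (m n) (y₁ n) := by
    rw [intervalIntegral.integral_sub (f := fun _ => (1 : ℝ)) (g := fun z => m n (y₁ n, z))
      intervalIntegrable_const
      ((hf.smooth.continuous.comp (continuous_const.prodMk continuous_id) :
        Continuous fun z => m n (y₁ n, z)).intervalIntegrable _ _)]
    simp [lineY]
  have e2 : ∫ y in (0 : ℝ)..1, (1 - m n (y, z₁ n)) = 1 - lineZ (m n) (z₁ n) := by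
    rw [intervalIntegral.integral_sub (f := fun _ => (1 : ℝ)) (g := fun y => m n (y, z₁ n))
      intervalIntegrable_const
      ((hf.smooth.continuous.comp (continuous_id.prodMk continuous_const) :
        Continuous fun y => m n (y, z₁ n)).intervalIntegrable _ _)]
    simp [lineZ]
  have e3 : area2 (fun p => 1 - m n p) = 1 - area2 (m n) := by
    rw [area2_sub continuous_const hf.smooth.continuous, area2_const]
  rw [etv, eerr, e1, e2, e3] at h
  have : 11 / 10 ≤ √(π * (1 - area2 (m n))) := Real.le_sqrt_of_sq_le (by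
    nlinarith [Real.pi_gt_three])
  linarith

end Planar

open Planar in
theorem planar_rigid {S : Set (ℝ × ℝ)} {m : ℕ → ℝ × ℝ → ℝ} {P : ℝ} (hm : MeasurableSet S)
    (hS : PerSet2 S) (hA : Appr2 S m P) (h0 : 0 < vol2 S) (h1 : vol2 S ≤ 1 / 2)
    (hP : P ≤ min √(π * vol2 S) 1) :
    (π * vol2 S ≤ 1 ∧ ∃ c, S =ᵐ[volume] discSet c √(vol2 S / π)) ∨
      ∃ c, S =ᵐ[volume] bandSet c (vol2 S) ∨ S =ᵐ[volume] Prod.swap ⁻¹' bandSet c (vol2 S) := by
  obtain ⟨hPv, hP1⟩ := le_min_iff.1 hP
  have hI : ∀ {F : ℕ → ℝ → ℝ}, (∀ n, Continuous (F n)) → (∀ n, Function.Periodic (F n) 1) →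
      ∃ t₀ t₁ : ℕ → ℝ, ∀ n t, F n (t₀ n) ≤ F n t ∧ F n t ≤ F n (t₁ n) := fun {F} hc hp => by
    choose t₀ _ h₀ using fun n => isCompact_Icc.exists_isMinOn
      (nonempty_Icc.2 (zero_le_one' ℝ)) (hc n).continuousOn
    choose t₁ _ h₁ using fun n => isCompact_Icc.exists_isMaxOn
      (nonempty_Icc.2 (zero_le_one' ℝ)) (hc n).continuousOn
    refine ⟨t₀, t₁, fun n t => ?_⟩
    obtain ⟨s, hs, e⟩ := (hp n).exists_mem_Ico one_pos t 0
    rw [zero_add] at hs
    rw [e]
    exact ⟨h₀ n (Ico_subset_Icc_self hs), h₁ n (Ico_subset_Icc_self hs)⟩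
  have hlz : ∀ n, lineZ (m n) = lineY (m n ∘ Prod.swap) := fun n => (lineY_swap _).symm
  obtain ⟨y₀', y₁', hy⟩ := hI (fun n => continuous_lineY (hA.dens n))
    (fun n => lineY_periodic (hA.dens n))
  obtain ⟨z₀', z₁', hz⟩ := hI (F := fun n => lineZ (m n)) (fun n => continuous_lineZ (hA.dens n))
    (fun n => hlz n ▸ lineY_periodic (dens2_swap (hA.dens n)))
  have hmemY : ∀ n y, lineY (m n) y ∈ Icc (0 : ℝ) 1 := fun n => lineY_mem (hA.dens n)
  have hmemZ : ∀ n z, lineZ (m n) z ∈ Icc (0 : ℝ) 1 := fun n z => by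
    rw [hlz n]; exact lineY_mem (dens2_swap (hA.dens n)) z
  obtain ⟨⟨⟨f, a⟩, g, b⟩, hmem, φ, hφ, hlim⟩ :=
    ((isCompact_Icc.prod isCompact_Icc).prod (isCompact_Icc.prod isCompact_Icc) :
      IsCompact ((Icc (0 : ℝ) 1 ×ˢ Icc (0 : ℝ) 1) ×ˢ (Icc (0 : ℝ) 1 ×ˢ Icc (0 : ℝ) 1))).tendsto_subseq
      (x := fun n => ((lineY (m n) (y₀' n), lineY (m n) (y₁' n)),
        (lineZ (m n) (z₀' n), lineZ (m n) (z₁' n))))
      (fun n => ⟨⟨hmemY _ _, hmemY _ _⟩, hmemZ _ _, hmemZ _ _⟩)
  obtain ⟨⟨⟨hf0, -⟩, -, ha1⟩, ⟨hg0, -⟩, -, hb1⟩ := hmem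
  dsimp only at hf0 ha1 hg0 hb1
  have lf : Tendsto (fun n => lineY (m (φ n)) (y₀' (φ n))) atTop (𝓝 f) := hlim.fst_nhds.fst_nhds
  have la : Tendsto (fun n => lineY (m (φ n)) (y₁' (φ n))) atTop (𝓝 a) := hlim.fst_nhds.snd_nhds
  have lg : Tendsto (fun n => lineZ (m (φ n)) (z₀' (φ n))) atTop (𝓝 g) := hlim.snd_nhds.fst_nhds
  have lb : Tendsto (fun n => lineZ (m (φ n)) (z₁' (φ n))) atTop (𝓝 b) := hlim.snd_nhds.snd_nhds
  have hB := comp_appr2 hA hφ
  have hv1 : vol2 S < 1 := by linarith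
  by_cases hd : f = 0 ∧ g = 0
  · obtain ⟨rfl, rfl⟩ := hd
    have hPv' : √(π * vol2 S) ≤ P := by
      refine le_of_forall_pos_le_add fun τ hτ => ?_
      obtain ⟨K, hK, hcut⟩ := cut2_lower (δ := τ / 2) (by positivity)
      have hlhs : Tendsto (fun n => √(π * area2 (m (φ n)))) atTop (𝓝 √(π * vol2 S)) :=
        (hB.area_tendsto.const_mul π).sqrt
      refine le_of_tendsto hlhs ?_
      filter_upwards [hB.tv (τ / 4) (by positivity),
        lf.eventually_lt_const (show (0 : ℝ) < τ / 8 by positivity),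
        lg.eventually_lt_const (show (0 : ℝ) < τ / 8 by positivity),
        (by simpa using hB.err.const_mul K : Tendsto _ atTop (𝓝 (0 : ℝ))).eventually_lt_const
          (show (0 : ℝ) < τ / 4 by positivity)] with n e1 e2 e3 e4
      have h : 2 * √(π * area2 (m (φ n))) ≤ tv2 (m (φ n)) + 2 * lineY (m (φ n)) (y₀' (φ n)) +
          2 * lineZ (m (φ n)) (z₀' (φ n)) + τ / 2 +
            K * area2 (fun p => m (φ n) p * (1 - m (φ n) p)) := hcut _ (hB.dens n) _ _
      linarith
    have hπv : π * vol2 S ≤ 1 := by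
      have := hPv'.trans hP1
      rwa [Real.sqrt_le_one] at this
    obtain ⟨c₀, hc₀⟩ := cut_moment hm hS hB hPv h0 hπv lg lf la fun n y => (hy _ y).2
    obtain ⟨c₁, hc₁⟩ := cut_moment (hm.preimage measurable_swap) (perSet2_swap hS) (swap_appr2 hB hm)
      (by rwa [vol2_swap hm]) (by rwa [vol2_swap hm]) (by rwa [vol2_swap hm])
      (z₀ := fun n => y₀' (φ n)) (y₀ := fun n => z₀' (φ n)) (y₁ := fun n => z₁' (φ n))
      lf lg lb fun n z => (hz _ z).2
    rw [vol2_swap hm] at hc₁
    refine Or.inl ⟨hπv, (c₀, c₁), ?_⟩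
    have hπ := Real.pi_gt_three
    refine disc_rigid hm hS (by positivity) ?_ ?_ hc₀ hc₁
    · refine Real.sqrt_le_iff.2 ⟨by norm_num, ?_⟩
      rw [div_le_iff₀ Real.pi_pos]
      nlinarith
    · rw [Real.sq_sqrt (by positivity)]
      field_simp
  by_cases hY : 0 < g ∧ (f = 0 ∨ b < 1)
  · obtain ⟨c, hc⟩ := band_case hm hS hB hP1 h0 hv1 (varZ_small hB hP1
      (fun n z => (hz _ z).1) (fun n z => (hz _ z).2) lf lg lb hY.1 hY.2)
    exact Or.inr ⟨c, Or.inl hc⟩
  by_cases hZ : 0 < f ∧ (g = 0 ∨ a < 1)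
  · have hsm := varZ_small (swap_appr2 hB hm) hP1 (y₀ := fun n => z₀' (φ n))
      (z₀ := fun n => y₀' (φ n)) (z₁ := fun n => y₁' (φ n))
      (fun n y => (hy _ y).1) (fun n y => (hy _ y).2) lg lf la hZ.1 hZ.2
    obtain ⟨c, hc⟩ := band_case (hm.preimage measurable_swap) (perSet2_swap hS) (swap_appr2 hB hm) hP1
      (by rwa [vol2_swap hm]) (by rwa [vol2_swap hm]) hsm
    rw [vol2_swap hm] at hc
    refine Or.inr ⟨c, Or.inr ?_⟩
    have hq : Measure.QuasiMeasurePreserving (Prod.swap : ℝ × ℝ → ℝ × ℝ) volume volume :=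
      (Measure.measurePreserving_swap (μ := (volume : Measure ℝ))
        (ν := (volume : Measure ℝ))).quasiMeasurePreserving
    exact hq.preimage_ae_eq hc
  exfalso
  push Not at hd hY hZ
  have hg : 0 < g := by
    rcases hg0.eq_or_lt with h | h
    · have hf : 0 < f := lt_of_le_of_ne hf0 fun e => hd e.symm h.symm
      exact absurd h.symm (hZ hf).1
    · exact h
  obtain ⟨hfne, hb⟩ := hY hg
  obtain ⟨-, ha⟩ := hZ (lt_of_le_of_ne hf0 (Ne.symm hfne))
  obtain rfl : b = 1 := le_antisymm hb1 hb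
  obtain rfl : a = 1 := le_antisymm ha1 ha
  exact not_both_full hB hP1 h1 la lb

end

end Vale.Agent.P232.Rigid
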