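import Vale.Agent.P232.Rigid.Lines
import Vale.Agent.P232.Rigid.Bathtub
import Vale.Agent.P232.GraphSlice

/-! # P232: an axis with constant slices gives a product -/

namespace Vale.Agent.P232.Rigid

noncomputable section

open MeasureTheory Set Filter Topology Real Approx

lemma continuous_gfun : Continuous gfun := by
  unfold gfun
  fun_prop

lemma tv2_sec {w : ℝ × ℝ × ℝ → ℝ} (hw : Dens w) (t : ℝ) : tv2 (Axis.sec w t) =
    area2 fun q => √(fderiv ℝ w (t, q) e₂ ^ 2 + fderiv ℝ w (t, q) e₃ ^ 2) := by
  simp only [tv2, area2, fderiv_sec hw]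
  rfl

/-- Constant slice areas at equality leave no variation along the axis. -/
theorem dx_small {E : Set (ℝ × ℝ × ℝ)} {w : ℕ → ℝ × ℝ × ℝ → ℝ} (hw : Appr E w) {f a : ℕ → ℝ}
    (he : ∀ n, IsExt (w n) (f n) (a n)) (hfa : Tendsto (fun n => a n - f n) atTop (𝓝 0))
    (hv : vol E ≤ 1 / 2) (hP : (perim E).toReal / 2 ≤ gfun (vol E)) :
    Tendsto (fun n => int3 fun p => |fderiv ℝ (w n) p e₁|) atTop (𝓝 0) := by
  have hD := hw.dens
  set G : ℕ → ℝ × ℝ × ℝ → ℝ := fun n p => √(fderiv ℝ (w n) p e₂ ^ 2 + fderiv ℝ (w n) p e₃ ^ 2)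
  have hG : ∀ n, Continuous (G n) := fun n =>
    (((Axis.continuous_dir (hD n) e₂).pow 2).add ((Axis.continuous_dir (hD n) e₃).pow 2)).sqrt
  have hM : ∀ δ : ℝ, 0 < δ → ∀ᶠ n in atTop, int3 (gnorm (w n)) ≤ (perim E).toReal + δ :=
    fun δ hδ => by
      filter_upwards [hw.tv (δ / 2) (by linarith)] with n hn
      linarith
  refine tendsto_gap hD (fun n => Axis.continuous_dir (hD n) e₁) hG
    (fun n p => Real.sqrt_nonneg _) (fun n p => by
      simp only [G]
      rw [Real.sq_sqrt (by positivity), gnorm_sq]; ring) (hM 1 one_pos) fun δ hδ => ?_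
  obtain ⟨K, hK, h2⟩ := torus2_lower (show 0 < δ / 8 by linarith)
  obtain ⟨ρ, hρ, hcont⟩ := Metric.continuousAt_iff.1 (continuous_gfun.continuousAt (x := vol E))
    (δ / 8) (by linarith)
  have herr : Tendsto (fun n => K * int3 fun p => w n p * (1 - w n p)) atTop (𝓝 0) := by
    simpa using hw.err.const_mul K
  filter_upwards [hM (δ / 8) (by linarith), (tendsto_order.1 herr).2 (δ / 8) (by linarith),
    (tendsto_order.1 hfa).2 (ρ / 3) (by linarith),
    (Metric.tendsto_nhds.1 hw.vol_tendsto) (ρ / 3) (by linarith)] with n h1 h3 h4 h5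
  obtain ⟨⟨t₀, e0, l0⟩, t₁, e1, l1⟩ := he n
  obtain ⟨m0, m1⟩ := Axis.mean_mem (hD n) (t₀ := t₀) (t₁ := t₁) (fun t => e0 ▸ l0 t)
    (fun t => e1 ▸ l1 t)
  rw [Real.dist_eq, abs_lt] at h5
  have hF : Continuous fun p => w n p * (1 - w n p) :=
    (hD n).smooth.continuous.mul (continuous_const.sub (hD n).smooth.continuous)
  have hpt : ∀ t, 2 * gfun (vol E) - 3 * (δ / 8) ≤
      area2 (fun q => G n (t, q)) + K * area2 fun q => w n (t, q) * (1 - w n (t, q)) := fun t => by
    have hd : dist (Axis.secA (w n) t) (vol E) < ρ := by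
      rw [Real.dist_eq, abs_lt]
      constructor <;> linarith [l0 t, l1 t]
    have hg := hcont hd
    rw [Real.dist_eq, abs_lt] at hg
    have h6 := h2 _ (Axis.dens2_sec (hD n) t)
    rw [tv2_sec (hD n) t] at h6
    change 2 * gfun (Axis.secA (w n) t) ≤ area2 (fun q => G n (t, q)) + δ / 8 +
      K * area2 (fun q => w n (t, q) * (1 - w n (t, q))) at h6
    linarith
  have hc : Continuous fun t => area2 (fun q => G n (t, q)) := Axis.continuous_sec (hG n)
  have hce : Continuous fun t => K * area2 fun q => w n (t, q) * (1 - w n (t, q)) :=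
    continuous_const.mul (Axis.continuous_sec hF)
  have hI := intervalIntegral.integral_mono_on (μ := volume) zero_le_one intervalIntegrable_const
    ((hc.add hce).intervalIntegrable 0 1) fun t _ => hpt t
  simp only [Pi.add_apply] at hI
  rw [intervalIntegral.integral_const, sub_zero, one_smul, intervalIntegral.integral_add
    (hc.intervalIntegrable _ _) (hce.intervalIntegrable _ _), intervalIntegral.integral_const_mul,
    ← Axis.int3_eq, ← Axis.int3_eq (fun p => w n p * (1 - w n p))] at hI
  linarith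

/-- A bounded function integrated first along the first axis. -/
lemma cube_col {F : ℝ × ℝ × ℝ → ℝ} (hF : Bd F) :
    ∫ p in cube, F p = ∫ q in square, ∫ t in (0 : ℝ)..1, F (t, q) := by
  have h : IntegrableOn F cube := Bd.integrable_cube hF
  have e : (volume : Measure (ℝ × ℝ × ℝ)).restrict cube =
      (volume.restrict (Ico (0 : ℝ) 1)).prod ((volume : Measure (ℝ × ℝ)).restrict square) := by
    rw [Measure.prod_restrict, ← Measure.volume_eq_prod]
    rfl
  rw [IntegrableOn, e] at h
  rw [e, integral_prod_symm _ h]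
  refine integral_congr_ae (Eventually.of_forall fun q => ?_)
  show (∫ t in Ico (0 : ℝ) 1, F (t, q)) = ∫ t in (0 : ℝ)..1, F (t, q)
  rw [intervalIntegral.integral_of_le zero_le_one, integral_Ico_eq_integral_Ioc]

/-- Without variation along the first axis the set is a product. -/
theorem product_rigid {E : Set (ℝ × ℝ × ℝ)} {w : ℕ → ℝ × ℝ × ℝ → ℝ} (hm : MeasurableSet E)
    (hE : PerSet E) (hfin : perim E ≠ ⊤) (hw : Appr E w)
    (hx : Tendsto (fun n => int3 fun p => |fderiv ℝ (w n) p e₁|) atTop (𝓝 0)) :
    ∃ S : Set (ℝ × ℝ), MeasurableSet S ∧ PerSet2 S ∧ E =ᵐ[volume] Prod.snd ⁻¹' S ∧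
      vol2 S = vol E ∧ Appr2 S (fun n => Axis.colM (w n)) ((perim E).toReal / 2) := by
  have hD := hw.dens
  set mE : ℝ × ℝ → ℝ := fun q => ∫ t in (0 : ℝ)..1, chi E (t, q)
  have hmE : Measurable mE := by
    simp only [mE, intervalIntegral.integral_of_le zero_le_one]
    exact ((measurable_chi hm).comp measurable_swap :
      Measurable fun z : (ℝ × ℝ) × ℝ => chi E (z.2, z.1)).stronglyMeasurable
        |>.integral_prod_right' (ν := volume.restrict (Set.Ioc (0 : ℝ) 1)) |>.measurable
  have hbm : Bd fun p : ℝ × ℝ × ℝ => mE p.2 :=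
    ⟨hmE.comp measurable_snd, 1, fun p => abs_int01_le fun t => abs_chi _⟩
  -- the means along the axis
  set c : ℕ → ℝ × ℝ × ℝ → ℝ := fun n p => Axis.colM (w n) p.2
  have hcc : ∀ n, Continuous (c n) := fun n =>
    (Axis.dens2_colM (hD n)).smooth.continuous.comp continuous_snd
  have hbc : ∀ n, Bd (c n) := fun n => bd_of_per (hcc n) fun p => by
    have h := (Axis.dens2_colM (hD n)).per p.2.1 p.2.2
    simp [c, e₁, e₂, e₃, Prod.add_def, h.1, h.2]
  have hcol : Tendsto (fun n => ∫ p in cube, |c n p - chi E p|) atTop (𝓝 0) := by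
    refine squeeze_zero (fun n => integral_nonneg fun p => abs_nonneg _) (fun n => ?_)
      (by simpa using hx.add hw.conv)
    refine (dist_triangle (hbc n) (bd_dens (hD n)) (bd_chi hm)).trans (add_le_add ?_ le_rfl)
    rw [setIntegral_cube (bd_dist (hbc n) (bd_dens (hD n)))]
    have hd := (Axis.continuous_dir (hD n) e₁).abs
    have hcw : Continuous fun p => |c n p - w n p| := ((hcc n).sub (hD n).smooth.continuous).abs
    rw [← Axis.int3_col hd, ← Axis.int3_col hcw]
    refine Axis.area2_mono (Axis.continuous_col hcw) (Axis.continuous_col hd) fun q => ?_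
    refine (intervalIntegral.integral_mono_on zero_le_one
      ((hcw.comp (by fun_prop : Continuous fun t : ℝ => (t, q))).intervalIntegrable _ _)
      intervalIntegrable_const fun t _ => ?_).trans_eq
        (by rw [intervalIntegral.integral_const, sub_zero, one_smul])
    rw [Function.comp_apply, abs_sub_comm]
    exact line_mean₁ (hD n) t q
  have hmean : ∀ n, ∫ p in cube, |c n p - mE p.2| ≤ ∫ p in cube, |c n p - chi E p| := fun n => by
    rw [cube_col (bd_dist (hbc n) hbm), cube_col (bd_dist (hbc n) (bd_chi hm))]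
    have hi : ∀ {F : ℝ × ℝ × ℝ → ℝ}, Bd F →
        Integrable (fun q => ∫ t in (0 : ℝ)..1, F (t, q))
          ((volume : Measure (ℝ × ℝ)).restrict square) := fun {F} hF => by
      simp only [intervalIntegral.integral_of_le zero_le_one]
      obtain ⟨C, hC⟩ := hF.2
      have : IsFiniteMeasure ((volume : Measure (ℝ × ℝ)).restrict square) :=
        ⟨by rw [Measure.restrict_apply_univ, square, Measure.volume_eq_prod, Measure.prod_prod]
            simp⟩
      refine Integrable.of_bound ((hF.1.comp measurable_swap :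
        Measurable fun z : (ℝ × ℝ) × ℝ => F (z.2, z.1)).stronglyMeasurable
          |>.integral_prod_right' (ν := volume.restrict (Set.Ioc (0 : ℝ) 1))).aestronglyMeasurable
        C (Eventually.of_forall fun q => ?_)
      rw [← intervalIntegral.integral_of_le zero_le_one, Real.norm_eq_abs]
      exact abs_int01_le fun t => hC _
    refine integral_mono (hi (bd_dist (hbc n) hbm)) (hi (bd_dist (hbc n) (bd_chi hm))) fun q => ?_
    show (∫ _t in (0 : ℝ)..1, |Axis.colM (w n) q - mE q|) ≤ _
    rw [intervalIntegral.integral_const, sub_zero, one_smul]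
    have hi' : IntervalIntegrable (fun t => chi E (t, q)) volume 0 1 :=
      intervalIntegrable_of_bound ((measurable_chi hm).comp measurable_prodMk_right)
        (fun t => abs_chi _) 0 1
    refine le_trans (le_of_eq ?_) (intervalIntegral.abs_integral_le_integral_abs zero_le_one)
    simp only [c]
    rw [intervalIntegral.integral_sub intervalIntegrable_const hi', intervalIntegral.integral_const,
      sub_zero, one_smul]
  have hae : chi E =ᵐ[volume.restrict cube] fun p => mE p.2 := by
    refine ae_eq_of_dist (bd_chi hm) hbm (fun n => ?_) (by simpa using hcol.add hcol)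
    refine (dist_triangle (bd_chi hm) (hbc n) hbm).trans (add_le_add (le_of_eq ?_) (hmean n))
    simp only [abs_sub_comm (chi E _)]
  -- the set
  set S : Set (ℝ × ℝ) := {q | 1 / 2 < mE q}
  have hS : MeasurableSet S := measurableSet_lt measurable_const hmE
  have hS2 : PerSet2 S := fun y z => by
    have h : ∀ t, _ := fun t : ℝ => per_chi hE (t, y, z)
    simp only [e₁, e₂, e₃, Prod.mk_add_mk, add_zero] at h
    simp only [S, mem_ofPred_eq, mE, fun t => (h t).2.1, fun t => (h t).2.2, and_self]
  have hES : E =ᵐ[volume.restrict cube] Prod.snd ⁻¹' S := by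
    refine eventuallyEq_set.2 ?_
    filter_upwards [hae] with p hp
    by_cases h : p ∈ E
    · refine iff_of_true h ?_
      show 1 / 2 < mE p.2
      rw [← hp, chi, indicator_of_mem h]; norm_num
    · refine iff_of_false h ?_
      show ¬(1 / 2 < mE p.2)
      rw [← hp, chi, indicator_of_notMem h]; norm_num
  have hP : PerSet (Prod.snd ⁻¹' S) := fun p => by
    simp [e₁, e₂, e₃, Prod.add_def, (hS2 p.2.1 p.2.2).1, (hS2 p.2.1 p.2.2).2]
  have hv : vol2 S = vol E := by
    rw [vol, ← Measure.restrict_apply' measurableSet_cube, measure_congr hES,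
      Measure.restrict_apply' measurableSet_cube,
      show Prod.snd ⁻¹' S ∩ cube = Ico (0 : ℝ) 1 ×ˢ (S ∩ square) by
        ext p; simp [cube, square, and_left_comm],
      Measure.volume_eq_prod, Measure.prod_prod]
    simp [vol2]
  refine ⟨S, hS, hS2, ae_eq_of_cube hE hP hES, hv, ?_⟩
  have hsq : ∀ n, ∫ q in square, |Axis.colM (w n) q - chi2 S q| =
      ∫ p in cube, |c n p - chi E p| := fun n => by
    have hb : Bd fun p : ℝ × ℝ × ℝ => chi2 S p.2 :=
      ⟨(measurable_const.indicator hS).comp measurable_snd, 1, fun p => by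
        show |S.indicator (fun _ => (1 : ℝ)) p.2| ≤ 1
        by_cases h : p.2 ∈ S <;> simp [h]⟩
    trans ∫ p in cube, |c n p - chi2 S p.2|
    · rw [cube_col (bd_dist (hbc n) hb)]
      simp [c]
    · refine integral_congr_ae ?_
      filter_upwards [indicator_ae_eq_of_ae_eq_set (f := fun _ : ℝ × ℝ × ℝ => (1 : ℝ)) hES] with p hp
      show |c n p - chi2 S p.2| = |c n p - E.indicator (fun _ => (1 : ℝ)) p|
      rw [hp]
      rfl
  have hconv : Tendsto (fun n => ∫ q in square, |Axis.colM (w n) q - chi2 S q|) atTop (𝓝 0) := by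
    simpa only [hsq] using hcol
  refine ⟨fun n => Axis.dens2_colM (hD n), ?_, ?_, hconv, fun δ hδ => ?_⟩
  · simpa only [fun n => show area2 (Axis.colM (w n)) = int3 (w n) from
      Axis.int3_col (hD n).smooth.continuous, hv] using hw.vol_tendsto
  · refine squeeze_zero (fun n => Vale.Agent.P232.area2_nonneg fun q =>
      mul_nonneg ((Axis.dens2_colM (hD n)).mem q).1
        (sub_nonneg.2 ((Axis.dens2_colM (hD n)).mem q).2)) (fun n => ?_) hcol
    have hb : Bd fun p => c n p * (1 - c n p) :=
      (hbc n).mul ⟨measurable_const.sub (hbc n).1, 1, fun p => by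
        have h := (Axis.dens2_colM (hD n)).mem p.2
        rw [abs_of_nonneg (sub_nonneg.2 h.2)]; linarith [h.1]⟩
    rw [show area2 (fun q => Axis.colM (w n) q * (1 - Axis.colM (w n) q)) =
      int3 fun p => c n p * (1 - c n p) by simp [c, int3, area2], ← setIntegral_cube hb]
    refine integral_mono (Bd.integrable_cube hb) (Bd.integrable_cube (bd_dist (hbc n) (bd_chi hm)))
      fun p => ?_
    obtain ⟨h0, h1⟩ := (Axis.dens2_colM (hD n)).mem p.2
    change 0 ≤ c n p at h0
    change c n p ≤ 1 at h1
    by_cases h : p ∈ E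
    · simp only [chi, indicator_of_mem h]
      rw [abs_of_nonpos (by linarith)]; nlinarith
    · simp only [chi, indicator_of_notMem h, sub_zero]
      rw [abs_of_nonneg h0]; nlinarith
  · refine (hw.tv δ hδ).mono fun n hn => le_trans ?_ hn
    refine div_le_div_of_nonneg_right ?_ zero_le_two
    rw [← Axis.int3_col (continuous_gn (hD n))]
    show area2 (grad2 (Axis.colM (w n))) ≤ _
    refine Axis.area2_mono (continuous_grad2 (Axis.dens2_colM (hD n)).smooth)
      (Axis.continuous_col (continuous_gn (hD n))) fun q => ?_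
    have hd : ∀ v, Continuous fun t : ℝ => fderiv ℝ (w n) (t, q) v := fun v =>
      (Axis.continuous_dir (hD n) v).comp (by fun_prop)
    have h := Axis.integral_sqrt_le (f := fun _ => 0) (g := fun t => fderiv ℝ (w n) (t, q) e₂)
      (k := fun t => fderiv ℝ (w n) (t, q) e₃) (R := fun t => gnorm (w n) (t, q))
      continuous_const (hd e₂) (hd e₃)
      (((((hd e₁).pow 2).add ((hd e₂).pow 2)).add ((hd e₃).pow 2)).sqrt) fun t => by
        refine Real.sqrt_le_sqrt ?_
        nlinarith [sq_nonneg (fderiv ℝ (w n) (t, q) e₁)]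
    rw [intervalIntegral.integral_zero, zero_pow two_ne_zero, zero_add] at h
    rw [grad2, Axis.fderiv_colM (hD n), Axis.fderiv_colM (hD n)]
    exact h

end

end Vale.Agent.P232.Rigid
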