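import Vale.Agent.P232.Rigid.Lines
import Vale.Agent.P232.Rigid.Bathtub
import Vale.Agent.P232.Rigid.Monotone

/-!
# P232: an axis whose slices go from empty to full gives a slab

The total variation is then all in that direction, so the limit is a function of one coordinate whose
variation allows a single interval.
-/

namespace Vale.Agent.P232.Rigid

noncomputable section

open MeasureTheory Set Filter Topology Approx

lemma perSet_slabSet (c v : ℝ) : PerSet (slabSet 0 c v) := fun p => by
  have h : Int.fract (p.1 + 1 - c) = Int.fract (p.1 - c) := by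
    rw [show p.1 + 1 - c = p.1 - c + 1 by ring, Int.fract_add_one]
  simp [slabSet, coord, e₁, e₂, e₃, h]

theorem slab_rigid {E : Set (ℝ × ℝ × ℝ)} {w : ℕ → ℝ × ℝ × ℝ → ℝ} (hm : MeasurableSet E)
    (hE : PerSet E) (hfin : perim E ≠ ⊤) (hw : Appr E w) {f a : ℕ → ℝ}
    (he : ∀ n, IsExt (w n) (f n) (a n)) (hf : Tendsto f atTop (𝓝 0))
    (ha : Tendsto a atTop (𝓝 1)) (hP : (perim E).toReal ≤ 2) :
    ∃ c, E =ᵐ[volume] slabSet 0 c (vol E) := by
  have hD := hw.dens
  -- the variation is at most two
  have hM : ∀ δ : ℝ, 0 < δ → ∀ᶠ n in atTop, int3 (gnorm (w n)) ≤ 2 + δ := fun δ hδ => by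
    filter_upwards [hw.tv (δ / 2) (by linarith)] with n hn
    linarith
  -- the slice areas already use all of it
  have hsec : ∀ n, ∫ t in (0 : ℝ)..1, |Axis.secD (w n) t| ≤
      int3 fun p => |fderiv ℝ (w n) p e₁| := fun n => by
    rw [Axis.int3_eq]
    exact intervalIntegral.integral_mono_on zero_le_one
      ((Axis.continuous_secD (hD n)).abs.intervalIntegrable _ _)
      ((Axis.continuous_sec (Axis.continuous_dir (hD n) e₁).abs).intervalIntegrable _ _)
      fun t _ => abs_area2_le (continuous_slice (Axis.continuous_dir (hD n) e₁) t)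
  have hvar : ∀ n, 2 * (a n - f n) ≤ ∫ t in (0 : ℝ)..1, |Axis.secD (w n) t| := fun n => by
    obtain ⟨⟨t₀, h0, -⟩, t₁, h1, -⟩ := he n
    have hp := Axis.secA_periodic (hD n)
    have h := four_points (Axis.hasDerivAt_secA (hD n)) (Axis.continuous_secD (hD n)) hp
      (s₀ := t₀) (s₁ := t₀ + Int.fract (t₁ - t₀)) (le_add_of_nonneg_right (Int.fract_nonneg _))
      le_rfl le_rfl (by linarith [Int.fract_lt_one (t₁ - t₀)])
    have e : Axis.secA (w n) (t₀ + Int.fract (t₁ - t₀)) = a n := by
      have e := hp.sub_int_mul_eq (x := t₁) ⌊t₁ - t₀⌋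
      rw [mul_one] at e
      rw [← h1, ← e, Int.fract]
      congr 1
      ring
    rw [e, h0] at h
    simp only [sub_self, abs_zero, add_zero] at h
    linarith [le_abs_self (a n - f n), neg_le_abs (f n - a n)]
  -- so there is none along the slices
  have hd : Tendsto (fun n => int3 fun p => √(fderiv ℝ (w n) p e₂ ^ 2 + fderiv ℝ (w n) p e₃ ^ 2))
      atTop (𝓝 0) := by
    have h := tendsto_gap hD
      (d := fun n p => √(fderiv ℝ (w n) p e₂ ^ 2 + fderiv ℝ (w n) p e₃ ^ 2))
      (G := fun n p => |fderiv ℝ (w n) p e₁|)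
      (fun n => (((Axis.continuous_dir (hD n) e₂).pow 2).add
        ((Axis.continuous_dir (hD n) e₃).pow 2)).sqrt)
      (fun n => (Axis.continuous_dir (hD n) e₁).abs) (fun n p => abs_nonneg _)
      (fun n p => by rw [Real.sq_sqrt (by positivity), sq_abs, gnorm_sq]; ring)
      (hM 1 one_pos) fun δ hδ => by
        filter_upwards [hM (δ / 3) (by linarith), (tendsto_order.1 hf).2 (δ / 6) (by linarith),
          (tendsto_order.1 ha).1 (1 - δ / 6) (by linarith)] with n h1 h2 h3
        linarith [hvar n, hsec n]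
    simpa only [abs_of_nonneg (Real.sqrt_nonneg _)] using h
  -- the set is a function of the first coordinate
  have hbm : Bd fun p : ℝ × ℝ × ℝ => marg E p.1 :=
    ⟨(measurable_secA (measurable_chi hm)).comp measurable_fst, 1, fun p => by
      show |Axis.secA (chi E) p.1| ≤ 1
      have h := secA_chi_mem (E := E) p.1
      rw [abs_of_nonneg h.1]; exact h.2⟩
  have hbA : ∀ n, Bd fun p : ℝ × ℝ × ℝ => Axis.secA (w n) p.1 := fun n =>
    bd_of_per ((Axis.continuous_secA (hD n)).comp continuous_fst) fun p => by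
      simp [e₁, e₂, e₃, Axis.secA_periodic (hD n) p.1]
  have hae : chi E =ᵐ[volume.restrict cube] fun p => marg E p.1 := by
    have he0 : Tendsto (fun n => (∫ p in cube, |w n p - chi E p|)
        + (2 * (int3 fun p => √(fderiv ℝ (w n) p e₂ ^ 2 + fderiv ℝ (w n) p e₃ ^ 2)))
        + ∫ t in (0 : ℝ)..1, |Axis.secA (w n) t - marg E t|) atTop (𝓝 0) := by
      simpa using (hw.conv.add (hd.const_mul 2)).add (hw.tendsto_secA hm)
    refine ae_eq_of_dist (bd_chi hm) hbm (fun n => ?_) he0
    refine (dist_triangle (bd_chi hm) (bd_dens (hD n)) hbm).trans ?_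
    have h2 := dist_triangle (bd_dens (hD n)) (hbA n) hbm
    rw [setIntegral_cube (bd_dist (bd_dens (hD n)) (hbA n)),
      setIntegral_cube (bd_dist (hbA n) hbm),
      show (int3 fun p => |Axis.secA (w n) p.1 - marg E p.1|) =
        ∫ t in (0 : ℝ)..1, |Axis.secA (w n) t - marg E t| by simp [int3]] at h2
    have e : ∫ p in cube, |chi E p - w n p| = ∫ p in cube, |w n p - chi E p| := by
      simp only [abs_sub_comm (chi E _)]
    linarith [int3_sub_secA_le (hD n)]
  set v := vol E with hv
  have hvB : ∫ t in (0 : ℝ)..1, marg E t = v := integral_secA_chi hm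
  suffices hfin' : ∃ c, ∀ᵐ p ∂volume.restrict cube,
      marg E p.1 = {t : ℝ | Int.fract (t - c) < v}.indicator (fun _ => (1 : ℝ)) p.1 by
    obtain ⟨c, hc⟩ := hfin'
    refine ⟨c, ae_eq_of_cube hE (perSet_slabSet c v) ?_⟩
    refine eventuallyEq_set.2 ?_
    filter_upwards [hae, hc] with p h1 h2
    rw [h2] at h1
    change E.indicator (fun _ => (1 : ℝ)) p = _ at h1
    show p ∈ E ↔ Int.fract (p.1 - c) < v
    constructor <;> intro hp <;> by_contra hq
    · rw [indicator_of_mem hp, indicator_of_notMem (show p.1 ∉ {t : ℝ | Int.fract (t - c) < v}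
        from hq)] at h1
      exact one_ne_zero h1
    · rw [indicator_of_notMem hq, indicator_of_mem (show p.1 ∈ {t : ℝ | Int.fract (t - c) < v}
        from hp)] at h1
      exact zero_ne_one h1
  -- the values are zero and one
  have hB : ∀ᵐ t, marg E t = 0 ∨ marg E t = 1 := by
    have h1 : ∀ᵐ p ∂(volume.restrict (Ico (0 : ℝ) 1)).prod
        ((volume : Measure (ℝ × ℝ)).restrict square), marg E p.1 = 0 ∨ marg E p.1 = 1 := by
      rw [Measure.prod_restrict, ← Measure.volume_eq_prod]
      change ∀ᵐ p ∂volume.restrict cube, _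
      filter_upwards [hae] with p hp
      rw [← hp]
      by_cases h : p ∈ E <;> simp [chi, h]
    have hne : ((volume : Measure (ℝ × ℝ)).restrict square) ≠ 0 := by
      rw [Ne, Measure.restrict_eq_zero, square, Measure.volume_eq_prod, Measure.prod_prod]
      simp
    have : NeBot (ae ((volume : Measure (ℝ × ℝ)).restrict square)) := ae_neBot.2 hne
    have h2 : ∀ᵐ t ∂volume.restrict (Ico (0 : ℝ) 1), marg E t = 0 ∨ marg E t = 1 := by
      filter_upwards [Measure.ae_ae_of_ae_prod h1] with t ht
      exact ht.exists.choose_spec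
    rw [ae_iff] at h2 ⊢
    refine null_line (a := 0) (fun t => by
      simp only [mem_ofPred_eq, marg_periodic hE t]) ?_
    rwa [zero_add, ← Measure.restrict_apply' measurableSet_Ioc, restrict_Ioc_eq_restrict_Icc,
      ← restrict_Ico_eq_restrict_Icc]
  have hpull : ∀ {P : ℝ → Prop}, (∀ᵐ t, P t) → ∀ᵐ p ∂(volume : Measure (ℝ × ℝ × ℝ)).restrict cube,
      P p.1 := fun h => by
    refine ae_restrict_of_ae ?_
    rw [Measure.volume_eq_prod]
    exact Measure.quasiMeasurePreserving_fst.ae h
  have hv0 : 0 ≤ v := ENNReal.toReal_nonneg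
  have hv1 : v ≤ 1 := by
    have h := ENNReal.toReal_mono (by rw [volume_cube]; exact ENNReal.one_ne_top)
      (measure_mono (inter_subset_right : E ∩ cube ⊆ cube) (μ := volume))
    rwa [volume_cube, ENNReal.toReal_one] at h
  by_cases h01 : 0 < v ∧ v < 1
  · obtain ⟨c, hc⟩ := interval_rigid (A := fun n => Axis.secA (w n)) (D := fun n => Axis.secD (w n))
      (fun n => Axis.hasDerivAt_secA (hD n)) (fun n => Axis.continuous_secD (hD n))
      (fun n => Axis.secA_periodic (hD n)) (fun n t => Axis.secA_mem (hD n) t)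
      (fun δ hδ => (hM δ hδ).mono fun n hn => ((hsec n).trans
        (int3_mono (Axis.continuous_dir (hD n) e₁).abs (continuous_gn (hD n)) fun p => by
          refine Real.le_sqrt_of_sq_le ?_
          rw [sq_abs]
          linarith [sq_nonneg (fderiv ℝ (w n) p e₂), sq_nonneg (fderiv ℝ (w n) p e₃)])).trans hn)
      (measurable_secA (measurable_chi hm)) (marg_periodic hE) hB (hw.tendsto_secA hm) hvB
      h01.1 h01.2
    exact ⟨c, hpull hc⟩
  refine ⟨0, hpull (P := fun t => marg E t = {t : ℝ | Int.fract (t - 0) < v}.indicator (fun _ => (1 : ℝ)) t) ?_⟩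
  have hi : IntegrableOn (marg E) (Ioc 0 1) := (intervalIntegrable_of_bound
    (measurable_secA (measurable_chi hm)) (C := 1) (fun t => by
      have h := secA_chi_mem (E := E) t
      show |Axis.secA (chi E) t| ≤ 1
      rw [abs_of_nonneg h.1]; exact h.2) 0 1).1
  have hcase : ∀ {g : ℝ → ℝ}, IntegrableOn g (Ioc 0 1) → (∀ t, 0 ≤ g t) →
      Function.Periodic g 1 → ∫ t in (0 : ℝ)..1, g t = 0 → ∀ᵐ t, g t = 0 := fun hg h0 hp h => by
    rw [intervalIntegral.integral_of_le zero_le_one,
      integral_eq_zero_iff_of_nonneg h0 hg] at h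
    have h' := ae_iff.1 h
    rw [ae_iff]
    refine null_line (a := 0) (fun t => by simp only [mem_ofPred_eq, hp t]) ?_
    rw [zero_add, ← Measure.restrict_apply' measurableSet_Ioc]
    simpa using h'
  rcases eq_or_ne v 0 with h | h
  · filter_upwards [hcase hi (fun t => (secA_chi_mem (E := E) t).1) (marg_periodic hE) (hvB.trans h)]
      with t ht
    rw [ht, indicator_of_notMem]
    show ¬(Int.fract (t - 0) < v)
    rw [h]
    exact not_lt.2 (Int.fract_nonneg (t - 0))
  · have h1 : v = 1 := le_antisymm hv1 (not_lt.1 fun h' => h01 ⟨lt_of_le_of_ne hv0 h.symm, h'⟩)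
    filter_upwards [hcase (g := fun t => 1 - marg E t)
      ((integrableOn_const (μ := (volume : Measure ℝ)) (C := (1 : ℝ)) (by simp)).sub hi)
      (fun t => sub_nonneg.2 (secA_chi_mem (E := E) t).2)
      (fun t => congrArg (1 - ·) (marg_periodic hE t)) (by
        rw [intervalIntegral.integral_sub intervalIntegrable_const
          ((intervalIntegrable_iff_integrableOn_Ioc_of_le zero_le_one).2 hi), hvB, h1]
        simp)] with t ht
    rw [indicator_of_mem (show t ∈ {t : ℝ | Int.fract (t - 0) < v} from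
      (Int.fract_lt_one (t - 0)).trans_eq h1.symm)]
    linarith

end

end Vale.Agent.P232.Rigid
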