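import Vale.Agent.P232.Rigid.Limit
import Vale.Agent.P232.Rigid.Perm
import Vale.Agent.P232.Rigid.Planar
import Vale.Agent.P232.Rigid.Product
import Vale.Agent.P232.Rigid.Slab
import Vale.Agent.P232.Rigid.BallCase
import Vale.Agent.P232.GapSlab.Strict
import Vale.Agent.P232.WindowProfile

/-!
# P232: every minimiser is a ball, a tube, a slab or a complement of one

Everything is reduced here to the strict core statement on the window `0.263 ≤ v ≤ 0.323`.
-/

namespace Vale.Agent.P232.Rigid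

noncomputable section

open MeasureTheory Set Filter Topology Real

lemma goalF_le_gfun {v : ℝ} (h0 : 0 ≤ v) (h1 : v ≤ 1 / 2) : goalF v ≤ gfun v := by
  have h : √(π * v) ≤ √(π * (1 - v)) :=
    Real.sqrt_le_sqrt (mul_le_mul_of_nonneg_left (by linarith) Real.pi_pos.le)
  have k1 : goalF v ≤ √(π * v) := (min_le_left _ _).trans (min_le_right _ _)
  unfold gfun
  exact le_min (le_min k1 (min_le_right _ _)) (k1.trans h)

/-- A set of no more than the conjectured perimeter has approximations of the least variation. -/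
lemma exists_minSeq {E : Set (ℝ × ℝ × ℝ)} (hm : MeasurableSet E) (hE : PerSet E)
    (hv : vol E ≤ 1 / 2) (hP : perim E ≤ ENNReal.ofReal (J (vol E))) :
    ∃ w, Appr E w ∧ MinSeq (vol E) w := by
  have hfin : perim E ≠ ⊤ := ne_top_of_le_ne_top ENNReal.ofReal_ne_top hP
  choose w hw h1 h2 h3 h4 using fun n : ℕ =>
    exists_dens_L1 hm hE hfin (show (0 : ℝ) < 1 / ((n : ℝ) + 1) by positivity)
  have h0 := tendsto_one_div_add_atTop_nhds_zero_nat (𝕜 := ℝ)
  have herr := squeeze_zero (fun n => int3_nonneg fun p =>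
    mul_nonneg ((hw n).mem p).1 (sub_nonneg.2 ((hw n).mem p).2)) h3 h0
  have htv : ∀ δ : ℝ, 0 < δ → ∀ᶠ n in atTop,
      int3 (gnorm (w n)) / 2 ≤ (perim E).toReal / 2 + δ := fun δ hδ => by
    filter_upwards [(tendsto_order.1 h0).2 δ hδ] with n hn
    linarith [h1 n]
  refine ⟨w, ⟨hw, ?_, herr, squeeze_zero (fun n => integral_nonneg fun p => abs_nonneg _) h4 h0,
    htv⟩, hw, h2, herr, fun δ hδ => (htv δ hδ).mono fun n hn => ?_⟩
  · simp only [h2]; exact tendsto_const_nhds
  · have hJ := J_le_goalF (vol_mem (E := E)) hv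
    have := ENNReal.toReal_mono ENNReal.ofReal_ne_top hP
    rw [ENNReal.toReal_ofReal_eq_iff.2 ?_] at this
    · linarith
    · exact le_min (le_min (mul_nonneg (rpow_nonneg (by positivity) _)
        (rpow_nonneg (le_min vol_mem (by linarith)) _)) (by positivity)) zero_le_two

lemma Appr.comp {E : Set (ℝ × ℝ × ℝ)} {w : ℕ → ℝ × ℝ × ℝ → ℝ} (h : Appr E w) {φ : ℕ → ℕ}
    (hφ : StrictMono φ) : Appr E (w ∘ φ) where
  dens n := h.dens _
  vol_tendsto := h.vol_tendsto.comp hφ.tendsto_atTop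
  err := h.err.comp hφ.tendsto_atTop
  conv := h.conv.comp hφ.tendsto_atTop
  tv δ hδ := hφ.tendsto_atTop.eventually (h.tv δ hδ)

/-- Minimisers of at most half the volume. -/
theorem classify_half {E : Set (ℝ × ℝ × ℝ)} (hm : MeasurableSet E)
    (hW : 264 / 1000 < vol E → vol E ≤ 323 / 1000 →
      ∃ L, 0 ≤ L ∧ StrictWindow L (263 / 1000) (323 / 1000))
    (hE : PerSet E) (h0 : 0 < vol E) (h1 : vol E ≤ 1 / 2)
    (hP : perim E ≤ ENNReal.ofReal (J (vol E))) : IsStandard E := by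
  set v := vol E with hv
  obtain ⟨w₀, hA₀, hM₀⟩ := exists_minSeq hm hE h1 hP
  choose f₀ a₀ hfa₀ using fun n => exists_exts (hA₀.dens n)
  have hbox : ∀ n, (f₀ n, a₀ n) ∈
      Icc (0 : Fin 3 → ℝ) 1 ×ˢ Icc (0 : Fin 3 → ℝ) 1 := fun n => by
    obtain ⟨K, -, hG⟩ := axisG_bounds (δ := 1) one_pos le_rfl
    obtain ⟨S, hS⟩ := hG _ (hA₀.dens n) _ _ (hfa₀ n)
    have hb := hS.ax
    refine ⟨⟨fun i => (hb i).f_nonneg, fun i => ?_⟩, fun i => ?_, fun i => (hb i).a_le⟩
    · exact (hb i).f_le.trans ((hb i).le_a.trans (hb i).a_le)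
    · exact (hb i).f_nonneg.trans ((hb i).f_le.trans (hb i).le_a)
  obtain ⟨⟨F, A⟩, -, φ, hφ, hlim⟩ := (isCompact_Icc.prod isCompact_Icc).tendsto_subseq hbox
  set w := w₀ ∘ φ
  have hA : Appr E w := hA₀.comp hφ
  have hM : MinSeq v w := hM₀.comp hφ
  set f := f₀ ∘ φ
  set a := a₀ ∘ φ
  have hfa : ∀ n, IsExts (w n) (f n) (a n) := fun n => hfa₀ (φ n)
  have hFl : Tendsto f atTop (𝓝 F) := (Prod.tendsto_iff _ _).1 hlim |>.1
  have hAl : Tendsto a atTop (𝓝 A) := (Prod.tendsto_iff _ _).1 hlim |>.2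
  have hfin : perim E ≠ ⊤ := ne_top_of_le_ne_top ENNReal.ofReal_ne_top hP
  have hreal : (perim E).toReal / 2 ≤ goalF v := by
    have h := ENNReal.toReal_mono ENNReal.ofReal_ne_top hP
    have hJ := J_le_goalF h0.le h1
    rcases le_total 0 (J v) with c | c
    · rw [ENNReal.toReal_ofReal c] at h
      linarith
    · rw [ENNReal.ofReal_of_nonpos c, ENNReal.toReal_zero] at h
      have : 0 ≤ goalF v :=
        le_min (le_min (rpow_nonneg (by positivity) _) (sqrt_nonneg _)) zero_le_one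
      linarith
  -- the three limit cases
  have cases3 : (∃ i, F i = A i) ∨ (∃ i, F i = 0 ∧ A i = 1) ∨
      (v ≤ 264 / 1000 ∧ ∀ i, F i = 0 ∧ 3 * √π * v = 4 * √(A i) ^ 3) := by
    rcases le_or_gt v (264 / 1000) with c | c
    · exact (tube_limit h0 c hM hfa hFl hAl).imp_right fun h => Or.inr ⟨c, h⟩
    refine Or.imp_right Or.inl ?_
    rcases le_or_gt v (323 / 1000) with c' | c'
    · obtain ⟨L, hL, hW⟩ := hW c c'
      exact strict_limit hL hW ⟨by linarith, c'⟩ hM hfa hFl hAl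
    rcases le_or_gt v (9 / 25) with c'' | c''
    · exact strict_limit le_rfl (GapSlab.slab_strict 0) ⟨c'.le, c''⟩ hM hfa hFl hAl
    · exact strict_limit (L := 0) le_rfl strictWindow_slab ⟨by linarith, h1⟩ hM hfa hFl hAl
  rcases cases3 with ⟨i, hi⟩ | ⟨i, hi0, hi1⟩ | ⟨hv2, hball⟩
  · -- a product
    have hA' := appr_perm hm hA i
    have hE' := perSet_perm hE i
    have hm' := (mp_perm i).measurable hm
    have hvol : vol (perm i ⁻¹' E) = v := vol_preimage (mp_perm i) (perm_cube i) hm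
    have hper : perim (perm i ⁻¹' E) = perim E := perim_perm hm i
    have hd : Tendsto (fun n => a n i - f n i) atTop (𝓝 0) := by
      have := (tendsto_pi_nhds.1 hAl i).sub (tendsto_pi_nhds.1 hFl i)
      rwa [hi, sub_self] at this
    have hx := dx_small hA' (fun n => isExts_perm (hfa n) i) hd (by rw [hvol]; exact h1)
      (by rw [hper, hvol]; exact hreal.trans (goalF_le_gfun h0.le h1))
    obtain ⟨S, hS, hSp, hES, hSv, hA2⟩ :=
      product_rigid hm' hE' (by rw [hper]; exact hfin) hA' hx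
    rw [hvol] at hSv
    have hP2 : (perim (perm i ⁻¹' E)).toReal / 2 ≤ min √(π * vol2 S) 1 := by
      rw [hper, hSv]
      exact hreal.trans (le_min ((min_le_left _ _).trans (min_le_right _ _)) (min_le_right _ _))
    have snd_ae : ∀ {X : Set (ℝ × ℝ)}, S =ᵐ[volume] X →
        perm i ⁻¹' E =ᵐ[volume] (Prod.snd ⁻¹' X : Set (ℝ × ℝ × ℝ)) := fun h =>
      hES.trans ((Measure.quasiMeasurePreserving_snd (μ := (volume : Measure ℝ))
        (ν := (volume : Measure (ℝ × ℝ)))).preimage_ae_eq h)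
    rcases planar_rigid hS hSp hA2 (by rw [hSv]; exact h0) (by rw [hSv]; exact h1) hP2 with
      ⟨hπ, c, hc⟩ | ⟨c, hc | hc⟩
    · rw [hSv] at hπ hc
      refine isStandard_of_perm i (Or.inl ⟨(0, c), √(v / π), Real.sqrt_pos.2 (by positivity), ?_,
        (snd_ae hc).trans (Filter.EventuallyEq.of_eq ?_)⟩)
      · rw [Real.sqrt_lt' (by norm_num), div_lt_iff₀ Real.pi_pos]
        nlinarith [Real.pi_gt_three]
      · ext p
        simp [tubeSet, discSet, coord]
    · rw [hSv] at hc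
      exact isStandard_of_perm i (Or.inr ⟨1, c, v, h0, by linarith,
        (snd_ae hc).trans (Filter.EventuallyEq.of_eq (by ext p; simp [slabSet, bandSet, coord]))⟩)
    · rw [hSv] at hc
      exact isStandard_of_perm i (Or.inr ⟨2, c, v, h0, by linarith,
        (snd_ae hc).trans (Filter.EventuallyEq.of_eq (by ext p; simp [slabSet, bandSet, coord]))⟩)
  · -- a slab
    have hvol : vol (perm i ⁻¹' E) = v := vol_preimage (mp_perm i) (perm_cube i) hm
    have hper : perim (perm i ⁻¹' E) = perim E := perim_perm hm i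
    obtain ⟨c, hc⟩ := slab_rigid ((mp_perm i).measurable hm) (perSet_perm hE i)
      (by rw [hper]; exact hfin) (appr_perm hm hA i) (fun n => isExts_perm (hfa n) i)
      (hi0 ▸ tendsto_pi_nhds.1 hFl i) (hi1 ▸ tendsto_pi_nhds.1 hAl i)
      (by rw [hper]; linarith [min_le_right (min (ballF v) √(π * v)) 1, hreal,
        show goalF v ≤ 1 from min_le_right _ _])
    rw [hvol] at hc
    exact isStandard_of_perm i (Or.inr ⟨0, c, v, h0, by linarith, hc⟩)
  · -- a ball
    have hs : ∀ i, A i = A 0 := fun i => by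
      have h3 : √(A i) ^ 3 = √(A 0) ^ 3 := by linarith [(hball i).2, (hball 0).2]
      have h4 := (pow_left_inj₀ (Real.sqrt_nonneg (A i)) (Real.sqrt_nonneg (A 0))
        (by norm_num : (3 : ℕ) ≠ 0)).1 h3
      have hr := fun j => hM.ranges hfa hFl hAl j
      exact (Real.sqrt_inj (h0.le.trans (hr i).2.2.1) (h0.le.trans (hr 0).2.2.1)).1 h4
    obtain ⟨c, hc⟩ := ball_case hm hE hfin hA hfa (fun i => (hball i).1 ▸ tendsto_pi_nhds.1 hFl i)
      (A := A 0) (fun i => hs i ▸ tendsto_pi_nhds.1 hAl i) (hball 0).2 h0 hv2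
      (hreal.trans ((min_le_left _ _).trans (min_le_left _ _)))
    have hA0 : 0 < A 0 := h0.trans_le (hM.ranges hfa hFl hAl 0).2.2.1
    refine Or.inl ⟨c, √(A 0 / π), Real.sqrt_pos.2 (by positivity), ?_, hc⟩
    -- `√A³ = 3 √π v / 4` bounds the radius
    have hsA := Real.sq_sqrt hA0.le
    obtain ⟨hs1, hs2⟩ := sqrt_pi_five
    rw [Real.sqrt_lt' (by norm_num), div_lt_iff₀ Real.pi_pos]
    by_contra hn
    push Not at hn
    have k : (88 : ℝ) / 100 ≤ √(A 0) := Real.le_sqrt_of_sq_le (by linarith [Real.pi_gt_d2])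
    have k3 := pow_le_pow_left₀ (by norm_num) k 3
    have := mul_le_mul hs2 hv2 h0.le (by norm_num)
    linarith [(hball 0).2]

/-- Every minimiser is standard up to complement. -/
theorem classify {E : Set (ℝ × ℝ × ℝ)} (hm : MeasurableSet E) (hE : PerSet E)
    (hW : 264 / 1000 < min (vol E) (1 - vol E) → min (vol E) (1 - vol E) ≤ 323 / 1000 →
      ∃ L, 0 ≤ L ∧ StrictWindow L (263 / 1000) (323 / 1000))
    (h0 : 0 < vol E) (h1 : vol E < 1) (hP : perim E ≤ ENNReal.ofReal (J (vol E))) :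
    IsStandard E ∨ IsStandard Eᶜ := by
  rcases le_or_gt (vol E) (1 / 2) with c | c
  · rw [min_eq_left (by linarith)] at hW
    exact Or.inl (classify_half hm hW hE h0 c hP)
  · rw [min_eq_right (by linarith)] at hW
    refine Or.inr (classify_half hm.compl ?_ (perSet_compl hE) ?_ ?_ ?_) <;> rw [vol_compl hm]
    · exact hW
    · linarith
    · linarith
    · rw [perim_compl hm, J_compl]; exact hP

/-- The profile at every volume. -/
theorem profile_all {L : ℝ} (hL : 0 ≤ L) (hW : StrictWindow L (263 / 1000) (323 / 1000)) {V : ℝ}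
    (h0 : 0 ≤ V) (h1 : V ≤ 1) : profile V = ENNReal.ofReal (J V) := by
  refine profile_eq_all (fun δ hδ => ?_) h0 h1
  obtain ⟨K₁, hK₁, b₁⟩ := densWindow_of_core hL hW.core tubeExc_bound δ hδ
  obtain ⟨K₂, hK₂, b₂⟩ :=
    densWindow_of_core hL (GapSlab.slab_strict L).core tubeExc_bound δ hδ
  refine ⟨K₁ + K₂, by positivity, fun w hw hv => ?_⟩
  have hE : 0 ≤ int3 fun p => w p * (1 - w p) :=
    int3_nonneg fun p => mul_nonneg (hw.mem p).1 (sub_nonneg.2 (hw.mem p).2)
  rcases le_or_gt (int3 w) (323 / 1000) with c | c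
  · nlinarith [b₁ w hw ⟨hv.1, c⟩, mul_nonneg hK₂ hE]
  · nlinarith [b₂ w hw ⟨c.le, hv.2⟩, mul_nonneg hK₁ hE]

end

end Vale.Agent.P232.Rigid
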