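import Vale.Agent.P232.Rigid.Final
import Vale.Agent.P232.GapPair.Main

/-! # P232: the profile and all minimisers at every volume -/

namespace Vale.Agent.P232.Rigid

noncomputable section

open MeasureTheory

/-- The profile and the minimisers at every volume. -/
theorem complete :
    (∀ V : ℝ, 0 ≤ V → V ≤ 1 → profile V = ENNReal.ofReal (J V)) ∧
      ∀ E : Set (ℝ × ℝ × ℝ), MeasurableSet E → PerSet E → 0 < vol E → vol E < 1 →
        perim E = profile (vol E) → IsStandard E ∨ IsStandard Eᶜ :=
  final_of_window (by norm_num : (0 : ℝ) ≤ 100) GapPair.strict_window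

end

end Vale.Agent.P232.Rigid
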