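import Vale.Agent.P232.Rigid.Classify


/-! # P232: the profile and all minimisers -/

namespace Vale.Agent.P232.Rigid

noncomputable section

open MeasureTheory

theorem final_of_window {L : ℝ} (hL : 0 ≤ L) (hW : StrictWindow L (263 / 1000) (323 / 1000)) :
    (∀ V : ℝ, 0 ≤ V → V ≤ 1 → profile V = ENNReal.ofReal (J V)) ∧
      ∀ E : Set (ℝ × ℝ × ℝ), MeasurableSet E → PerSet E → 0 < vol E → vol E < 1 →
        perim E = profile (vol E) → IsStandard E ∨ IsStandard Eᶜ := by
  refine ⟨fun V h0 h1 => profile_all hL hW h0 h1, fun E hm hE p0 p1 hmin => ?_⟩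
  exact classify hm hE (fun _ _ => ⟨L, hL, hW⟩) p0 p1
    (le_of_eq (hmin.trans (profile_all hL hW vol_mem p1.le)))

end

end Vale.Agent.P232.Rigid
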