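import Vale.Agent.P232.Radial

/-!
# P232: equality in the bound for round slices

`radB` is the calibrated bound; it is at most the smaller of ball and tube only for constant slices
or for the ball.
-/

namespace Vale.Agent.P232.Rigid

noncomputable section

open Real MeasureTheory

/-- The bound of round slices between `f` and `a`. -/
def radB (v f a : ℝ) : ℝ :=
  (√π * (v + √a * √f) + (2 / 3 * (√a - √f) ^ 3 + π / 2 * (√a - √f) ^ 2 * √f)) / (√a + √f)

lemma radB_le {v f a P : ℝ} (hf : 0 ≤ f) (hfv : f ≤ v) (hva : v ≤ a) (ha : 0 < a)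
    (hP : Low (fun x => √(π * x)) v f a P) : radB v f a ≤ P := by
  set p := √a with hp
  set q := √f with hq
  have hp0 : 0 < p := Real.sqrt_pos.2 ha
  have hqp : q ≤ p := Real.sqrt_le_sqrt (hfv.trans hva)
  have hS : 0 < p + q := by positivity
  have hp2 : p ^ 2 = a := Real.sq_sqrt ha.le
  have hq2 : q ^ 2 = f := Real.sq_sqrt hf
  have main := hP (√π / (p + q)) (√π * p * q / (p + q)) (rbeta p q)
    (by rw [← hp2, ← hq2]; exact rbeta_cont (Real.sqrt_nonneg _))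
    fun x hx => rbeta_adm (Real.sqrt_nonneg _) hS (by rw [hq2]; exact hx.1)
      (by rw [hp2]; exact hx.2) hp0.le
  have hI := integral_rbeta_ge (Real.sqrt_nonneg _) hqp hS
  rw [hp2, hq2] at hI
  refine le_trans ?_ ((add_le_add_right hI _).trans main)
  exact le_of_eq (by rw [radB, ← hp, ← hq]; ring)

/-- Equality in the tangent line of `ballF` only at its point of contact. -/
lemma ballF_eq_line {S v : ℝ} (hS : 0 < S) (hv : 0 ≤ v)
    (h : √π * v + 2 * S ^ 3 / 3 ≤ ballF v * S) : √π * v = 4 * S ^ 3 / 3 := by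
  have hx : 0 ≤ √π * v := by positivity
  set x := √π * v with hxdef
  have h3 : ballF v ^ 3 = 9 * π / 2 * v ^ 2 := Real.rpow_inv_natCast_pow (by positivity) (by norm_num)
  have h1 := pow_le_pow_left₀ (by positivity) h 3
  rw [mul_pow, h3] at h1
  have e : x ^ 2 = π * v ^ 2 := by rw [hxdef, mul_pow, Real.sq_sqrt Real.pi_pos.le]
  have h2 : (x - 4 * S ^ 3 / 3) ^ 2 * (x + S ^ 3 / 6) ≤ 0 := by
    have : (x - 4 * S ^ 3 / 3) ^ 2 * (x + S ^ 3 / 6) =
        (x + 2 * S ^ 3 / 3) ^ 3 - 9 / 2 * x ^ 2 * S ^ 3 := by ring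
    rw [this, e]
    linarith
  have h4 : 0 < x + S ^ 3 / 6 := by positivity
  have h5 : (x - 4 * S ^ 3 / 3) ^ 2 ≤ 0 := by
    by_contra hn
    nlinarith [mul_pos (lt_of_not_ge hn) h4]
  nlinarith [sq_nonneg (x - 4 * S ^ 3 / 3)]

/-- The case of slices starting from nothing. -/
lemma eq_zero_case {v p : ℝ} (hv : 0 < v) (hp : 0 < p)
    (h : √π * v + 2 / 3 * p ^ 3 ≤ min (ballF v) √(π * v) * p) : 3 * √π * v = 4 * p ^ 3 := by
  have h' : √π * v + 2 * p ^ 3 / 3 ≤ ballF v * p := by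
    have := mul_le_mul_of_nonneg_right (min_le_left (ballF v) √(π * v)) hp.le
    linarith
  linarith [ballF_eq_line hp hv.le h']

/-- Slack in the two inequalities for round slices, with up to two cuts. -/
lemma radB_gap {v p q k : ℝ} (hv : 0 < v) (hq : 0 ≤ q) (hqp : q ≤ p) (hp : 0 < p)
    (hball : p + q ≤ √π / 3 → 0 < q → 2 / 3 * (p + q) ^ 3 + k * (p + q) <
      √π * (p * q) + (2 / 3 * (p - q) ^ 3 + √π ^ 2 / 2 * (p - q) ^ 2 * q))
    (htube : √π / 3 ≤ p + q → 0 < q → p ≠ q → ∀ u, 2 * √π / 9 ≤ u →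
      √π * u * (p + q) + k * (p + q) <
      √π * (u ^ 2 + p * q) + (2 / 3 * (p - q) ^ 3 + √π ^ 2 / 2 * (p - q) ^ 2 * q))
    (hk : q = 0 → k = 0)
    (h : √π * (v + p * q) + (2 / 3 * (p - q) ^ 3 + √π ^ 2 / 2 * (p - q) ^ 2 * q) ≤
      (min (ballF v) √(π * v) + k) * (p + q)) :
    p = q ∨ q = 0 ∧ 3 * √π * v = 4 * p ^ 3 := by
  rcases hq.eq_or_lt with hq0 | hq0
  · subst hq0
    rw [hk rfl] at h
    refine Or.inr ⟨rfl, eq_zero_case hv hp ?_⟩
    simpa using h
  refine or_iff_not_imp_left.2 fun hne => absurd h (not_le.2 ?_)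
  have hS : 0 < p + q := by positivity
  have hpi : √π ^ 2 = π := Real.sq_sqrt Real.pi_pos.le
  rcases le_or_gt (p + q) (√π / 3) with c | c
  · have h1 := mul_le_mul_of_nonneg_right ((min_le_left (ballF v) √(π * v)).trans
      (ballF_le hS hv.le)) hS.le
    rw [div_mul_cancel₀ _ hS.ne'] at h1
    nlinarith [hball c hq0]
  rcases le_or_gt (4 * π / 81) v with cv | cv
  · have hu : 2 * √π / 9 ≤ √v := Real.le_sqrt_of_sq_le (by rw [div_pow, mul_pow, hpi]; linarith)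
    have h1 := htube c.le hq0 hne _ hu
    rw [Real.sq_sqrt hv.le] at h1
    have h2 := mul_le_mul_of_nonneg_right (min_le_right (ballF v) √(π * v)) hS.le
    rw [Real.sqrt_mul Real.pi_pos.le] at h2 ⊢
    nlinarith
  · have h1 := htube c.le hq0 hne _ le_rfl
    have h2 := mul_le_mul_of_nonneg_right ((min_le_left (ballF v) √(π * v)).trans
      (ballF_le_line hv.le)) hS.le
    have e : √π * (2 * √π / 9) = 2 * π / 9 := by linear_combination 2 / 9 * hpi
    have e2 : (2 * √π / 9) ^ 2 = 4 * π / 81 := by linear_combination 4 / 81 * hpi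
    rw [e, e2] at h1
    nlinarith [mul_nonneg (show 0 ≤ 3 * (p + q) - √π by linarith) (sub_nonneg.2 cv.le)]

/-- Strict form of `poly_tube'`. -/
lemma poly_tube_lt {s p q u : ℝ} (hs : 177245 / 100000 ≤ s) (hs' : s ≤ 177246 / 100000)
    (hq0 : 0 < q) (hne : p ≠ q) (hqp : q ≤ p) (hq' : q ≤ 1 / 13) (hS : s / 3 ≤ p + q)
    (hu : 2 * s / 9 ≤ u) :
    s * u * (p + q) + 2 * q ^ 2 * (p + q) <
      s * (u ^ 2 + p * q) + (2 / 3 * (p - q) ^ 3 + s ^ 2 / 2 * (p - q) ^ 2 * q) := by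
  have hs0 : 0 < s := by linarith
  have hq := hq0.le
  have hc : 0 ≤ s ^ 2 / 2 - 4 / 3 - 237 / 1000 := by nlinarith
  have hq1' := mul_nonneg (mul_nonneg (sq_nonneg (p - q)) hq) hc
  have hq1 := mul_pos (mul_pos (show 0 < (p - q) ^ 2 from by
    have : p - q ≠ 0 := sub_ne_zero.2 hne
    positivity) hq0) (show 0 < s ^ 2 / 2 - 4 / 3 - 237 / 1000 by nlinarith)
  set S := p + q with hSdef
  have hD : p - q = S - 2 * q := by ring
  have hD0 : 0 ≤ p - q := sub_nonneg.2 hqp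
  rcases le_or_gt (70 / 100) S with c' | c'
  · have h3 : 546 / 1000 ≤ p - q := by linarith
    have h4 : 2 * q ^ 2 * S ≤ (p - q) ^ 2 * (2 / 3 * S - s / 4 + 237 / 1000 * q) := by
      clear hq1 hne hq0
      nlinarith [mul_le_mul h3 h3 (by norm_num) hD0, mul_nonneg hq (sub_nonneg.2 hq'),
        mul_nonneg (mul_nonneg hq (sub_nonneg.2 hq')) (sub_nonneg.2 c'),
        mul_nonneg (sub_nonneg.2 c') (sub_nonneg.2 hq')]
    nlinarith [mul_nonneg hs0.le (sq_nonneg (u - S / 2))]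
  · have h1 : 0 ≤ 2 * s / 9 - S / 2 := by linarith
    have h5 : 2 * q ^ 2 * S ≤ s * (2 * s / 9 - S / 2) ^ 2
        + (p - q) ^ 2 * (2 / 3 * S - s / 4 + 237 / 1000 * q) := by
      clear hq1 hne hq0
      rw [hD]
      nlinarith [mul_nonneg (mul_nonneg hq hq) (sub_nonneg.2 hS), mul_nonneg hq (sub_nonneg.2 hq'),
        mul_nonneg (sq_nonneg (S - s / 3)) (show 0 ≤ S + 2 * s / 3 by linarith),
        mul_nonneg (mul_nonneg hq (sub_nonneg.2 hq')) (show 0 ≤ 70 / 100 - S by linarith),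
        sq_nonneg (S - s / 3 - q), sq_nonneg (S - s / 3 - 2 * q), mul_nonneg hq (sub_nonneg.2 hS)]
    nlinarith [mul_le_mul_of_nonneg_left (mul_self_le_mul_self h1 (show 2 * s / 9 - S / 2 ≤
        u - S / 2 by linarith)) hs0.le]

/-- Round slices give the smaller of ball and tube only when constant or for the ball. -/
theorem radB_eq {v f a : ℝ} (hf : 0 ≤ f) (hfv : f ≤ v) (hva : v ≤ a) (hv : 0 < v)
    (h : radB v f a ≤ min (ballF v) √(π * v)) : f = a ∨ f = 0 ∧ 3 * √π * v = 4 * √a ^ 3 := by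
  obtain ⟨hs, hs'⟩ := sqrt_pi_five
  have hs0 : 0 < √π := by linarith
  have h3 : 3 ≤ √π ^ 2 := by rw [Real.sq_sqrt Real.pi_pos.le]; linarith [Real.pi_gt_three]
  have ha : 0 < a := hv.trans_le hva
  have hp : 0 < √a := Real.sqrt_pos.2 ha
  have hqp : √f ≤ √a := Real.sqrt_le_sqrt (hfv.trans hva)
  have hS : 0 < √a + √f := by positivity
  rw [radB, div_le_iff₀ hS] at h
  refine (radB_gap (k := 0) hv (Real.sqrt_nonneg f) hqp hp ?_ ?_ (fun _ => rfl)
      (by rw [Real.sq_sqrt Real.pi_pos.le, add_zero]; exact h)).elim (fun e => Or.inl (by rw [← Real.sq_sqrt hf, ← e, Real.sq_sqrt ha.le]))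
    fun ⟨e, e'⟩ => Or.inr ⟨by rwa [Real.sqrt_eq_zero hf] at e, e'⟩
  · intro c h0
    nlinarith [mul_pos (mul_pos hp h0) (show 0 < √π / 4 - 2 / 3 * (√a + √f) by linarith),
      mul_nonneg (mul_nonneg (sq_nonneg (√a - √f)) h0.le) (show 0 ≤ √π ^ 2 / 2 - 4 / 3 by linarith)]
  · intro c h0 hne u hu
    have h1 := poly_tube (p := √a) (q := √f) hs0 h3 (by linarith) (le_refl (0 : ℝ) |>.trans
      (Real.sqrt_nonneg f)) hqp hu
    have hD : 0 < (√a - √f) ^ 2 := by
      have : √a - √f ≠ 0 := sub_ne_zero.2 hne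
      positivity
    rcases le_or_gt (√π / 4) (2 / 3 * (√a + √f)) with d | d
    · nlinarith [mul_nonneg hD.le (sub_nonneg.2 d), mul_nonneg hs0.le
        (sq_nonneg (u - (√a + √f) / 2)), mul_pos (mul_pos hD h0)
          (show 0 < √π ^ 2 / 2 - 4 / 3 by linarith)]
    · have k1 : 0 ≤ 2 * √π / 9 - (√a + √f) / 2 := by linarith
      have k2 : (√a - √f) ^ 2 ≤ (√a + √f) ^ 2 := by nlinarith
      nlinarith [mul_le_mul_of_nonneg_right k2 (show 0 ≤ √π / 4 - 2 / 3 * (√a + √f) by linarith),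
        mul_le_mul_of_nonneg_left (mul_self_le_mul_self k1 (show 2 * √π / 9 - (√a + √f) / 2 ≤
          u - (√a + √f) / 2 by linarith)) hs0.le,
        mul_nonneg (sq_nonneg (√a + √f - √π / 3)) (show 0 ≤ √a + √f + 2 * √π / 3 by linarith),
        mul_pos (mul_pos hD h0) (show 0 < √π ^ 2 / 2 - 4 / 3 by linarith)]

/-- With a small least slice there is strictly more room than two cuts. -/
theorem radB_eq_cut {v f a : ℝ} (hf : 0 ≤ f) (hfv : f ≤ v) (hva : v ≤ a) (hv : 0 < v)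
    (hf' : f ≤ 1 / 169) (h : radB v f a ≤ min (ballF v) √(π * v) + 2 * f) :
    f = a ∨ f = 0 ∧ 3 * √π * v = 4 * √a ^ 3 := by
  obtain ⟨hs, hs'⟩ := sqrt_pi_five
  have hs0 : 0 < √π := by linarith
  have ha : 0 < a := hv.trans_le hva
  have hp : 0 < √a := Real.sqrt_pos.2 ha
  have hqp : √f ≤ √a := Real.sqrt_le_sqrt (hfv.trans hva)
  have hS : 0 < √a + √f := by positivity
  have hq' : √f ≤ 1 / 13 := Real.sqrt_le_iff.2 ⟨by norm_num, by linarith⟩
  rw [radB, div_le_iff₀ hS] at h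
  refine (radB_gap (k := 2 * f) hv (Real.sqrt_nonneg f) hqp hp ?_ ?_
      (fun e => by rw [Real.sqrt_eq_zero hf] at e; simp [e])
      (by rw [Real.sq_sqrt Real.pi_pos.le]; exact h)).elim (fun e => Or.inl (by rw [← Real.sq_sqrt hf, ← e, Real.sq_sqrt ha.le]))
    fun ⟨e, e'⟩ => Or.inr ⟨by rwa [Real.sqrt_eq_zero hf] at e, e'⟩
  · intro c h0
    obtain ⟨q, hq, rfl⟩ : ∃ q, 0 ≤ q ∧ f = q ^ 2 := ⟨√f, Real.sqrt_nonneg f, (Real.sq_sqrt hf).symm⟩
    rw [Real.sqrt_sq hq] at *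
    set p := √a
    set s := √π
    have key : 0 < 4 * p * (s / 4 - 2 / 3 * (p + q)) + 2 / 10 * (p - q) ^ 2 - 2 * q * (p + q) := by
      nlinarith [mul_nonneg (show 0 ≤ p - q by linarith) (show 0 ≤ 1 / 13 - q by linarith),
        mul_nonneg hp.le (show 0 ≤ s / 3 - (p + q) by linarith),
        mul_nonneg hq (show 0 ≤ 1 / 13 - q by linarith), sq_nonneg (p - q)]
    nlinarith [mul_pos h0 key, mul_nonneg (mul_nonneg (sq_nonneg (p - q)) hq)
      (show 0 ≤ s ^ 2 / 2 - 4 / 3 - 2 / 10 by nlinarith)]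
  · intro c h0 hne u hu
    have h2 := poly_tube_lt hs hs' h0 hne hqp hq' c hu
    have e : 2 * f = 2 * √f ^ 2 := by rw [Real.sq_sqrt hf]
    rw [e]
    linarith

end

end Vale.Agent.P232.Rigid
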