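import Vale.Agent.P232.Rigid.CertStrict
import Vale.Agent.P232.Rigid.RadialEq

/-!
# P232: the limit of the slice data of a minimising sequence

In the limit some axis has constant slice area, or some axis runs from an empty to a full slice, or
all three axes have an empty slice and the greatest slice of the ball.
-/

namespace Vale.Agent.P232.Rigid

noncomputable section

open Real MeasureTheory Filter Topology Set

/-- Densities of volume `v` whose half total variation is at most `goalF v` in the limit. -/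
structure MinSeq (v : ℝ) (w : ℕ → ℝ × ℝ × ℝ → ℝ) : Prop where
  dens : ∀ n, Dens (w n)
  vol_eq : ∀ n, int3 (w n) = v
  err : Tendsto (fun n => int3 fun p => w n p * (1 - w n p)) atTop (𝓝 0)
  tv : ∀ δ : ℝ, 0 < δ → ∀ᶠ n in atTop, int3 (gnorm (w n)) / 2 ≤ goalF v + δ

lemma MinSeq.comp {v : ℝ} {w : ℕ → ℝ × ℝ × ℝ → ℝ} (h : MinSeq v w) {φ : ℕ → ℕ}
    (hφ : StrictMono φ) : MinSeq v (w ∘ φ) where
  dens n := h.dens _
  vol_eq n := h.vol_eq _
  err := h.err.comp hφ.tendsto_atTop
  tv δ hδ := hφ.tendsto_atTop.eventually (h.tv δ hδ)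

variable {v : ℝ} {w : ℕ → ℝ × ℝ × ℝ → ℝ} {f a : ℕ → Fin 3 → ℝ} {F A : Fin 3 → ℝ}

lemma MinSeq.err_small (h : MinSeq v w) (K : ℝ) {ε : ℝ} (hε : 0 < ε) :
    ∀ᶠ n in atTop, K * int3 (fun p => w n p * (1 - w n p)) < ε := by
  have := h.err.const_mul K
  rw [mul_zero] at this
  exact this.eventually (eventually_lt_nhds hε)

/-- The data of the three axes, with an error tending to zero. -/
lemma MinSeq.data (h : MinSeq v w) (hfa : ∀ n, IsExts (w n) (f n) (a n)) {L : ℝ} (hL : 0 ≤ L)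
    {δ : ℝ} (hδ : 0 < δ) : ∀ᶠ n in atTop, ∃ (P η : ℝ) (S : Fin 3 → ℝ),
      Data L v P η (f n) (a n) S ∧ 0 ≤ η ∧ P + η ≤ goalF v + δ ∧ P ≤ goalF v + δ := by
  obtain ⟨K, hK, hG⟩ := axisG_bounds (δ := δ / 6) (by linarith) hL
  filter_upwards [h.tv (δ / 6) (by linarith), h.err_small K (show 0 < δ / 6 by linarith)]
    with n h1 h2
  obtain ⟨S, hS⟩ := hG _ (h.dens n) _ _ (hfa n)
  have hE : 0 ≤ K * int3 (fun p => w n p * (1 - w n p)) := mul_nonneg hK (int3_nonneg fun p =>
    mul_nonneg ((h.dens n).mem p).1 (sub_nonneg.2 ((h.dens n).mem p).2))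
  rw [h.vol_eq] at hS
  exact ⟨_, _, S, hS, by linarith, by linarith, by linarith⟩

lemma MinSeq.ranges (h : MinSeq v w) (hfa : ∀ n, IsExts (w n) (f n) (a n))
    (hF : Tendsto f atTop (𝓝 F)) (hA : Tendsto a atTop (𝓝 A)) (i : Fin 3) :
    0 ≤ F i ∧ F i ≤ v ∧ v ≤ A i ∧ A i ≤ 1 := by
  obtain ⟨K, -, hG⟩ := axisG_bounds (δ := 1) one_pos le_rfl
  have hr : ∀ n, 0 ≤ f n i ∧ f n i ≤ v ∧ v ≤ a n i ∧ a n i ≤ 1 := fun n => by
    obtain ⟨S, hS⟩ := hG _ (h.dens n) _ _ (hfa n)
    rw [h.vol_eq] at hS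
    exact ⟨(hS.ax i).f_nonneg, (hS.ax i).f_le, (hS.ax i).le_a, (hS.ax i).a_le⟩
  exact ⟨ge_of_tendsto' (tendsto_pi_nhds.1 hF i) fun n => (hr n).1,
    le_of_tendsto' (tendsto_pi_nhds.1 hF i) fun n => (hr n).2.1,
    ge_of_tendsto' (tendsto_pi_nhds.1 hA i) fun n => (hr n).2.2.1,
    le_of_tendsto' (tendsto_pi_nhds.1 hA i) fun n => (hr n).2.2.2⟩

/-- A strict core statement puts the limit at a tube or a slab. -/
theorem strict_limit {L lo hi : ℝ} (hL : 0 ≤ L) (hW : StrictWindow L lo hi) (hv : v ∈ Icc lo hi)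
    (h : MinSeq v w) (hfa : ∀ n, IsExts (w n) (f n) (a n))
    (hF : Tendsto f atTop (𝓝 F)) (hA : Tendsto a atTop (𝓝 A)) :
    (∃ i, F i = A i) ∨ ∃ i, F i = 0 ∧ A i = 1 := by
  have hr := h.ranges hfa hF hA
  set g : (Fin 3 → ℝ) → (Fin 3 → ℝ) → ℝ := fun x y =>
    Finset.univ.inf' Finset.univ_nonempty fun i => min ((y i - x i) ^ 2) |x i + (1 - y i)| with hg
  have key : ∀ ε : ℝ, 0 < ε → ε < 1 / 10 ^ 9 →
      ∀ᶠ n in atTop, g (f n) (a n) ≤ 100000 * ε := by
    intro ε hε hε'
    obtain ⟨K, hK, hN⟩ := near_tube_strict (δ := ε) hε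
    filter_upwards [h.data hfa hL hε, h.tv ε hε, h.err_small K hε] with n hD h1 h2
    obtain ⟨P, η, S, hS, hη, hPη, -⟩ := hD
    rcases hW v P η (f n) (a n) S hv hη hS with c | ⟨c0, i, c⟩ | ⟨i, -, -, ha1, c⟩
    · linarith
    · refine (Finset.inf'_le _ (Finset.mem_univ i)).trans ((min_le_left _ _).trans ?_)
      have hw := h.dens n
      have hw0 := hw.smooth.continuous
      have hgn := Axis.continuous_gnorm hw
      have hFc : Continuous fun p => w n p * (1 - w n p) :=
        hw0.mul (continuous_const.sub hw0)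
      have step : ∀ u, Dens u → ∀ φ α, IsExt u φ α → α - φ ≤ 6 / 1000 → int3 u = v →
          int3 (gnorm u) = int3 (gnorm (w n)) →
          int3 (fun p => u p * (1 - u p)) = int3 (fun p => w n p * (1 - w n p)) →
          (α - φ) ^ 2 ≤ 100000 * ε := by
        rintro u hu φ α ⟨⟨t₀, e0, g0⟩, t₁, e1, g1⟩ hd ev eg eE
        have := hN u hu t₀ t₁ (fun t => e0 ▸ g0 t) (fun t => e1 ▸ g1 t) (by rw [ev]; exact c0.1)
          (by rw [ev]; exact c0.2) (by rw [e0, e1]; exact hd)
        rw [ev, eg, eE, e0, e1] at this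
        have hgm : goalF v ≤ min 1 √(π * v) :=
          le_min (min_le_right _ _) ((min_le_left _ _).trans (min_le_right _ _))
        linarith
      obtain ⟨x₀, x₁, x₂⟩ := hfa n
      fin_cases i
      · exact step _ hw _ _ x₀ c (h.vol_eq n) rfl rfl
      · refine step _ (Axis.dens_comp hw Axis.swap₂ fun e he => ?_) _ _ x₁ c
          ((Axis.int3_swap₂ hw0).trans (h.vol_eq n)) ?_ (Axis.int3_swap₂ hFc)
        · rcases he with rfl | rfl | rfl <;> simp [Axis.swap₂_apply, e₁, e₂, e₃]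
        · rw [show gnorm (fun p => w n (Axis.swap₂ p)) = fun p => gnorm (w n) (Axis.swap₂ p) from
            funext fun p => by
              rw [Axis.gnorm_comp hw, gnorm]; simp only [Axis.swap₂_apply, e₁, e₂, e₃]; ring_nf]
          exact Axis.int3_swap₂ hgn
      · refine step _ (Axis.dens_comp hw Axis.cyc₃ fun e he => ?_) _ _ x₂ c
          ((Axis.int3_cyc₃ hw0).trans (h.vol_eq n)) ?_ (Axis.int3_cyc₃ hFc)
        · rcases he with rfl | rfl | rfl <;> simp [Axis.cyc₃_apply, e₁, e₂, e₃]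
        · rw [show gnorm (fun p => w n (Axis.cyc₃ p)) = fun p => gnorm (w n) (Axis.cyc₃ p) from
            funext fun p => by
              rw [Axis.gnorm_comp hw, gnorm]; simp only [Axis.cyc₃_apply, e₁, e₂, e₃]; ring_nf]
          exact Axis.int3_cyc₃ hgn
    · refine (Finset.inf'_le _ (Finset.mem_univ i)).trans ((min_le_right _ _).trans ?_)
      rw [abs_of_nonneg (by linarith [(hS.ax i).f_nonneg])]
      linarith
  have hgc : Tendsto (fun n => g (f n) (a n)) atTop (𝓝 (g F A)) := by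
    rw [hg]
    refine Filter.Tendsto.finset_inf'_nhds_apply _ fun i _ => ?_
    exact (((tendsto_pi_nhds.1 hA i).sub (tendsto_pi_nhds.1 hF i)).pow 2).min
      (((tendsto_pi_nhds.1 hF i).add (tendsto_const_nhds.sub (tendsto_pi_nhds.1 hA i))).abs)
  have h0 : g F A ≤ 0 := by
    refine le_of_forall_pos_le_add fun ε hε => ?_
    have hε' : 0 < min (ε / 100000) (1 / 10 ^ 10) := lt_min (by linarith) (by norm_num)
    have := le_of_tendsto hgc (key _ hε' ((min_le_right _ _).trans_lt (by norm_num)))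
    linarith [min_le_left (ε / 100000) (1 / 10 ^ 10)]
  rw [hg, Finset.inf'_le_iff] at h0
  obtain ⟨i, -, hi⟩ := h0
  rcases min_le_iff.1 hi with e | e
  · refine Or.inl ⟨i, ?_⟩
    have := sq_eq_zero_iff.1 (le_antisymm e (sq_nonneg _))
    linarith
  · refine Or.inr ⟨i, ?_⟩
    have := abs_nonpos_iff.1 e
    obtain ⟨r0, -, -, r1⟩ := hr i
    constructor <;> linarith

/-- Below the tube threshold the limit is a tube or has the data of the ball. -/
theorem tube_limit (hv0 : 0 < v) (hv : v ≤ 264 / 1000) (h : MinSeq v w)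
    (hfa : ∀ n, IsExts (w n) (f n) (a n))
    (hF : Tendsto f atTop (𝓝 F)) (hA : Tendsto a atTop (𝓝 A)) :
    (∃ i, F i = A i) ∨ ∀ i, F i = 0 ∧ 3 * √π * v = 4 * √(A i) ^ 3 := by
  have hr := h.ranges hfa hF hA
  set m := min (ballF v) √(π * v) with hm
  have hgm : goalF v ≤ m := min_le_left _ _
  have hA0 : ∀ i, 0 < A i := fun i => hv0.trans_le (hr i).2.2.1
  have hcont : ∀ i, Tendsto (fun n => radB v (f n i) (a n i)) atTop (𝓝 (radB v (F i) (A i))) :=
    fun i => by
      have h1 := (tendsto_pi_nhds.1 hF i).sqrt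
      have h2 := (tendsto_pi_nhds.1 hA i).sqrt
      unfold radB
      exact ((((tendsto_const_nhds.add (h2.mul h1)).const_mul √π)).add
        ((((h2.sub h1).pow 3).const_mul (2 / 3)).add
          ((((h2.sub h1).pow 2).const_mul (π / 2)).mul h1))).div (h2.add h1)
          (add_pos_of_pos_of_nonneg (Real.sqrt_pos.2 (hA0 i)) (Real.sqrt_nonneg _)).ne'
  -- two cuts
  have hcut : ∀ i, radB v (F i) (A i) ≤ m + (F (i + 1) + F (i + 2)) := fun i => by
    refine le_of_forall_pos_le_add fun ε hε => ?_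
    refine le_of_tendsto_of_tendsto (hcont i)
      ((((tendsto_pi_nhds.1 hF (i + 1)).add (tendsto_pi_nhds.1 hF (i + 2))).const_add m).add_const ε)
      ?_
    filter_upwards [h.data hfa le_rfl hε] with n hD
    obtain ⟨P, η, S, hS, -, -, hP⟩ := hD
    have hx := hS.ax i
    have := radB_le hx.f_nonneg hx.f_le hx.le_a (hv0.trans_le hx.le_a) hx.round
    linarith
  -- no cut needed for a large least slice
  have hbig : ∀ i, 59171 / 10000000 < F i → radB v (F i) (A i) ≤ m := fun i hi => by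
    refine le_of_forall_pos_le_add fun ε hε => ?_
    refine le_of_tendsto (hcont i) ?_
    have hε' : 0 < min ε (1 / 10 ^ 8) := lt_min hε (by norm_num)
    filter_upwards [h.data hfa le_rfl hε',
      (tendsto_pi_nhds.1 hF i).eventually (eventually_gt_nhds hi)] with n hD hn
    obtain ⟨P, η, S, hS, -, -, hP⟩ := hD
    have hx := hS.ax i
    rcases le_or_gt (a n i) (1 / π) with c | c
    · have := radB_le hx.f_nonneg hx.f_le hx.le_a (hv0.trans_le hx.le_a)
        (low_round_of_gfun hx.f_nonneg c hx.base)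
      linarith [min_le_left ε (1 / 10 ^ 8)]
    · have := tube_certS hn.le hx.f_le hx.le_a hv c.le hx.a_le hx.base
      linarith [min_le_right ε (1 / 10 ^ 8)]
  obtain ⟨i, -, hi⟩ := Finset.exists_max_image Finset.univ F Finset.univ_nonempty
  obtain ⟨h0, h1, h2, -⟩ := hr i
  rcases le_or_gt (F i) (1 / 169) with c | c
  · rcases radB_eq_cut h0 h1 h2 hv0 c ((hcut i).trans (by
      linarith [hi (i + 1) (Finset.mem_univ _), hi (i + 2) (Finset.mem_univ _)])) with e | ⟨e, -⟩
    · exact Or.inl ⟨i, e⟩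
    refine Or.inr fun j => ?_
    have hz : ∀ k, F k = 0 := fun k =>
      le_antisymm (e ▸ hi k (Finset.mem_univ _)) (hr k).1
    refine ⟨hz j, ?_⟩
    have hb := hcut j
    rw [hz (j + 1), hz (j + 2), add_zero, add_zero] at hb
    rcases radB_eq (hr j).1 (hr j).2.1 (hr j).2.2.1 hv0 hb with e' | ⟨-, e'⟩
    · linarith [hz j, hA0 j]
    · exact e'
  · rcases radB_eq h0 h1 h2 hv0 (hbig i (by linarith)) with e | ⟨e, -⟩
    · exact Or.inl ⟨i, e⟩
    · linarith

end

end Vale.Agent.P232.Rigid
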