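import Vale.Agent.P232.Rigid.Seq

/-!
# P232: densities with little variation in some directions

Poincaré's inequality on lines, and the smallness of some directional derivatives when the others
carry all the variation.
-/

namespace Vale.Agent.P232.Rigid

noncomputable section

open MeasureTheory Set Filter Topology Approx

/-! ### Integrals over the cube -/

lemma continuous_slice {F : ℝ × ℝ × ℝ → ℝ} (hF : Continuous F) (t : ℝ) :
    Continuous fun q : ℝ × ℝ => F (t, q) := hF.comp (continuous_const.prodMk continuous_id)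

lemma int3_mono {F G : ℝ × ℝ × ℝ → ℝ} (hF : Continuous F) (hG : Continuous G)
    (h : ∀ p, F p ≤ G p) : int3 F ≤ int3 G :=
  intervalIntegral.integral_mono_on zero_le_one ((Axis.continuous_sec hF).intervalIntegrable _ _)
    ((Axis.continuous_sec hG).intervalIntegrable _ _) fun t _ =>
      Axis.area2_mono (continuous_slice hF t) (continuous_slice hG t) fun q => h _

lemma int3_add {F G : ℝ × ℝ × ℝ → ℝ} (hF : Continuous F) (hG : Continuous G) :
    int3 (fun p => F p + G p) = int3 F + int3 G := by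
  rw [Axis.int3_eq, Axis.int3_eq, Axis.int3_eq, ← intervalIntegral.integral_add
    ((Axis.continuous_sec hF).intervalIntegrable _ _) ((Axis.continuous_sec hG).intervalIntegrable _ _)]
  exact intervalIntegral.integral_congr fun t _ =>
    Axis.area2_add (continuous_slice hF t) (continuous_slice hG t)

lemma int3_const_mul (c : ℝ) (F : ℝ × ℝ × ℝ → ℝ) : int3 (fun p => c * F p) = c * int3 F := by
  simp only [int3, intervalIntegral.integral_const_mul]

lemma abs_area2_le {F : ℝ × ℝ → ℝ} (hF : Continuous F) : |area2 F| ≤ area2 fun q => |F q| := by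
  have h1 := Axis.area2_mono hF hF.abs fun q => le_abs_self _
  have h2 := Axis.area2_mono (F := fun q => (-1) * F q) (G := fun q => |F q|)
    (continuous_const.mul hF) hF.abs fun q => by rw [neg_one_mul]; exact neg_le_abs _
  rw [Axis.area2_const_mul] at h2
  exact abs_le.2 ⟨by linarith, h1⟩

lemma bd_dist {F G : ℝ × ℝ × ℝ → ℝ} (hF : Bd F) (hG : Bd G) : Bd fun p => |F p - G p| := by
  obtain ⟨C, hC⟩ := hF.2
  obtain ⟨D, hD⟩ := hG.2
  exact ⟨(hF.1.sub hG.1).abs, C + D, fun p => by
    rw [abs_abs]; exact (abs_sub _ _).trans (add_le_add (hC p) (hD p))⟩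

lemma Bd.integrable_cube {F : ℝ × ℝ × ℝ → ℝ} (hF : Bd F) : IntegrableOn F cube :=
  hF.integrableOn (by rw [volume_cube]; exact ENNReal.one_lt_top)

lemma dist_triangle {F G H : ℝ × ℝ × ℝ → ℝ} (hF : Bd F) (hG : Bd G) (hH : Bd H) :
    ∫ p in cube, |F p - H p| ≤ (∫ p in cube, |F p - G p|) + ∫ p in cube, |G p - H p| := by
  rw [← integral_add (Bd.integrable_cube (bd_dist hF hG)) (Bd.integrable_cube (bd_dist hG hH))]
  exact integral_mono (Bd.integrable_cube (bd_dist hF hH))
    ((Bd.integrable_cube (bd_dist hF hG)).add (Bd.integrable_cube (bd_dist hG hH)))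
    fun p => abs_sub_le _ _ _

/-- Two functions at vanishing distance agree. -/
lemma ae_eq_of_dist {F G : ℝ × ℝ × ℝ → ℝ} (hF : Bd F) (hG : Bd G) {e : ℕ → ℝ}
    (h : ∀ n, ∫ p in cube, |F p - G p| ≤ e n) (he : Tendsto e atTop (𝓝 0)) :
    F =ᵐ[volume.restrict cube] G := by
  have h0 : ∫ p in cube, |F p - G p| = 0 :=
    le_antisymm (ge_of_tendsto' he h) (integral_nonneg fun p => abs_nonneg _)
  filter_upwards [(integral_eq_zero_iff_of_nonneg (fun p => abs_nonneg _)
    (Bd.integrable_cube (bd_dist hF hG))).1 h0] with p hp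
  simpa [sub_eq_zero] using hp

lemma bd_dens {w : ℝ × ℝ × ℝ → ℝ} (hw : Dens w) : Bd w := bd_of_per hw.smooth.continuous hw.per

/-! ### Derivatives -/

lemma continuous_gn {w : ℝ × ℝ × ℝ → ℝ} (hw : Dens w) : Continuous (gnorm w) :=
  ((((Axis.continuous_dir hw e₁).pow 2).add ((Axis.continuous_dir hw e₂).pow 2)).add
    ((Axis.continuous_dir hw e₃).pow 2)).sqrt

lemma gnorm_sq (w : ℝ × ℝ × ℝ → ℝ) (p : ℝ × ℝ × ℝ) : gnorm w p ^ 2 =
    fderiv ℝ w p e₁ ^ 2 + fderiv ℝ w p e₂ ^ 2 + fderiv ℝ w p e₃ ^ 2 :=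
  Real.sq_sqrt (by positivity)

lemma fderiv_sec {w : ℝ × ℝ × ℝ → ℝ} (hw : Dens w) (t : ℝ) (q v : ℝ × ℝ) :
    fderiv ℝ (Axis.sec w t) q v = fderiv ℝ w (t, q) (0, v) := by
  have hf : HasFDerivAt (Axis.sec w t)
      ((fderiv ℝ w (t, q)).comp (ContinuousLinearMap.inr ℝ ℝ (ℝ × ℝ))) q :=
    (hw.smooth.differentiable two_ne_zero (t, q)).hasFDerivAt.comp q
      ((hasFDerivAt_const t q).prodMk (hasFDerivAt_id q))
  rw [hf.fderiv]
  rfl

/-- When `d² + G² = g²` and `G` is nearly `g`, then `d` is small. -/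
lemma le_amgm {d G g e : ℝ} (he : 0 < e) (hG : 0 ≤ G) (hg : 0 ≤ g) (h : d ^ 2 + G ^ 2 = g ^ 2) :
    |d| ≤ e * g + (g - G) / (2 * e) := by
  have hGg : G ≤ g := by nlinarith [sq_nonneg d, sq_nonneg (g - G)]
  have h2 : |d| ^ 2 ≤ 2 * g * (g - G) := by rw [sq_abs]; nlinarith
  have e2 : (g - G) = 2 * e * ((g - G) / (2 * e)) := by field_simp
  have hx : 0 ≤ (g - G) / (2 * e) := div_nonneg (by linarith) (by linarith)
  refine abs_le_of_sq_le_sq (by nlinarith [sq_nonneg (e * g - (g - G) / (2 * e))]) ?_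
  positivity

/-- If `G` carries all the variation in the limit, `d` vanishes in mean. -/
lemma tendsto_gap {w : ℕ → ℝ × ℝ × ℝ → ℝ} (hw : ∀ n, Dens (w n)) {d G : ℕ → ℝ × ℝ × ℝ → ℝ}
    (hd : ∀ n, Continuous (d n)) (hG : ∀ n, Continuous (G n)) (hG0 : ∀ n p, 0 ≤ G n p)
    (h : ∀ n p, d n p ^ 2 + G n p ^ 2 = gnorm (w n) p ^ 2) {M : ℝ}
    (hM : ∀ᶠ n in atTop, int3 (gnorm (w n)) ≤ M)
    (hgap : ∀ δ : ℝ, 0 < δ → ∀ᶠ n in atTop, int3 (gnorm (w n)) ≤ int3 (G n) + δ) :
    Tendsto (fun n => int3 fun p => |d n p|) atTop (𝓝 0) := by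
  refine tendsto_order.2 ⟨fun b hb => Eventually.of_forall fun n =>
    hb.trans_le (int3_nonneg fun p => abs_nonneg _), fun b hb => ?_⟩
  set e := b / (4 * (|M| + 1)) with he'
  have he : 0 < e := by positivity
  filter_upwards [hM, hgap (e * b / 4) (by positivity)] with n h1 h2
  have hg := continuous_gn (hw n)
  have key : int3 (fun p => |d n p|) ≤
      int3 fun p => (e + 1 / (2 * e)) * gnorm (w n) p + -(1 / (2 * e)) * G n p :=
    int3_mono (hd n).abs ((continuous_const.mul hg).add (continuous_const.mul (hG n))) fun p => by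
      refine (le_amgm (g := gnorm (w n) p) he (hG0 n p) (Real.sqrt_nonneg _) (h n p)).trans_eq ?_
      ring
  rw [int3_add (F := fun p => (e + 1 / (2 * e)) * gnorm (w n) p)
      (G := fun p => -(1 / (2 * e)) * G n p) (continuous_const.mul hg) (continuous_const.mul (hG n)),
    int3_const_mul, int3_const_mul] at key
  have h3 : e * int3 (gnorm (w n)) ≤ b / 4 := by
    have h' : e * (|M| + 1) = b / 4 := by rw [he']; field_simp
    nlinarith [le_abs_self M]
  have h4 : 1 / (2 * e) * (int3 (gnorm (w n)) - int3 (G n)) ≤ b / 8 := by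
    rw [div_mul_eq_mul_div, one_mul, div_le_iff₀ (by linarith)]
    linarith
  linarith

/-- A periodic function is within the total variation of its mean. -/
lemma line_mean {g : ℝ → ℝ} (hg : ContDiff ℝ 1 g) (hp : Function.Periodic g 1) (x : ℝ) :
    |g x - ∫ z in (0 : ℝ)..1, g z| ≤ ∫ z in (0 : ℝ)..1, |deriv g z| := by
  set T := ∫ z in (0 : ℝ)..1, |deriv g z|
  have hT : 0 ≤ T := intervalIntegral.integral_nonneg zero_le_one fun z _ => abs_nonneg _
  have hc := hg.continuous.intervalIntegrable (μ := volume) 0 1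
  have h1 := intervalIntegral.integral_mono_on zero_le_one
    (intervalIntegrable_const (c := g x - T)) hc fun z _ => by linarith [line_osc hg hp z x]
  have h2 := intervalIntegral.integral_mono_on zero_le_one hc
    (intervalIntegrable_const (c := g x + T)) fun z _ => by linarith [line_osc hg hp x z]
  simp only [intervalIntegral.integral_const, sub_zero, one_smul] at h1 h2
  exact abs_le.2 ⟨by linarith, by linarith⟩

variable {w : ℝ × ℝ × ℝ → ℝ}

/-- The lines of the first axis. -/
lemma line_mean₁ (hw : Dens w) (t : ℝ) (q : ℝ × ℝ) :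
    |w (t, q) - ∫ s in (0 : ℝ)..1, w (s, q)| ≤ ∫ s in (0 : ℝ)..1, |fderiv ℝ w (s, q) e₁| := by
  have hd : ∀ s, deriv (fun s => w (s, q)) s = fderiv ℝ w (s, q) e₁ := fun s =>
    ((hw.smooth.differentiable two_ne_zero (s, q)).hasFDerivAt.comp_hasDerivAt s
      ((hasDerivAt_id s).prodMk (hasDerivAt_const s q))).deriv
  simpa only [hd] using line_mean (g := fun s => w (s, q))
    ((hw.smooth.of_le one_le_two).comp (contDiff_id.prodMk contDiff_const))
    (per_fst hw.per q.1 q.2) t

/-- The lines of the second axis. -/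
lemma line_mean₂ (hw : Dens w) (t y z : ℝ) :
    |w (t, y, z) - ∫ s in (0 : ℝ)..1, w (t, s, z)| ≤
      ∫ s in (0 : ℝ)..1, |fderiv ℝ w (t, s, z) e₂| := by
  have hd : ∀ s, deriv (fun s => w (t, s, z)) s = fderiv ℝ w (t, s, z) e₂ := fun s =>
    ((hw.smooth.differentiable two_ne_zero (t, s, z)).hasFDerivAt.comp_hasDerivAt s
      ((hasDerivAt_const s t).prodMk ((hasDerivAt_id s).prodMk (hasDerivAt_const s z)))).deriv
  simpa only [hd] using line_mean (g := fun s => w (t, s, z))
    ((hw.smooth.of_le one_le_two).comp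
      (contDiff_const.prodMk (contDiff_id.prodMk contDiff_const)))
    (per_snd hw.per t z) y

/-- The lines of the third axis. -/
lemma line_mean₃ (hw : Dens w) (t y z : ℝ) :
    |w (t, y, z) - ∫ s in (0 : ℝ)..1, w (t, y, s)| ≤
      ∫ s in (0 : ℝ)..1, |fderiv ℝ w (t, y, s) e₃| := by
  have hd : ∀ s, deriv (fun s => w (t, y, s)) s = fderiv ℝ w (t, y, s) e₃ := fun s =>
    ((hw.smooth.differentiable two_ne_zero (t, y, s)).hasFDerivAt.comp_hasDerivAt s
      ((hasDerivAt_const s t).prodMk ((hasDerivAt_const s y).prodMk (hasDerivAt_id s)))).deriv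
  simpa only [hd] using line_mean (g := fun s => w (t, y, s))
    ((hw.smooth.of_le one_le_two).comp
      (contDiff_const.prodMk (contDiff_const.prodMk contDiff_id)))
    (per_thd hw.per t y) z

/-- A density is within the variation along the slices of their areas. -/
lemma int3_sub_secA_le (hw : Dens w) : (int3 fun p => |w p - Axis.secA w p.1|) ≤
    2 * int3 fun p => √(fderiv ℝ w p e₂ ^ 2 + fderiv ℝ w p e₃ ^ 2) := by
  have hw0 := hw.smooth.continuous
  have h2 := Axis.continuous_dir hw e₂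
  have h3 := Axis.continuous_dir hw e₃
  set d : ℝ × ℝ × ℝ → ℝ := fun p => √(fderiv ℝ w p e₂ ^ 2 + fderiv ℝ w p e₃ ^ 2)
  have hd : Continuous d := ((h2.pow 2).add (h3.pow 2)).sqrt
  have hA : Continuous fun p : ℝ × ℝ × ℝ => |w p - Axis.secA w p.1| :=
    (hw0.sub ((Axis.continuous_secA hw).comp continuous_fst)).abs
  rw [← int3_const_mul, Axis.int3_eq, Axis.int3_eq]
  refine intervalIntegral.integral_mono_on zero_le_one
    ((Axis.continuous_sec hA).intervalIntegrable _ _)
    ((Axis.continuous_sec (continuous_const.mul hd : Continuous fun p => 2 * d p)).intervalIntegrable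
      _ _) fun t _ => ?_
  have c2 : Continuous fun q : ℝ × ℝ => |fderiv ℝ w (t, q) e₂| := (continuous_slice h2 t).abs
  have c3 : Continuous fun q : ℝ × ℝ => |fderiv ℝ w (t, q) e₃| := (continuous_slice h3 t).abs
  have hin : Continuous fun y => ∫ z in (0 : ℝ)..1, |fderiv ℝ w (t, y, z) e₃| :=
    Axis.continuous_inner c3
  have hpt : ∀ q : ℝ × ℝ, |w (t, q) - Axis.secA w t| ≤
      (∫ z in (0 : ℝ)..1, |fderiv ℝ w (t, q.1, z) e₃|) + area2 fun q => |fderiv ℝ w (t, q) e₂| := by
    rintro ⟨y, z⟩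
    refine (abs_sub_le _ (∫ s in (0 : ℝ)..1, w (t, y, s)) _).trans
      (add_le_add (line_mean₃ hw t y z) ?_)
    have cs : Continuous fun p : ℝ × ℝ => w (t, p.2, p.1) := hw0.comp (by fun_prop)
    have i1 : IntervalIntegrable (fun s => w (t, y, s)) volume 0 1 :=
      (hw0.comp (by fun_prop : Continuous fun s : ℝ => (t, y, s))).intervalIntegrable _ _
    have i2 : IntervalIntegrable (fun s => ∫ u in (0 : ℝ)..1, w (t, u, s)) volume 0 1 :=
      (Axis.continuous_inner cs).intervalIntegrable _ _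
    rw [show Axis.secA w t = ∫ s in (0 : ℝ)..1, ∫ u in (0 : ℝ)..1, w (t, u, s) from
      (Axis.integral_swap (G := fun p : ℝ × ℝ => w (t, p)) (continuous_slice hw0 t) 0 1 zero_le_one),
      ← intervalIntegral.integral_sub i1 i2,
      show area2 (fun q => |fderiv ℝ w (t, q) e₂|) =
        ∫ s in (0 : ℝ)..1, ∫ u in (0 : ℝ)..1, |fderiv ℝ w (t, u, s) e₂| from
      Axis.integral_swap c2 0 1 zero_le_one]
    exact (intervalIntegral.abs_integral_le_integral_abs zero_le_one).trans
      (intervalIntegral.integral_mono_on zero_le_one (i1.sub i2).abs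
        ((Axis.continuous_inner (F := fun p => |fderiv ℝ w (t, p.2, p.1) e₂|)
          (c2.comp continuous_swap)).intervalIntegrable _ _) fun s _ => line_mean₂ hw t y s)
  refine (Axis.area2_mono (G := fun q : ℝ × ℝ => (∫ z in (0 : ℝ)..1, |fderiv ℝ w (t, q.1, z) e₃|)
      + area2 fun q => |fderiv ℝ w (t, q) e₂|) (continuous_slice hA t)
    ((hin.comp continuous_fst).add continuous_const) hpt).trans ?_
  rw [Axis.area2_add (F := fun q : ℝ × ℝ => ∫ z in (0 : ℝ)..1, |fderiv ℝ w (t, q.1, z) e₃|)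
      (G := fun _ => area2 fun q => |fderiv ℝ w (t, q) e₂|) (hin.comp continuous_fst)
      continuous_const, area2_const, Axis.area2_const_mul, two_mul,
    show area2 (fun q : ℝ × ℝ => ∫ z in (0 : ℝ)..1, |fderiv ℝ w (t, q.1, z) e₃|) =
      area2 fun q => |fderiv ℝ w (t, q) e₃| by simp [area2]]
  refine add_le_add
    (Axis.area2_mono c3 (continuous_slice hd t) fun q => Real.le_sqrt_of_sq_le ?_)
    (Axis.area2_mono c2 (continuous_slice hd t) fun q => Real.le_sqrt_of_sq_le ?_) <;>
  · rw [sq_abs]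
    linarith [sq_nonneg (fderiv ℝ w (t, q) e₂), sq_nonneg (fderiv ℝ w (t, q) e₃)]

end

end Vale.Agent.P232.Rigid
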