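import Vale.Agent.P232.Rigid.Classify
import Vale.Agent.P232.GapSlab.Profile

/-! # P232: profile and minimisers outside the tube part of the middle window -/

namespace Vale.Agent.P232.Rigid

noncomputable section

open MeasureTheory

theorem outside {V : ℝ} (h0 : 0 ≤ V) (h1 : V ≤ 1)
    (hV : min V (1 - V) ≤ 263 / 1000 ∨ 323 / 1000 < min V (1 - V)) :
    profile V = ENNReal.ofReal (J V) ∧
      ∀ E : Set (ℝ × ℝ × ℝ), MeasurableSet E → PerSet E → vol E = V → 0 < V → V < 1 →
        perim E = profile V → IsStandard E ∨ IsStandard Eᶜ := by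
  have hp := profile_eq_slab h0 h1 hV
  refine ⟨hp, fun E hm hE he p0 p1 hmin => ?_⟩
  subst he
  refine classify hm hE (fun c c' => ?_) p0 p1 (le_of_eq (hmin.trans hp))
  rcases hV with h | h <;> linarith

end

end Vale.Agent.P232.Rigid
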