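import Vale.Agent.P232.Rigid.Shapes
import Vale.Agent.P232.Window

/-! # P232: approximating sequences of sets -/

namespace Vale.Agent.P232.Rigid

noncomputable section

open MeasureTheory Set Filter Topology Approx Axis

/-- Smooth densities converging to the indicator of `E`, with total variation at most the perimeter
in the limit. -/
structure Appr (E : Set (ℝ × ℝ × ℝ)) (w : ℕ → ℝ × ℝ × ℝ → ℝ) : Prop where
  dens : ∀ n, Dens (w n)
  vol_tendsto : Tendsto (fun n => int3 (w n)) atTop (𝓝 (vol E))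
  err : Tendsto (fun n => int3 fun p => w n p * (1 - w n p)) atTop (𝓝 0)
  conv : Tendsto (fun n => ∫ p in cube, |w n p - Approx.chi E p|) atTop (𝓝 0)
  tv : ∀ δ : ℝ, 0 < δ → ∀ᶠ n in atTop, int3 (gnorm (w n)) / 2 ≤ (perim E).toReal / 2 + δ

/-- Planar densities converging to the indicator of `S`, with half total variation at most `P` in
the limit. -/
structure Appr2 (S : Set (ℝ × ℝ)) (m : ℕ → ℝ × ℝ → ℝ) (P : ℝ) : Prop where
  dens : ∀ n, Dens2 (m n)
  area_tendsto : Tendsto (fun n => area2 (m n)) atTop (𝓝 (vol2 S))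
  err : Tendsto (fun n => area2 fun p => m n p * (1 - m n p)) atTop (𝓝 0)
  conv : Tendsto (fun n => ∫ p in square, |m n p - chi2 S p|) atTop (𝓝 0)
  tv : ∀ δ : ℝ, 0 < δ → ∀ᶠ n in atTop, tv2 (m n) / 2 ≤ P + δ

/-- Every set of finite perimeter has an approximating sequence. -/
theorem exists_appr {E : Set (ℝ × ℝ × ℝ)} (hm : MeasurableSet E) (hE : PerSet E)
    (hP : perim E ≠ ⊤) : ∃ w, Appr E w := by
  choose w hw h1 h2 h3 h4 using fun n : ℕ =>
    exists_dens_L1 hm hE hP (show (0 : ℝ) < 1 / ((n : ℝ) + 1) by positivity)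
  refine ⟨w, hw, ?_, ?_, ?_, fun δ hδ => ?_⟩
  · simp only [h2]; exact tendsto_const_nhds
  · exact squeeze_zero (fun n => int3_nonneg fun p =>
      mul_nonneg ((hw n).mem p).1 (sub_nonneg.2 ((hw n).mem p).2)) h3
      tendsto_one_div_add_atTop_nhds_zero_nat
  · exact squeeze_zero (fun n => integral_nonneg fun p => abs_nonneg _) h4
      tendsto_one_div_add_atTop_nhds_zero_nat
  · filter_upwards [(tendsto_order.1 tendsto_one_div_add_atTop_nhds_zero_nat).2 δ hδ] with n hn
    linarith [h1 n]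

/-! ### Slices -/

lemma measurable_line {F : ℝ × ℝ × ℝ → ℝ} (hF : Measurable F) :
    Measurable fun q : ℝ × ℝ => ∫ z in (0 : ℝ)..1, F (q.1, q.2, z) := by
  simp only [intervalIntegral.integral_of_le zero_le_one]
  exact (hF.comp (measurable_fst.fst.prodMk (measurable_fst.snd.prodMk measurable_snd)) :
    Measurable fun z : (ℝ × ℝ) × ℝ => F (z.1.1, z.1.2, z.2)).stronglyMeasurable
      |>.integral_prod_right' (ν := volume.restrict (Set.Ioc (0 : ℝ) 1)) |>.measurable

lemma measurable_secA {F : ℝ × ℝ × ℝ → ℝ} (hF : Measurable F) : Measurable (secA F) := by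
  show Measurable fun t => ∫ y in (0 : ℝ)..1, ∫ z in (0 : ℝ)..1, F (t, y, z)
  have h := measurable_line hF
  simp only [intervalIntegral.integral_of_le zero_le_one] at h ⊢
  exact h.stronglyMeasurable.integral_prod_right'
    (ν := volume.restrict (Set.Ioc (0 : ℝ) 1)) |>.measurable

lemma intervalIntegrable_of_bound {g : ℝ → ℝ} (hg : Measurable g) {C : ℝ} (h : ∀ x, |g x| ≤ C)
    (a b : ℝ) : IntervalIntegrable g volume a b :=
  intervalIntegrable_const.mono_fun' (g := fun _ => C) hg.aestronglyMeasurable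
    (Eventually.of_forall fun x => by simpa using h x)

lemma abs_int01_le {g : ℝ → ℝ} {C : ℝ} (h : ∀ x, |g x| ≤ C) : |∫ x in (0 : ℝ)..1, g x| ≤ C := by
  have := intervalIntegral.norm_integral_le_of_norm_le_const (f := g) (C := C) (a := (0 : ℝ))
    (b := 1) fun x _ => by simpa using h x
  simpa using this

lemma abs_secA_sub_le {F G : ℝ × ℝ × ℝ → ℝ} (hF : Bd F) (hG : Bd G) (t : ℝ) :
    |secA F t - secA G t| ≤ secA (fun p => |F p - G p|) t := by
  obtain ⟨C, hC⟩ := hF.2
  obtain ⟨D, hD⟩ := hG.2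
  have hz : ∀ {H : ℝ × ℝ × ℝ → ℝ} {M : ℝ}, Measurable H → (∀ p, |H p| ≤ M) →
      (∀ y, IntervalIntegrable (fun z => H (t, y, z)) volume 0 1) ∧
      IntervalIntegrable (fun y => ∫ z in (0 : ℝ)..1, H (t, y, z)) volume 0 1 := fun hH hM =>
    ⟨fun y => intervalIntegrable_of_bound
      (hH.comp (measurable_const.prodMk (measurable_const.prodMk measurable_id))) (fun z => hM _) 0 1,
      intervalIntegrable_of_bound
        ((measurable_line hH).comp (measurable_const.prodMk measurable_id))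
        (fun y => abs_int01_le fun z => hM _) 0 1⟩
  obtain ⟨f1, f2⟩ := hz hF.1 hC
  obtain ⟨g1, g2⟩ := hz hG.1 hD
  obtain ⟨-, d2⟩ := hz (hF.1.sub hG.1).abs (M := C + D) fun p => by
    rw [abs_abs]; exact (abs_sub _ _).trans (add_le_add (hC p) (hD p))
  show |(∫ y in (0 : ℝ)..1, ∫ z in (0 : ℝ)..1, F (t, y, z)) -
    ∫ y in (0 : ℝ)..1, ∫ z in (0 : ℝ)..1, G (t, y, z)| ≤ _
  rw [← intervalIntegral.integral_sub f2 g2]
  refine (intervalIntegral.abs_integral_le_integral_abs zero_le_one).trans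
    (intervalIntegral.integral_mono_on zero_le_one (f2.sub g2).abs d2 fun y _ => ?_)
  rw [← intervalIntegral.integral_sub (f1 y) (g1 y)]
  exact intervalIntegral.abs_integral_le_integral_abs zero_le_one

/-- The distance in mean of the slice areas is at most that of the functions. -/
lemma integral_secA_sub_le {F G : ℝ × ℝ × ℝ → ℝ} (hF : Bd F) (hG : Bd G) :
    ∫ t in (0 : ℝ)..1, |secA F t - secA G t| ≤ ∫ p in cube, |F p - G p| := by
  obtain ⟨C, hC⟩ := hF.2
  obtain ⟨D, hD⟩ := hG.2
  have hd : ∀ p, |(|F p - G p|)| ≤ C + D := fun p => by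
    rw [abs_abs]; exact (abs_sub _ _).trans (add_le_add (hC p) (hD p))
  have hb : Bd fun p => |F p - G p| := ⟨(hF.1.sub hG.1).abs, C + D, hd⟩
  have hs : ∀ {H : ℝ × ℝ × ℝ → ℝ} {M : ℝ}, (∀ p, |H p| ≤ M) → ∀ t, |secA H t| ≤ M :=
    fun hM t => abs_int01_le fun y => abs_int01_le fun z => hM _
  rw [setIntegral_cube hb, int3_eq]
  refine intervalIntegral.integral_mono_on zero_le_one
    (intervalIntegrable_of_bound ((measurable_secA hF.1).sub (measurable_secA hG.1)).abs
      (C := C + D) (fun t => by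
        rw [abs_abs]; exact (abs_sub _ _).trans (add_le_add (hs hC t) (hs hD t))) 0 1)
    (intervalIntegrable_of_bound (measurable_secA hb.1) (fun t => hs hd t) 0 1)
    fun t _ => abs_secA_sub_le hF hG t

lemma secA_chi_mem {E : Set (ℝ × ℝ × ℝ)} (t : ℝ) : secA (chi E) t ∈ Set.Icc (0 : ℝ) 1 :=
  ⟨intervalIntegral.integral_nonneg zero_le_one fun y _ =>
      intervalIntegral.integral_nonneg zero_le_one fun z _ => (chi_mem _).1,
    (le_abs_self _).trans (abs_int01_le fun y => abs_int01_le fun z => abs_chi _)⟩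

lemma integral_secA_chi {E : Set (ℝ × ℝ × ℝ)} (hm : MeasurableSet E) :
    ∫ t in (0 : ℝ)..1, secA (chi E) t = vol E := by
  show int3 (chi E) = vol E
  rw [← setIntegral_cube (bd_chi hm)]
  have h := integral_chi_mul hm (fun _ => (1 : ℝ))
  simpa [vol, Measure.real] using h

/-- The slice areas converge in mean. -/
theorem Appr.tendsto_secA {E : Set (ℝ × ℝ × ℝ)} {w : ℕ → ℝ × ℝ × ℝ → ℝ} (hm : MeasurableSet E)
    (h : Appr E w) :
    Tendsto (fun n => ∫ t in (0 : ℝ)..1, |Axis.secA (w n) t - marg E t|) atTop (𝓝 0) :=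
  squeeze_zero (fun n => intervalIntegral.integral_nonneg zero_le_one fun t _ => abs_nonneg _)
    (fun n => integral_secA_sub_le
      (Approx.bd_of_per (h.dens n).smooth.continuous (h.dens n).per) (Approx.bd_chi hm)) h.conv

end

end Vale.Agent.P232.Rigid
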