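import Vale.Agent.P232.Approx
import Vale.Agent.P232.Torus2

/-!
# P232: balls, tubes and slabs as sets

The shapes are written with the squared distance to the nearest integer in each coordinate, so they
are periodic by definition.
-/

namespace Vale.Agent.P232.Rigid

noncomputable section

open MeasureTheory Set

/-- The squared distance to the nearest integer. -/
def zsq (x : ℝ) : ℝ := (x - round x) ^ 2

/-- The three coordinates. -/
def coord : Fin 3 → ℝ × ℝ × ℝ → ℝ := ![fun p => p.1, fun p => p.2.1, fun p => p.2.2]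

/-- The periodic ball of centre `c` and radius `r`. -/
def ballSet (c : ℝ × ℝ × ℝ) (r : ℝ) : Set (ℝ × ℝ × ℝ) :=
  {p | zsq (p.1 - c.1) + zsq (p.2.1 - c.2.1) + zsq (p.2.2 - c.2.2) < r ^ 2}

/-- The periodic tube of radius `r` about the line through `c` parallel to axis `i`. -/
def tubeSet (i : Fin 3) (c : ℝ × ℝ × ℝ) (r : ℝ) : Set (ℝ × ℝ × ℝ) :=
  {p | zsq (coord (i + 1) p - coord (i + 1) c) + zsq (coord (i + 2) p - coord (i + 2) c) < r ^ 2}

/-- The periodic slab of width `v` normal to axis `i`. -/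
def slabSet (i : Fin 3) (c v : ℝ) : Set (ℝ × ℝ × ℝ) := {p | Int.fract (coord i p - c) < v}

/-- A ball, a tube or a slab, up to a null set. -/
def IsStandard (E : Set (ℝ × ℝ × ℝ)) : Prop :=
  (∃ c r, 0 < r ∧ r < 1 / 2 ∧ E =ᵐ[volume] ballSet c r) ∨
    (∃ i c r, 0 < r ∧ r < 1 / 2 ∧ E =ᵐ[volume] tubeSet i c r) ∨
    ∃ i c v, 0 < v ∧ v < 1 ∧ E =ᵐ[volume] slabSet i c v

/-- Subsets of the square torus, as periodic subsets of the plane. -/
def PerSet2 (S : Set (ℝ × ℝ)) : Prop :=
  ∀ y z : ℝ, ((y + 1, z) ∈ S ↔ (y, z) ∈ S) ∧ ((y, z + 1) ∈ S ↔ (y, z) ∈ S)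

/-- The fundamental square. -/
def square : Set (ℝ × ℝ) := Ico (0 : ℝ) 1 ×ˢ Ico (0 : ℝ) 1

/-- Area of a subset of the square torus. -/
def vol2 (S : Set (ℝ × ℝ)) : ℝ := (volume (S ∩ square)).toReal

/-- Indicator of a planar set. -/
def chi2 (S : Set (ℝ × ℝ)) : ℝ × ℝ → ℝ := S.indicator fun _ => 1

/-- The periodic disc. -/
def discSet (c : ℝ × ℝ) (r : ℝ) : Set (ℝ × ℝ) :=
  {q | zsq (q.1 - c.1) + zsq (q.2 - c.2) < r ^ 2}

/-- The band of width `v` normal to the first axis of the square. -/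
def bandSet (c v : ℝ) : Set (ℝ × ℝ) := {q | Int.fract (q.1 - c) < v}

/-- The area of the slice of a set at `t` along the first axis. -/
def marg (E : Set (ℝ × ℝ × ℝ)) (t : ℝ) : ℝ := area2 fun q => Approx.chi E (t, q)

/-- The length of the line of a planar set at `t` along the first axis. -/
def marg2 (S : Set (ℝ × ℝ)) (t : ℝ) : ℝ := ∫ z in (0 : ℝ)..1, chi2 S (t, z)

/-- The second moment of a periodic function about `c`, over the period centred at `c`. -/
def moment (A : ℝ → ℝ) (c : ℝ) : ℝ := ∫ t in (c - 1 / 2)..(c + 1 / 2), (t - c) ^ 2 * A t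

end

end Vale.Agent.P232.Rigid
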